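import Mathlib

/-!
Block A1: lemmas on topological groups.
-/

open Topology Filter

namespace Vale.Agent.P011N.A1

section index

variable {G : Type} [Group G]

theorem relIndex_ne_zero_of_cover {H X : Subgroup G} {Δ : Set G} (hΔ : Δ.Finite)
    (h : ∀ x ∈ X, ∃ δ ∈ Δ, δ ∈ X ∧ δ⁻¹ * x ∈ H) : H.relIndex X ≠ 0 := by
  have h1 : Finite (X ⧸ H.subgroupOf X) := by
    have h2 : (Subtype.val ⁻¹' Δ : Set X).Finite := hΔ.preimage Subtype.val_injective.injOn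
    have h3 := h2.to_subtype
    refine Finite.of_surjective (fun δ : (Subtype.val ⁻¹' Δ : Set X) =>
      (QuotientGroup.mk δ.1 : X ⧸ H.subgroupOf X)) ?_
    intro y
    obtain ⟨x, rfl⟩ := QuotientGroup.mk_surjective y
    obtain ⟨δ, h4, h5, h6⟩ := h x.1 x.2
    exact ⟨⟨⟨δ, h5⟩, h4⟩, QuotientGroup.eq.mpr h6⟩
  exact Subgroup.index_ne_zero_of_finite

theorem cover_of_relIndex {H X : Subgroup G} (h : H.relIndex X ≠ 0) :
    ∃ Δ : Set G, Δ.Finite ∧ ∀ x ∈ X, ∃ δ ∈ Δ, δ ∈ X ∧ δ⁻¹ * x ∈ H := by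
  have h1 : Finite (X ⧸ H.subgroupOf X) := Subgroup.index_ne_zero_iff_finite.mp h
  refine ⟨Set.range fun y : X ⧸ H.subgroupOf X => (y.out : G), Set.finite_range _, ?_⟩
  intro x hx
  refine ⟨_, ⟨QuotientGroup.mk ⟨x, hx⟩, rfl⟩, Subtype.property _, ?_⟩
  have h2 : (QuotientGroup.mk (QuotientGroup.mk (⟨x, hx⟩ : X) : X ⧸ H.subgroupOf X).out :
      X ⧸ H.subgroupOf X) = QuotientGroup.mk ⟨x, hx⟩ := QuotientGroup.out_eq' _
  have h3 := QuotientGroup.eq.mp h2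
  exact h3

/-- A subgroup of finite relative index contains one which is normalised by the big group. -/
theorem exists_core {Λ X : Subgroup G} (h : Λ.relIndex X ≠ 0) :
    ∃ Λ' : Subgroup G, Λ' ≤ Λ ∧ Λ'.relIndex X ≠ 0 ∧ ∀ γ ∈ X, ∀ x ∈ Λ', γ⁻¹ * x * γ ∈ Λ' := by
  have h1 : (Λ.subgroupOf X).FiniteIndex := ⟨h⟩
  refine ⟨(Λ.subgroupOf X).normalCore.map X.subtype, ?_, ?_, ?_⟩
  · rintro _ ⟨x, hx, rfl⟩
    exact (Λ.subgroupOf X).normalCore_le hx
  · have h2 : ((Λ.subgroupOf X).normalCore.map X.subtype).subgroupOf X =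
        (Λ.subgroupOf X).normalCore :=
      Subgroup.comap_map_eq_self_of_injective X.subtype_injective _
    rw [Subgroup.relIndex, h2]
    exact Subgroup.FiniteIndex.index_ne_zero
  · rintro γ hγ _ ⟨x, hx, rfl⟩
    refine ⟨(⟨γ, hγ⟩ : X)⁻¹ * x * ⟨γ, hγ⟩, ?_, rfl⟩
    exact (Subgroup.normalCore_normal _).conj_mem' x hx ⟨γ, hγ⟩

end index

section cover

variable {G I : Type} [Group G] {L : I → Type} [∀ p, Group (L p)] [∀ p, TopologicalSpace (L p)]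
  [∀ p, IsTopologicalGroup (L p)]

/-- Sets which are bounded at finitely many places meet finitely many cosets. -/
theorem fin_cosets (ι : ∀ p, G →* L p) (K : ∀ p, Subgroup (L p)) {T : Set I} (hT : T.Finite)
    (hK : ∀ p ∈ T, IsOpen (K p : Set (L p))) {X : Set G}
    (hX : ∀ p ∈ T, ∃ D : Set (L p), IsCompact D ∧ ∀ x ∈ X, ι p x ∈ D) :
    ∃ Δ : Set G, Δ.Finite ∧ Δ ⊆ X ∧ ∀ x ∈ X, ∃ δ ∈ Δ, ∀ p ∈ T, ι p (δ⁻¹ * x) ∈ K p := by
  classical
  have := hT.to_subtype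
  let φ : G → ∀ p : T, L p ⧸ K p := fun x p => QuotientGroup.mk (ι p x)
  have h1 : (φ '' X).Finite := by
    choose D hD1 hD2 using hX
    have h2 : ∀ p : T, ((QuotientGroup.mk : L p → L p ⧸ K p) '' D p p.2).Finite := by
      intro p
      have := QuotientGroup.discreteTopology (hK p p.2)
      exact ((hD1 p p.2).image QuotientGroup.continuous_mk).finite_of_discrete
    refine (Set.Finite.pi' h2).subset ?_
    rintro _ ⟨x, hx, rfl⟩ p
    exact ⟨_, hD2 p p.2 x hx, rfl⟩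
  obtain ⟨Δ, h2, h3, h4⟩ := Set.exists_subset_image_finite_and.mp
    (show ∃ t ⊆ φ '' X, t.Finite ∧ t = φ '' X from ⟨_, subset_rfl, h1, rfl⟩)
  refine ⟨Δ, h3, h2, fun x hx => ?_⟩
  have h5 : φ x ∈ φ '' Δ := by
    rw [h4]
    exact ⟨x, hx, rfl⟩
  obtain ⟨δ, h6, h7⟩ := h5
  refine ⟨δ, h6, fun p hp => ?_⟩
  have h8 := congrFun h7 ⟨p, hp⟩
  rw [map_mul, map_inv]
  exact QuotientGroup.eq.mp h8

theorem fin_relIndex (ι : ∀ p, G →* L p) (K : ∀ p, Subgroup (L p)) {T : Set I} (hT : T.Finite)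
    (hK : ∀ p ∈ T, IsOpen (K p : Set (L p))) {X H : Subgroup G}
    (hX : ∀ p ∈ T, ∃ D : Set (L p), IsCompact D ∧ ∀ x ∈ X, ι p x ∈ D)
    (hH : ∀ x ∈ X, (∀ p ∈ T, ι p x ∈ K p) → x ∈ H) : H.relIndex X ≠ 0 := by
  obtain ⟨Δ, h1, h2, h3⟩ := fin_cosets ι K hT hK (X := X) hX
  refine relIndex_ne_zero_of_cover h1 fun x hx => ?_
  obtain ⟨δ, h4, h5⟩ := h3 x hx
  exact ⟨δ, h4, h2 h4, hH _ (X.mul_mem (X.inv_mem (h2 h4)) hx) h5⟩

end cover

section loc

variable {L : Type} [Group L] [TopologicalSpace L] [IsTopologicalGroup L]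

/-- Closed normal subgroups are central or everything. -/
def Loc (L : Type) [Group L] [TopologicalSpace L] : Prop :=
  ∀ W : Subgroup L, IsClosed (W : Set L) → W.Normal → W ≤ Subgroup.center L ∨ W = ⊤

/-- The conjugates of noncentral elements by a fixed compactly generated subgroup are unbounded. -/
def Exit (L : Type) [Group L] [TopologicalSpace L] : Prop :=
  ∃ C : Set L, IsCompact C ∧ ∀ x : L, x ∉ Subgroup.center L → ∀ D : Set L, IsCompact D →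
    ∃ h ∈ Subgroup.closure C, h⁻¹ * x * h ∉ D

/-- The commutator subgroup is not central. -/
theorem Loc.comm_not_le [T2Space L] (h : Loc L) {x : L} (hx : x ∉ Subgroup.center L) :
    ¬ commutator L ≤ Subgroup.center L := by
  intro hc
  have h1 : (Subgroup.centralizer {x}).Normal := by
    refine ⟨fun n hn g => ?_⟩
    have h2 : g * n * g⁻¹ * n⁻¹ ∈ Subgroup.center L :=
      hc (Subgroup.commutator_mem_commutator (Subgroup.mem_top g) (Subgroup.mem_top n))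
    have h3 : g * n * g⁻¹ = (g * n * g⁻¹ * n⁻¹) * n := by group
    rw [h3]
    exact Subgroup.mul_mem _ (Subgroup.center_le_centralizer _ h2) hn
  rcases h _ (Set.isClosed_centralizer _) h1 with h2 | h2
  · exact hx (h2 (Subgroup.mem_centralizer_singleton_iff.mpr rfl))
  · refine hx (Subgroup.mem_center_iff.mpr fun g => ?_)
    have h3 : g ∈ Subgroup.centralizer {x} := h2 ▸ Subgroup.mem_top g
    exact Subgroup.mem_centralizer_singleton_iff.mp h3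

/-- A closed normal subgroup which contains the commutators with a noncentral element is
everything. -/
theorem Loc.eq_top [T2Space L] (h : Loc L) {x : L} (hx : x ∉ Subgroup.center L) {W : Subgroup L}
    (h1 : IsClosed (W : Set L)) (h2 : W.Normal) (h3 : ∀ y, x * y * x⁻¹ * y⁻¹ ∈ W) : W = ⊤ := by
  refine (h W h1 h2).resolve_left fun h4 => ?_
  have h5 : ∀ y z, z * (x * y * x⁻¹ * y⁻¹) = (x * y * x⁻¹ * y⁻¹) * z :=
    fun y z => Subgroup.mem_center_iff.mp (h4 (h3 y)) z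
  have h6 : (Subgroup.centralizer {x}).Normal := by
    refine ⟨fun n hn g => ?_⟩
    rw [Subgroup.mem_centralizer_singleton_iff] at hn ⊢
    have e1 : x * g = (x * g * x⁻¹ * g⁻¹) * g * x := by group
    have e2 : g⁻¹ * x = x * g⁻¹ * (g * x⁻¹ * g⁻¹ * x) := by group
    have e3 : g * x⁻¹ * g⁻¹ * x = x * g * x⁻¹ * g⁻¹ := by
      have := h5 g x⁻¹
      calc g * x⁻¹ * g⁻¹ * x = (x⁻¹ * (x * g * x⁻¹ * g⁻¹)) * x := by group
        _ = (x * g * x⁻¹ * g⁻¹) * x⁻¹ * x := by rw [this]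
        _ = _ := by group
    calc g * n * g⁻¹ * x = g * n * (g⁻¹ * x) := by group
      _ = g * (n * x) * g⁻¹ * (x * g * x⁻¹ * g⁻¹) := by rw [e2, e3]; group
      _ = (g * x * n * g⁻¹) * (x * g * x⁻¹ * g⁻¹) := by rw [hn]; group
      _ = (x * g * x⁻¹ * g⁻¹) * (g * x * n * g⁻¹) := h5 _ _
      _ = _ := by group
  rcases h _ (Set.isClosed_centralizer _) h6 with h7 | h7
  · exact hx (h7 (Subgroup.mem_centralizer_singleton_iff.mpr rfl))
  · refine hx (Subgroup.mem_center_iff.mpr fun g => ?_)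
    have h3 : g ∈ Subgroup.centralizer {x} := h7 ▸ Subgroup.mem_top g
    exact Subgroup.mem_centralizer_singleton_iff.mp h3

/-- There are no continuous characters. -/
theorem Loc.char [T2Space L] (h : Loc L) {x : L} (hx : x ∉ Subgroup.center L)
    (χ : L →* Multiplicative ℝ) (hχ : Continuous χ) (y : L) : χ y = 1 := by
  have h1 : χ.ker = ⊤ := by
    refine h.eq_top hx (isClosed_singleton.preimage hχ) inferInstance fun y => ?_
    rw [MonoidHom.mem_ker, map_mul, map_mul, map_mul, map_inv, map_inv, mul_comm (χ x) (χ y)]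
    group
  have h2 : y ∈ χ.ker := h1 ▸ Subgroup.mem_top y
  exact h2

variable {G : Type} [Group G]

/-- A closed subgroup normalised by a dense subgroup is normal. -/
theorem normal_of_dense {ι : G →* L} (hι : DenseRange ι) {W : Subgroup L}
    (h1 : IsClosed (W : Set L)) (h2 : ∀ g, ∀ x ∈ W, ι g * x * (ι g)⁻¹ ∈ W) : W.Normal := by
  refine ⟨fun x hx y => ?_⟩
  refine hι.induction_on (p := fun y => y * x * y⁻¹ ∈ W) y ?_ fun g => h2 g x hx
  exact h1.preimage (f := fun y : L => y * x * y⁻¹) (by fun_prop)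

theorem center_of_dense [T2Space L] {ι : G →* L} (hι : DenseRange ι) {g : G}
    (hg : g ∈ Subgroup.center G) : ι g ∈ Subgroup.center L := by
  rw [Subgroup.mem_center_iff] at hg ⊢
  intro y
  refine hι.induction_on (p := fun y => y * ι g = ι g * y) y ?_ fun x => ?_
  · exact isClosed_eq (by fun_prop) (by fun_prop)
  · rw [← map_mul, ← map_mul, hg]

omit [TopologicalSpace L] [IsTopologicalGroup L] in
theorem center_of_inj {ι : G →* L} (hι : Function.Injective ι) {g : G}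
    (hg : ι g ∈ Subgroup.center L) : g ∈ Subgroup.center G := by
  rw [Subgroup.mem_center_iff] at hg ⊢
  intro y
  apply hι
  rw [map_mul, map_mul, hg]

/-- Subgroups of finite index of a cocompact subgroup are not central. -/
theorem not_central [T2Space L] {ι : G →* L} (hι : DenseRange ι) (he : Exit L) {x : L}
    (hx : x ∉ Subgroup.center L) {Γ Δ : Subgroup G} {C : Set L} (hC : IsCompact C)
    (hΓ : ∀ h : L, ∃ γ ∈ Γ, (ι γ)⁻¹ * h ∈ C) (hΔ : Δ.relIndex Γ ≠ 0) :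
    ∃ g ∈ Δ, g ∈ Γ ∧ g ∉ Subgroup.center G := by
  by_contra hcon
  push Not at hcon
  obtain ⟨T, hT, h1⟩ := cover_of_relIndex hΔ
  obtain ⟨C0, -, h2⟩ := he
  have h3 : IsCompact ((fun z : L × L => (z.1⁻¹ * z.2)⁻¹ * x * (z.1⁻¹ * z.2)) ''
      ((ι '' T) ×ˢ C)) :=
    ((hT.image ι).isCompact.prod hC).image (by fun_prop)
  obtain ⟨h, -, h4⟩ := h2 x hx _ h3
  apply h4
  obtain ⟨γ, hγ, h5⟩ := hΓ h
  obtain ⟨δ, h6, h7, h8⟩ := h1 γ⁻¹ (Γ.inv_mem hγ)
  have h9 := Subgroup.mem_center_iff.mp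
    (center_of_dense hι (hcon _ h8 (Γ.mul_mem (Γ.inv_mem h7) (Γ.inv_mem hγ))))
  refine ⟨(ι δ, (ι γ)⁻¹ * h), ⟨⟨δ, h6, rfl⟩, h5⟩, ?_⟩
  have h10 := h9 x
  rw [map_mul, map_inv, map_inv] at h10
  change ((ι δ)⁻¹ * ((ι γ)⁻¹ * h))⁻¹ * x * ((ι δ)⁻¹ * ((ι γ)⁻¹ * h)) = _
  calc _ = h⁻¹ * ((ι δ)⁻¹ * (ι γ)⁻¹)⁻¹ * (x * ((ι δ)⁻¹ * (ι γ)⁻¹)) * h := by group
    _ = _ := by rw [h10]; group

/-- The shell around a compact open subgroup. -/
theorem exists_shell (he : Exit L) {K : Subgroup L} (hK1 : IsOpen (K : Set L))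
    (hK2 : IsCompact (K : Set L)) {ι : G →* L} {Γ : Subgroup G} {C : Set L} (hC : IsCompact C)
    (hΓ : ∀ h : L, ∃ γ ∈ Γ, (ι γ)⁻¹ * h ∈ C) :
    ∃ S : Set L, IsCompact S ∧ (∀ y ∈ S, y ∉ Subgroup.center L) ∧
      ∀ x : G, ι x ∈ K → ι x ∉ Subgroup.center L → ∃ γ ∈ Γ, ι (γ⁻¹ * x * γ) ∈ S := by
  obtain ⟨C0, hC0, h2⟩ := he
  let C1 : Set L := insert 1 C
  have hC1 : IsCompact C1 := hC.insert 1
  let C2 : Set L := C0 ∪ C0⁻¹
  have hC2 : IsCompact C2 := hC0.union hC0.inv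
  let S0 : Set L := (fun z : (L × L × L) × L =>
    (z.1.1 * z.1.2.1 * z.1.2.2⁻¹)⁻¹ * z.2 * (z.1.1 * z.1.2.1 * z.1.2.2⁻¹)) ''
      ((C1 ×ˢ C2 ×ˢ C1) ×ˢ (K : Set L))
  have hS0 : IsCompact S0 := ((hC1.prod (hC2.prod hC1)).prod hK2).image (by fun_prop)
  refine ⟨S0 \ K, hS0.diff hK1, ?_, ?_⟩
  · rintro _ ⟨⟨⟨⟨a, c, b⟩, y⟩, ⟨-, hy⟩, rfl⟩, h3⟩ h4
    apply h3
    have h5 := Subgroup.mem_center_iff.mp h4 (a * c * b⁻¹)
    have h6 : (a * c * b⁻¹)⁻¹ * y * (a * c * b⁻¹) = y := by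
      have h7 : (a * c * b⁻¹) * ((a * c * b⁻¹)⁻¹ * y * (a * c * b⁻¹)) = y * (a * c * b⁻¹) := by
        group
      exact mul_right_cancel (h5.symm.trans h7)
    change (a * c * b⁻¹)⁻¹ * y * (a * c * b⁻¹) ∈ (K : Set L)
    rw [h6]
    exact hy
  · intro x hxK hx
    by_contra hcon
    push Not at hcon
    have step : ∀ h c : L, c ∈ C2 → (∃ γ ∈ Γ, (ι γ)⁻¹ * h ∈ C1 ∧ ι (γ⁻¹ * x * γ) ∈ K) →
        ∃ γ ∈ Γ, (ι γ)⁻¹ * (h * c) ∈ C1 ∧ ι (γ⁻¹ * x * γ) ∈ K := by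
      rintro h c hc ⟨γ, hγ, h3, h4⟩
      obtain ⟨γ', hγ', h5⟩ := hΓ (h * c)
      refine ⟨γ', hγ', Set.mem_insert_of_mem _ h5, ?_⟩
      by_contra h6
      refine hcon γ' hγ' ⟨⟨(((ι γ)⁻¹ * h, c, (ι γ')⁻¹ * (h * c)), ι (γ⁻¹ * x * γ)),
        ⟨⟨h3, hc, Set.mem_insert_of_mem _ h5⟩, h4⟩, ?_⟩, h6⟩
      simp only [map_mul, map_inv]
      group
    have h3 : ∀ h ∈ Subgroup.closure C0, ∃ γ ∈ Γ, (ι γ)⁻¹ * h ∈ C1 ∧ ι (γ⁻¹ * x * γ) ∈ K := by
      intro h hh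
      induction hh using Subgroup.closure_induction_right with
      | one => exact ⟨1, Γ.one_mem, by simp [C1], by simpa using hxK⟩
      | mul_right y _ c hc ih => exact step y c (Or.inl hc) ih
      | mul_inv_cancel y _ c hc ih => exact step y c⁻¹ (Or.inr (Set.inv_mem_inv.mpr hc)) ih
    have h4 : IsCompact ((fun z : L × L => z.1⁻¹ * z.2 * z.1) '' (C1 ×ˢ (K : Set L))) :=
      (hC1.prod hK2).image (by fun_prop)
    obtain ⟨h, hh, h5⟩ := h2 _ hx _ h4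
    obtain ⟨γ, -, h6, h7⟩ := h3 h hh
    refine h5 ⟨((ι γ)⁻¹ * h, ι (γ⁻¹ * x * γ)), ⟨h6, h7⟩, ?_⟩
    simp only [map_mul, map_inv]
    group

end loc

end Vale.Agent.P011N.A1
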