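import Vale.Agent.P011N.A1.Abs1
import Vale.Agent.P011N.Iface

/-!
Block A1: the abstract finiteness theorem for a group with a family of local groups.
-/

open Topology Filter

set_option linter.unusedSectionVars false

namespace Vale.Agent.P011N.A1

variable {G I : Type} [Group G] [DecidableEq I] {L : I → Type} [∀ p, Group (L p)]
  [∀ p, TopologicalSpace (L p)] [∀ p, IsTopologicalGroup (L p)] [∀ p, T2Space (L p)]
  [∀ p, LocallyCompactSpace (L p)] [∀ p, SecondCountableTopology (L p)]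

/-- The elements which are integral outside `S`. -/
def Gam (ι : ∀ p, G →* L p) (K : ∀ p, Subgroup (L p)) (S : Set I) : Subgroup G where
  carrier := {g | ∀ p, p ∉ S → ι p g ∈ K p}
  mul_mem' := fun {a b} ha hb p hp => by
    rw [map_mul]
    exact (K p).mul_mem (ha p hp) (hb p hp)
  one_mem' := fun p _ => by
    rw [map_one]
    exact (K p).one_mem
  inv_mem' := fun {a} ha p hp => by
    rw [map_inv]
    exact (K p).inv_mem (ha p hp)

/-- The closure of a subgroup in the product of all local groups. -/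
def clo (ι : ∀ p, G →* L p) (M : Subgroup G) : Subgroup (∀ p, L p) :=
  (M.map (MonoidHom.pi ι)).topologicalClosure

/-- The hypotheses on the family of local groups. -/
structure Sys (ι : ∀ p, G →* L p) (K : ∀ p, Subgroup (L p)) (inf nc : Set I) (q : I) : Prop where
  inf_fin : inf.Finite
  cpt_fin : ncᶜ.Finite
  cpt : ∀ p, p ∉ nc → CompactSpace (L p)
  K_open : ∀ p, IsOpen (K p : Set (L p))
  K_cpt : ∀ p, p ∉ inf → IsCompact (K p : Set (L p))
  K_inf : ∀ p ∈ inf, K p = ⊤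
  ae : ∀ g, {p | ι p g ∉ K p}.Finite
  dense : ∀ p, DenseRange (ι p)
  inj : ∀ p, Function.Injective (ι p)
  loc : ∀ p ∈ nc, Loc (L p)
  exit : ∀ p ∈ nc, Exit (L p)
  wa : ∀ p ∈ nc, ∀ x : L p, Pi.mulSingle p x ∈ clo ι ⊤
  disc : ∀ C : ∀ p, Set (L p), (∀ p, IsCompact (C p)) →
    {g | g ∈ Gam ι K {q} ∧ ι q g ∈ C q ∧ ∀ p ∈ inf, ι p g ∈ C p}.Finite
  coc : ∀ S₀ : Set I, S₀.Finite → ∃ S : Set I, S.Finite ∧ S₀ ⊆ S ∧ ∃ C : ∀ p, Set (L p),
    (∀ p, IsCompact (C p)) ∧ ∀ g, ∃ γ ∈ Gam ι K S, ∀ p ∈ S ∪ inf, ι p (γ⁻¹ * g) ∈ C p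
  gen : ∀ p ∈ nc, p = q ∨ p ∈ inf → ∃ C : Set (L p), IsCompact C ∧ Subgroup.closure C = ⊤
  q_nc : q ∈ nc

variable {ι : ∀ p, G →* L p} {K : ∀ p, Subgroup (L p)} {inf nc : Set I} {q : I}

theorem Gam.mono {S T : Set I} (h : S ⊆ T) : Gam ι K S ≤ Gam ι K T :=
  fun _ hg p hp => hg p fun h1 => hp (h h1)

/-- Approximation at finitely many places. -/
theorem approx {M : Subgroup G} {J : Finset I}
    (hM : ∀ p ∈ J, ∀ x : L p, Pi.mulSingle p x ∈ clo ι M) (h : ∀ p, L p)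
    {T : Set I} (hT : T.Finite) (U : ∀ p, Set (L p)) (hU1 : ∀ p ∈ J, U p ∈ 𝓝 (h p))
    (hU2 : ∀ p ∈ T, p ∉ J → U p ∈ 𝓝 (1 : L p)) :
    ∃ g ∈ M, ∀ p, p ∈ J ∨ p ∈ T → ι p g ∈ U p := by
  let h' : ∀ p, L p := fun p => if p ∈ J then h p else 1
  have h1 : h' ∈ clo ι M :=
    Submonoid.pi_mem_of_mulSingle_mem_aux J h' (fun p hp => if_neg hp) fun p hp => hM p hp _
  have h2 : Set.pi ((J : Set I) ∪ T) U ∈ 𝓝 h' := by
    refine set_pi_mem_nhds (J.finite_toSet.union hT) fun p hp => ?_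
    by_cases h3 : p ∈ J
    · have h4 : h' p = h p := if_pos h3
      rw [h4]
      exact hU1 p h3
    · have h4 : h' p = 1 := if_neg h3
      rw [h4]
      exact hU2 p (hp.resolve_left h3) h3
  obtain ⟨_, h3, g, hg, rfl⟩ := mem_closure_iff_nhds.mp h1 _ h2
  exact ⟨g, hg, fun p hp => h3 p hp⟩

/-- Cocompactness at noncompact places. -/
theorem Sys.cocJ (H : Sys ι K inf nc q) {J : Finset I} (hJ : ∀ p ∈ J, p ∈ nc) {S : Set I}
    (hS : S.Finite) (hJS : ∀ p ∈ J, p ∈ S ∨ p ∈ inf) :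
    ∃ C : ∀ p, Set (L p), (∀ p, IsCompact (C p)) ∧
      ∀ h : ∀ p, L p, ∃ γ ∈ Gam ι K S, ∀ p ∈ J, (ι p γ)⁻¹ * h p ∈ C p := by
  obtain ⟨S', hS', hSS', C, hC, h1⟩ := H.coc S hS
  have hV : ∀ p, ∃ V : Set (L p), IsCompact V ∧ V ∈ 𝓝 (1 : L p) := fun p =>
    exists_compact_mem_nhds 1
  choose V hV1 hV2 using hV
  let T : Set I := (S' \ S) \ inf
  have hT : T.Finite := (hS'.subset Set.sdiff_subset).subset Set.sdiff_subset
  let D : ∀ p, Set (L p) := fun p => (fun z : L p × L p => z.1 * z.2⁻¹) '' (C p ×ˢ (K p : Set (L p)))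
  let X : Set G := {x | x ∈ Gam ι K S' ∧ ∀ p ∈ T, ι p x ∈ D p}
  obtain ⟨Δ, hΔ, hΔX, h2⟩ := fin_cosets ι K hT (fun p _ => H.K_open p) (X := X) fun p hp =>
    ⟨D p, ((hC p).prod (H.K_cpt p hp.2)).image (by fun_prop), fun x hx => hx.2 p hp⟩
  refine ⟨fun p => (fun z : L p × L p × L p => z.1⁻¹ * z.2.1 * z.2.2) ''
    ((ι p '' Δ) ×ˢ C p ×ˢ V p), fun p =>
      ((hΔ.image _).isCompact.prod ((hC p).prod (hV1 p))).image (by fun_prop), fun h => ?_⟩
  obtain ⟨g, -, hg⟩ := approx (M := ⊤) (J := J) (fun p hp => H.wa p (hJ p hp)) h hT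
    (fun p => if p ∈ J then {y | y⁻¹ * h p ∈ V p} else K p)
    (fun p hp => by
      rw [if_pos hp]
      have h5 : Continuous fun y : L p => y⁻¹ * h p := by fun_prop
      refine h5.continuousAt.preimage_mem_nhds ?_
      rw [inv_mul_cancel]
      exact hV2 p)
    (fun p _ hp => by
      rw [if_neg hp]
      exact (H.K_open p).mem_nhds (K p).one_mem)
  obtain ⟨γ, hγ, h3⟩ := h1 g
  have h4 : γ⁻¹ ∈ X := by
    refine ⟨(Gam ι K S').inv_mem hγ, fun p hp => ?_⟩
    have h5 : p ∉ J := fun h6 => (hJS p h6).elim hp.1.2 hp.2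
    have h6 := hg p (Or.inr hp)
    rw [if_neg h5] at h6
    refine ⟨(ι p (γ⁻¹ * g), ι p g), ⟨h3 p (Or.inl hp.1.1), h6⟩, ?_⟩
    simp only [map_mul, mul_inv_cancel_right]
  obtain ⟨δ, hδ, h5⟩ := h2 _ h4
  refine ⟨(δ⁻¹ * γ⁻¹)⁻¹, (Gam ι K S).inv_mem fun p hp => ?_, fun p hp => ?_⟩
  · by_cases h6 : p ∈ inf
    · rw [H.K_inf p h6]
      exact Subgroup.mem_top _
    by_cases h7 : p ∈ S'
    · exact h5 p ⟨⟨h7, hp⟩, h6⟩
    · exact ((Gam ι K S').mul_mem ((Gam ι K S').inv_mem (hΔX hδ).1) h4.1) p h7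
  · have h6 := hg p (Or.inl hp)
    rw [if_pos hp] at h6
    refine ⟨(ι p δ, ι p (γ⁻¹ * g), (ι p g)⁻¹ * h p), ⟨⟨δ, hδ, rfl⟩,
      h3 p ((hJS p hp).imp (fun h7 => hSS' h7) id), h6⟩, ?_⟩
    simp only [map_mul, map_inv]
    group

/-- Commensuration. -/
theorem Sys.comm (H : Sys ι K inf nc q) (S : Set I) (g : G) :
    ((Gam ι K S).comap (MulAut.conj g).toMonoidHom).relIndex (Gam ι K S) ≠ 0 := by
  let T : Set I := ({p | ι p g ∉ K p} \ S) \ inf
  have hT : T.Finite := ((H.ae g).subset Set.sdiff_subset).subset Set.sdiff_subset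
  refine fin_relIndex ι (fun p => (K p).comap (MulAut.conj (ι p g)).toMonoidHom) hT
    (fun p _ => (H.K_open p).preimage (f := fun y : L p => ι p g * y * (ι p g)⁻¹) (by fun_prop))
    (fun p hp => ⟨K p, H.K_cpt p hp.2, fun x hx => hx p hp.1.2⟩) ?_
  intro x hx h1 p hp
  change ι p (g * x * g⁻¹) ∈ K p
  by_cases h2 : p ∈ inf
  · rw [H.K_inf p h2]
    exact Subgroup.mem_top _
  rw [map_mul, map_mul, map_inv]
  by_cases h3 : ι p g ∈ K p
  · exact (K p).mul_mem ((K p).mul_mem h3 (hx p hp)) ((K p).inv_mem h3)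
  · exact h1 p ⟨⟨h3, hp⟩, h2⟩

/-- Noncentral normal subgroups are dense at the noncompact places. -/
theorem Sys.dense_normal (H : Sys ι K inf nc q) {N : Subgroup G} (hN : N.Normal) {n : G}
    (hn : n ∈ N) (hn' : n ∉ Subgroup.center G) {p : I} (hp : p ∈ nc) (x : L p) :
    Pi.mulSingle p x ∈ clo ι N := by
  have hc : Continuous (MonoidHom.mulSingle L p) := continuous_mulSingle p
  have h1 : ∀ y ∈ clo ι ⊤, ∀ z ∈ clo ι N, y * z * y⁻¹ ∈ clo ι N := by
    intro y hy z hz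
    have h2 : Set.MapsTo (fun u : (∀ p, L p) × (∀ p, L p) => u.1 * u.2 * u.1⁻¹)
        (((⊤ : Subgroup G).map (MonoidHom.pi ι) : Set (∀ p, L p)) ×ˢ
          (N.map (MonoidHom.pi ι) : Set (∀ p, L p))) (N.map (MonoidHom.pi ι) : Set (∀ p, L p)) := by
      rintro ⟨_, _⟩ ⟨⟨a, -, rfl⟩, ⟨b, hb, rfl⟩⟩
      exact ⟨a * b * a⁻¹, hN.conj_mem b hb a, by rw [map_mul, map_mul, map_inv]⟩
    have h3 := h2.closure (by fun_prop)
    rw [closure_prod_eq] at h3
    exact h3 (show (y, z) ∈ _ from ⟨hy, hz⟩)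
  have h2 : (clo ι N).comap (MonoidHom.mulSingle L p) = ⊤ := by
    refine (H.loc p hp).eq_top (x := ι p n) (fun h => hn' (center_of_inj (H.inj p) h))
      ((Subgroup.isClosed_topologicalClosure _).preimage hc) ⟨fun y hy z => ?_⟩ fun y => ?_
    · rw [Subgroup.mem_comap, map_mul, map_mul, map_inv]
      exact h1 _ (H.wa p hp z) _ hy
    · have h3 : MonoidHom.pi ι n ∈ clo ι N := Subgroup.le_topologicalClosure _ ⟨n, hn, rfl⟩
      have h4 := (clo ι N).mul_mem h3 (h1 _ (H.wa p hp y) _ ((clo ι N).inv_mem h3))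
      rw [Subgroup.mem_comap]
      convert h4 using 1
      funext w
      by_cases h5 : w = p
      · subst h5
        simp [mul_assoc]
      · simp [h5]
  have h3 : x ∈ (clo ι N).comap (MonoidHom.mulSingle L p) := h2 ▸ Subgroup.mem_top x
  exact h3

/-- The intersection with the lattice has finite index in the lattice. -/
theorem Sys.relIndex_ne (hnst : NST) (H : Sys ι K inf nc q) {N : Subgroup G} (hN : N.Normal)
    {n : G} (hn : n ∈ N) (hn' : n ∉ Subgroup.center G) : N.relIndex (Gam ι K {q}) ≠ 0 := by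
  classical
  have hJf : {p | p ∈ nc ∧ (p = q ∨ p ∈ inf)}.Finite :=
    (H.inf_fin.insert q).subset fun p hp => hp.2
  let J : Finset I := hJf.toFinset
  have hJ : ∀ p, p ∈ J ↔ p ∈ nc ∧ (p = q ∨ p ∈ inf) := fun p => hJf.mem_toFinset
  have hq : q ∈ J := (hJ q).mpr ⟨H.q_nc, Or.inl rfl⟩
  let j : G →* ∀ p : J, L p := MonoidHom.pi fun p : J => ι p
  have hj : Function.Injective j := fun a b hab => H.inj q (congrFun hab ⟨q, hq⟩)
  let ext : (∀ p : J, L p) → ∀ p, L p := fun h p => if hp : p ∈ J then h ⟨p, hp⟩ else 1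
  have hext : ∀ h (p : J), ext h p = h p := fun h p => dif_pos p.2
  rw [← Subgroup.relIndex_map_map_of_injective N _ hj]
  refine hnst (∀ p : J, L p) _ _ ⟨?_, ?_, ?_, ?_⟩ ?_ ?_ ?_
  · intro C hC
    let D : ∀ p, Set (L p) := fun p =>
      if hp : p ∈ J then (fun h : ∀ p : J, L p => h ⟨p, hp⟩) '' C else
        if p ∈ nc then ∅ else Set.univ
    have hD : ∀ p, IsCompact (D p) := by
      intro p
      by_cases hp : p ∈ J
      · simp only [D, dif_pos hp]
        exact hC.image (continuous_apply _)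
      · by_cases hp' : p ∈ nc
        · simp only [D, dif_neg hp, if_pos hp']
          exact isCompact_empty
        · simp only [D, dif_neg hp, if_neg hp']
          have := H.cpt p hp'
          exact isCompact_univ
    refine ((H.disc D hD).image j).subset ?_
    rintro _ ⟨h1, g, hg, rfl⟩
    refine ⟨g, ⟨hg, ?_, fun p hp => ?_⟩, rfl⟩
    · simp only [D, dif_pos hq]
      exact ⟨_, h1, rfl⟩
    · by_cases hp1 : p ∈ J
      · simp only [D, dif_pos hp1]
        exact ⟨_, h1, rfl⟩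
      · have hp2 : p ∉ nc := fun h2 => hp1 ((hJ p).mpr ⟨h2, Or.inr hp⟩)
        simp only [D, dif_neg hp1, if_neg hp2]
        exact Set.mem_univ _
  · obtain ⟨C, hC, h1⟩ := H.cocJ (J := J) (fun p hp => ((hJ p).mp hp).1) (Set.finite_singleton q)
      fun p hp => ((hJ p).mp hp).2
    refine ⟨Set.pi Set.univ fun p : J => C p, isCompact_univ_pi fun p => hC p, fun h => ?_⟩
    obtain ⟨γ, hγ, h2⟩ := h1 (ext h)
    refine ⟨j γ, ⟨γ, hγ, rfl⟩, fun p _ => ?_⟩
    have h3 := h2 p p.2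
    rw [hext] at h3
    exact h3
  · rintro _ ⟨a, -, rfl⟩ _ ⟨b, hb, rfl⟩
    exact ⟨a * b * a⁻¹, hN.conj_mem b hb a, by rw [map_mul, map_mul, map_inv]⟩
  · rintro _ ⟨a, -, rfl⟩
    have h1 := H.comm {q} a
    rw [← Subgroup.relIndex_map_map_of_injective _ _ hj] at h1
    refine fun h2 => h1 (Subgroup.relIndex_eq_zero_of_le_left ?_ h2)
    rintro _ ⟨b, hb, rfl⟩
    refine ⟨a * b * a⁻¹, hb, ?_⟩
    rw [map_mul, map_mul, map_inv]
    rfl
  · intro h
    rw [mem_closure_iff_nhds]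
    intro O hO
    rw [nhds_pi, Filter.mem_pi] at hO
    obtain ⟨_, -, U, hU, h1⟩ := hO
    obtain ⟨g, hg, h2⟩ := approx (M := N) (J := J)
      (fun p hp => H.dense_normal hN hn hn' ((hJ p).mp hp).1) (ext h) Set.finite_empty
      (fun p => if hp : p ∈ J then U ⟨p, hp⟩ else Set.univ)
      (fun p hp => by
        rw [dif_pos hp, hext h ⟨p, hp⟩]
        exact hU _) (fun p hp => hp.elim)
    refine ⟨j g, h1 fun p _ => ?_, g, hg, rfl⟩
    have h3 := h2 p (Or.inl p.2)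
    rw [dif_pos p.2] at h3
    exact h3
  · have h1 : ∀ p : J, ∃ C : Set (L p), IsCompact C ∧ Subgroup.closure C = ⊤ := fun p =>
      H.gen p ((hJ p).mp p.2).1 ((hJ p).mp p.2).2
    choose C hC1 hC2 using h1
    refine ⟨Set.pi Set.univ fun p => insert 1 (C p),
      isCompact_univ_pi fun p => (hC1 p).insert 1, ?_⟩
    rw [Subgroup.closure_pi fun p => Set.mem_insert _ _, eq_top_iff]
    intro h _ p _
    have h2 : h p ∈ Subgroup.closure (C p) := hC2 p ▸ Subgroup.mem_top _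
    exact Subgroup.closure_mono (Set.subset_insert _ _) h2
  · intro χ hχ h
    have hc : ∀ p : J, Continuous (MonoidHom.mulSingle (fun p : J => L p) p) := fun p =>
      continuous_mulSingle (A := fun p : J => L p) p
    refine Subgroup.pi_mem_of_mulSingle_mem (H := χ.ker) h fun p => ?_
    exact (H.loc p ((hJ p).mp p.2).1).char (x := ι p n)
      (fun h => hn' (center_of_inj (H.inj p) h))
      (χ.comp (MonoidHom.mulSingle (fun p : J => L p) p)) (hχ.comp (hc p)) (h p)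

/-- Strong approximation at one place. -/
theorem Sys.strong (hnst : NST) (H : Sys ι K inf nc q) {N : Subgroup G} (hN : N.Normal)
    {n : G} (hn : n ∈ N) (hn' : n ∉ Subgroup.center G) {v : I} (hv : v ∈ nc) (hv' : v ∉ inf)
    (hvq : v ≠ q) (y : L v) {U : Set (L v)} (hU : U ∈ 𝓝 y) :
    ∃ x ∈ N, x ∈ Gam ι K {q, v} ∧ ι v x ∈ U := by
  let Γ := Gam ι K {q, v}
  let F := {Λ : Subgroup G // Λ.relIndex Γ ≠ 0}
  let c : F → Subgroup (L v) := fun Λ => ((N ⊓ Λ.1).map (ι v)).topologicalClosure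
  have hc : ∀ Λ, IsClosed (c Λ : Set (L v)) := fun Λ => Subgroup.isClosed_topologicalClosure _
  let Γ0 : F := ⟨Γ, by rw [Subgroup.relIndex_self]; exact one_ne_zero⟩
  have hne : Nonempty F := ⟨Γ0⟩
  obtain ⟨C, hC, h1⟩ := H.cocJ (J := {v}) (fun p hp => Finset.mem_singleton.mp hp ▸ hv)
    (Set.toFinite {q, v}) fun p hp => Or.inl (Or.inr (Finset.mem_singleton.mp hp))
  have h2 : ∀ h : L v, ∃ γ ∈ Γ, (ι v γ)⁻¹ * h ∈ C v := by
    intro h
    obtain ⟨γ, hγ, h3⟩ := h1 (Pi.mulSingle v h)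
    have h4 := h3 v (Finset.mem_singleton_self v)
    rw [Pi.mulSingle_eq_same] at h4
    exact ⟨γ, hγ, h4⟩
  obtain ⟨C', hC', h1'⟩ := H.cocJ (J := {q}) (fun p hp => Finset.mem_singleton.mp hp ▸ H.q_nc)
    (Set.toFinite {q}) fun p hp => Or.inl (Finset.mem_singleton.mp hp)
  have h2' : ∀ h : L q, ∃ γ ∈ Gam ι K {q}, (ι q γ)⁻¹ * h ∈ C' q := by
    intro h
    obtain ⟨γ, hγ, h3⟩ := h1' (Pi.mulSingle q h)
    have h4 := h3 q (Finset.mem_singleton_self q)
    rw [Pi.mulSingle_eq_same] at h4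
    exact ⟨γ, hγ, h4⟩
  obtain ⟨S, hS, hS1, hS2⟩ := exists_shell (H.exit v hv) (H.K_open v) (H.K_cpt v hv') (hC v) h2
  have h3 : ∀ Λ : F, (S ∩ c Λ).Nonempty := by
    intro Λ
    obtain ⟨Λ', h4, h5, h6⟩ := exists_core Λ.2
    have h7 : (N ⊓ Λ').relIndex (Gam ι K {q}) ≠ 0 :=
      Subgroup.relIndex_inf_ne_zero (H.relIndex_ne hnst hN hn hn') fun h8 =>
        h5 (Subgroup.relIndex_eq_zero_of_le_right (Gam.mono (by simp)) h8)
    obtain ⟨x, hx, hx1, hx2⟩ := not_central (H.dense q) (H.exit q H.q_nc) (x := ι q n)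
      (fun h => hn' (center_of_inj (H.inj q) h)) (hC' q) h2' h7
    obtain ⟨γ, hγ, h8⟩ := hS2 x (hx1 v hvq) fun h => hx2 (center_of_inj (H.inj v) h)
    exact ⟨_, h8, Subgroup.le_topologicalClosure _
      ⟨_, ⟨hN.conj_mem' x hx.1 γ, h4 (h6 γ hγ x hx.2)⟩, rfl⟩⟩
  have h4 : (S ∩ ⋂ Λ, (c Λ : Set (L v))).Nonempty := by
    rw [Set.nonempty_iff_ne_empty]
    intro h5
    obtain ⟨Λ, h6⟩ := hS.elim_directed_family_closed _ hc h5 fun a b =>
      ⟨⟨a.1 ⊓ b.1, Subgroup.relIndex_inf_ne_zero a.2 b.2⟩,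
        Subgroup.topologicalClosure_mono (Subgroup.map_mono (inf_le_inf_left _ inf_le_left)),
        Subgroup.topologicalClosure_mono (Subgroup.map_mono (inf_le_inf_left _ inf_le_right))⟩
    exact (h3 Λ).ne_empty h6
  have h5 : IsClosed ((⨅ Λ, c Λ : Subgroup (L v)) : Set (L v)) := by
    rw [Subgroup.coe_iInf]
    exact isClosed_iInter hc
  have h6 : (⨅ Λ, c Λ : Subgroup (L v)).Normal := by
    refine normal_of_dense (H.dense v) h5 fun g x hx => ?_
    rw [Subgroup.mem_iInf] at hx ⊢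
    intro Λ
    have h7 : (Λ.1.comap (MulAut.conj g).toMonoidHom).relIndex Γ ≠ 0 :=
      Subgroup.relIndex_ne_zero_trans (Subgroup.relIndex_comap_ne_zero _ Λ.2) (H.comm _ g)
    have h8 : Set.MapsTo (fun u : L v => ι v g * u * (ι v g)⁻¹)
        ((N ⊓ Λ.1.comap (MulAut.conj g).toMonoidHom).map (ι v) : Set (L v))
        ((N ⊓ Λ.1).map (ι v) : Set (L v)) := by
      rintro _ ⟨a, ha, rfl⟩
      exact ⟨g * a * g⁻¹, ⟨hN.conj_mem a ha.1 g, ha.2⟩, by rw [map_mul, map_mul, map_inv]⟩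
    exact h8.closure (by fun_prop) (hx ⟨_, h7⟩)
  have h7 : (⨅ Λ, c Λ : Subgroup (L v)) = ⊤ := by
    refine (H.loc v hv _ h5 h6).resolve_left fun h8 => ?_
    obtain ⟨z, hz1, hz2⟩ := h4
    rw [← Subgroup.coe_iInf] at hz2
    exact hS1 z hz1 (h8 hz2)
  have h8 : y ∈ (⨅ Λ, c Λ : Subgroup (L v)) := h7 ▸ Subgroup.mem_top y
  obtain ⟨_, h9, x, hx, rfl⟩ := mem_closure_iff_nhds.mp (Subgroup.mem_iInf.mp h8 Γ0) U hU
  exact ⟨x, hx.1, hx.2, h9⟩

/-- **The abstract finiteness theorem.** -/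
theorem Sys.mf (hnst : NST) (H : Sys ι K inf nc q) : MF G := by
  intro N hN hc
  obtain ⟨n, hn, hn'⟩ := SetLike.not_le_iff_exists.mp hc
  have h1 : ∀ S : Set I, S.Finite → (∀ p ∈ S, p ∈ nc ∧ p ∉ inf) →
      Gam ι K (insert q S) ≤ N ⊔ Gam ι K {q} := by
    intro S hS
    induction S, hS using Set.Finite.induction_on with
    | empty => exact fun _ => (Gam.mono (by simp)).trans le_sup_right
    | @insert v S hv _ ih =>
      intro h2 g hg
      have h3 := ih fun p hp => h2 p (Set.mem_insert_of_mem _ hp)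
      by_cases hvq : v = q
      · subst hvq
        exact h3 (Gam.mono (by simp) hg)
      have h4 : {y : L v | y * ι v g ∈ K v} ∈ 𝓝 (ι v g)⁻¹ := by
        have h5 : Continuous fun y : L v => y * ι v g := by fun_prop
        refine h5.continuousAt.preimage_mem_nhds ?_
        rw [inv_mul_cancel]
        exact (H.K_open v).mem_nhds (K v).one_mem
      obtain ⟨x, hx, hx1, hx2⟩ := H.strong hnst hN hn hn' (h2 v (Set.mem_insert _ _)).1
        (h2 v (Set.mem_insert _ _)).2 hvq _ h4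
      have h5 : x * g ∈ Gam ι K (insert q S) := by
        intro p hp
        rw [map_mul]
        by_cases h6 : p = v
        · subst h6
          exact hx2
        · have h7 : p ≠ q := fun h8 => hp (Or.inl h8)
          refine (K p).mul_mem (hx1 p ?_) (hg p ?_)
          · rintro (h8 | h8)
            · exact h7 h8
            · exact h6 h8
          · rintro (h8 | h8 | h8)
            · exact h7 h8
            · exact h6 h8
            · exact hp (Or.inr h8)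
      have h6 : g = x⁻¹ * (x * g) := by group
      rw [h6]
      exact Subgroup.mul_mem _ (Subgroup.mem_sup_left (N.inv_mem hx)) (h3 h5)
  have h2 : (N ⊔ Gam ι K {q}).relIndex ⊤ ≠ 0 := by
    refine fin_relIndex ι K H.cpt_fin (fun p _ => H.K_open p) (fun p hp => ?_) fun g _ hg => ?_
    · have := H.cpt p hp
      exact ⟨Set.univ, isCompact_univ, fun _ _ => Set.mem_univ _⟩
    · refine h1 _ (H.ae g) (fun p hp => ⟨?_, fun h3 => hp ?_⟩) fun p hp => ?_
      · by_contra h3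
        exact hp (hg p h3)
      · rw [H.K_inf p h3]
        exact Subgroup.mem_top _
      · by_contra h3
        exact hp (Or.inr h3)
  rw [← Subgroup.relIndex_top_right]
  refine Subgroup.relIndex_ne_zero_trans ?_ h2
  rw [Subgroup.relIndex_sup_left]
  exact H.relIndex_ne hnst hN hn hn'

end Vale.Agent.P011N.A1
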