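import Vale.Agent.P011N.G1.Coc
import Vale.Agent.P011N.E2.Jet

/-!
Block A1: cocompactness over the rational numbers for unitary groups.
-/

open Module Topology

namespace Vale.Agent.P011N.A1

variable {A : Type} [Ring A] [StarRing A] [Algebra ℚ A]

/-- The left multiplications by unitary elements. -/
noncomputable def lm : unitary A →* (A ≃ₗ[ℚ] A) :=
  (LinearMap.GeneralLinearGroup.generalLinearEquiv ℚ A).toMonoidHom.comp
    ((Units.map (Algebra.lmul ℚ A : A →* Module.End ℚ A)).comp Unitary.toUnits)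

theorem lm_apply (u : unitary A) (x : A) : lm u x = u * x := rfl

/-- A bilinear form as a multilinear form. -/
def bil2 {V : Type} [AddCommGroup V] [Module ℚ V] (B : V →ₗ[ℚ] V →ₗ[ℚ] ℚ) :
    MultilinearMap ℚ (fun _ : Fin 2 => V) ℚ where
  toFun x := B (x 0) (x 1)
  map_update_add' x i a b := by
    fin_cases i <;> simp [Function.update]
  map_update_smul' x i c a := by
    fin_cases i <;> simp [Function.update]

/-- The sesquilinear multiplication. -/
noncomputable def sq (A : Type) [Ring A] [StarRing A] [Algebra ℚ A] : A →ₗ[ℚ] A →ₗ[ℚ] A :=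
  (LinearMap.mul ℚ A).comp (starAddEquiv : A ≃+ A).toAddMonoidHom.toRatLinearMap

theorem sq_apply (x y : A) : sq A x y = star x * y := rfl

theorem abs_det_lm [FiniteDimensional ℚ A] [IsSimpleRing A] (u : unitary A) :
    |LinearMap.det (lm u : Module.End ℚ A)| = 1 := by
  let τ : A →ₗ[ℚ] ℚ := (LinearMap.trace ℚ A).comp (Algebra.lmul ℚ A).toLinearMap
  have h1 : ∀ x y, τ (x * y) = τ (y * x) := by
    intro x y
    change LinearMap.trace ℚ A (Algebra.lmul ℚ A (x * y)) =
      LinearMap.trace ℚ A (Algebra.lmul ℚ A (y * x))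
    rw [map_mul (Algebra.lmul ℚ A), map_mul (Algebra.lmul ℚ A), LinearMap.trace_mul_comm]
  refine E2.abs_det_eq_one ((sq A).compr₂ τ) (fun y hy => ?_) _ fun x y => ?_
  · let I : TwoSidedIdeal A := TwoSidedIdeal.mk' {y | ∀ x, τ (x * y) = 0}
      (fun x => by rw [mul_zero, map_zero])
      (fun ha hb x => by rw [mul_add, map_add, ha x, hb x, add_zero])
      (fun ha x => by rw [mul_neg, map_neg, ha x, neg_zero])
      (fun hb x => by rw [← mul_assoc]; exact hb _)
      (fun ha x => by rw [← mul_assoc, h1, ← mul_assoc]; exact ha _)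
    have h2 : y ∈ I := by
      rw [TwoSidedIdeal.mem_mk']
      intro x
      have h3 := hy (star x)
      rwa [LinearMap.compr₂_apply, sq_apply, star_star] at h3
    by_contra h3
    have h4 := IsSimpleRing.one_mem_of_ne_zero_mem I h3 h2
    rw [TwoSidedIdeal.mem_mk'] at h4
    have h5 : LinearMap.trace ℚ A (Algebra.lmul ℚ A (1 * 1)) = 0 := h4 1
    rw [mul_one, map_one, LinearMap.trace_one, Nat.cast_eq_zero] at h5
    exact Module.finrank_pos.ne' h5
  · change τ (star (u * x : A) * (u * y)) = τ (star x * y)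
    rw [star_mul, mul_assoc, ← mul_assoc (star (u : A)), u.2.1, one_mul]

/-- The group is given by the invariance of finitely many multilinear forms. -/
def Inv (G : Subgroup (unitary A)) : Prop :=
  ∃ T : Forms A, ∀ u : unitary A, u ∈ G ↔ lm u ∈ T.grp

theorem inv_top : Inv (⊤ : Subgroup (unitary A)) :=
  ⟨⟨Empty, inferInstance, fun i => i.elim, fun i => i.elim⟩,
    fun _ => ⟨fun _ i => i.elim, fun _ => Subgroup.mem_top _⟩⟩

/-- Cocompactness over the rational numbers. -/
theorem coc_rat [FiniteDimensional ℚ A] [IsSimpleRing A] (ha : ∀ x : A, star x * x = 0 → x = 0)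
    {G : Subgroup (unitary A)} (hG : Inv G) {ι : Type} [Fintype ι] [DecidableEq ι]
    (b : Basis ι ℚ A) (P : Finset Nat.Primes) : ∃ R : ℝ, ∀ g ∈ G, ∃ γ ∈ G,
      (∀ p : Nat.Primes, p ∉ P → ∀ i l,
        padicNorm p.1 (Algebra.leftMulMatrix b (γ : A) i l) ≤ 1 ∧
        padicNorm p.1 (Algebra.leftMulMatrix b ((γ⁻¹ : unitary A) : A) i l) ≤ 1) ∧
      ∀ i l, |(Algebra.leftMulMatrix b ((γ⁻¹ * g : unitary A) : A) i l : ℝ)| ≤ R ∧
        ∀ p ∈ P, (padicNorm p.1 (Algebra.leftMulMatrix b ((γ⁻¹ * g : unitary A) : A) i l) : ℝ)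
          ≤ R := by
  obtain ⟨T, hT⟩ := hG
  have := T.fin
  let T' : Forms A :=
    { I := ι ⊕ T.I
      fin := inferInstance
      deg := Sum.elim (fun _ => 2) T.deg
      τ := fun i => match i with
        | .inl i => bil2 ((sq A).compr₂ (b.coord i))
        | .inr i => T.τ i }
  have h1 : ∀ e, e ∈ T'.grp ↔ ∃ u ∈ G, lm u = e := by
    intro e
    constructor
    · intro he
      have h2 : ∀ x y, star (e x) * e y = star x * y := fun x y =>
        b.ext_elem fun i => he (.inl i) ![x, y]
      have h3 : star (e 1) * e 1 = 1 := by rw [h2, star_one, mul_one]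
      have h4 : e 1 * star (e 1) = 1 := by
        apply Algebra.leftMulMatrix_injective b
        rw [map_mul, mul_eq_one_comm.mp (by rw [← map_mul, h3, map_one]), map_one]
      have h5 : lm ⟨e 1, h3, h4⟩ = e := by
        ext y
        change e 1 * y = e y
        calc e 1 * y = e 1 * (star (e 1) * e y) := by rw [h2, star_one, one_mul]
          _ = _ := by rw [← mul_assoc, h4, one_mul]
      refine ⟨_, (hT _).mpr ?_, h5⟩
      rw [h5]
      exact fun i x => he (.inr i) x
    · rintro ⟨u, hu, rfl⟩ (i | i) x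
      · change b.coord i (star (u * x (0 : Fin 2) : A) * (u * x (1 : Fin 2))) =
          b.coord i (star (x (0 : Fin 2)) * x (1 : Fin 2))
        rw [star_mul, mul_assoc, ← mul_assoc (star (u : A)), u.2.1, one_mul]
      · exact (hT u).mp hu i x
  let b' := b.reindex (Fintype.equivFin ι)
  have h2 : ∀ (u : unitary A) i l, Algebra.leftMulMatrix b (u : A) i l =
      (mat b' (lm u)).1 (Fintype.equivFin ι i) (Fintype.equivFin ι l) := by
    intro u i l
    rw [G1.mat_val, LinearMap.toMatrix_apply, Algebra.leftMulMatrix_eq_repr_mul]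
    simp [b', lm_apply]
  obtain ⟨C, hC, h3⟩ := G1.cocStmt A _ b' P T' (fun e he => by
    obtain ⟨u, -, rfl⟩ := (h1 e).mp he
    exact abs_det_lm u) (fun x hx => by
    by_contra h3
    push Not at h3
    refine hx (ha x (b.ext_elem fun i => ?_))
    rw [map_zero]
    exact h3 (.inl i) two_ne_zero)
  have h4 : ∀ i l, ∃ R : ℝ, ∀ x ∈ C, ‖x.1 i l‖ ≤ R := fun i l =>
    hC.exists_bound_of_continuousOn
      (Continuous.matrix_elem Units.continuous_val i l).continuousOn
  choose R hR using h4
  obtain ⟨R', hR'⟩ := (Set.finite_range fun p : Fin _ × Fin _ => R p.1 p.2).bddAbove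
  refine ⟨R', fun g hg => ?_⟩
  obtain ⟨_, ⟨h5, h6⟩, h7⟩ := h3 (emb b' P (lm g))
    (Subgroup.le_topologicalClosure _ ⟨_, (h1 _).mpr ⟨g, hg, rfl⟩, rfl⟩)
  obtain ⟨γ, hγ, rfl⟩ := (h1 _).mp h5
  have h8 := (G1.mem_IntG b' P _).mp h6
  refine ⟨γ, hγ, fun p hp i l => ⟨?_, ?_⟩, fun i l => ?_⟩
  · rw [h2]
    exact h8.1 _ _ p hp
  · rw [h2, map_inv]
    exact h8.2 _ _ p hp
  · rw [← map_inv, ← map_mul, ← map_inv, ← map_mul] at h7
    have h9 := (hR _ _ _ h7).trans (hR' ⟨(Fintype.equivFin ι i, Fintype.equivFin ι l), rfl⟩)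
    rw [G1.emb_apply, ← h2] at h9
    exact ⟨(G1.abs_le_norm P _).trans h9, fun p hp => (G1.padic_le_norm P _ p hp).trans h9⟩

/-- The special unitary group is given by the invariance of multilinear forms. -/
theorem inv_GK [FiniteDimensional ℚ A] {K Ω : Type} [Field K] [CharZero K] [Algebra K A] [Field Ω]
    [Algebra K Ω] {n : ℕ} (f : A →ₐ[K] Matrix (Fin n) (Fin n) Ω) :
    Inv (Vale.Agent.P011.H925.Full.GK f) := by
  classical
  have : CharZero Ω := charZero_of_injective_algebraMap (algebraMap K Ω).injective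
  let r : Fin n → A →ₗ[ℚ] (Fin n → Ω) := fun j =>
    AddMonoidHom.toRatLinearMap
      { toFun := fun x i => f x i j
        map_zero' := by funext i; rw [map_zero]; rfl
        map_add' := fun x y => by funext i; rw [map_add]; rfl }
  let D : MultilinearMap ℚ (fun _ : Fin n => A) Ω :=
    ((Matrix.detRowAlternating (n := Fin n) (R := Ω)).toMultilinearMap.restrictScalars
      ℚ).compLinearMap r
  have hD : ∀ x, D x = (Matrix.of fun i j => f (x j) i j).det := by
    intro x
    rw [← Matrix.det_transpose]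
    rfl
  have h1 : ∀ (u : A) x, D (fun j => u * x j) = (f u).det * D x := by
    intro u x
    rw [hD, hD, ← Matrix.det_mul]
    congr 1
    ext i j
    rw [Matrix.of_apply, map_mul, Matrix.mul_apply, Matrix.mul_apply]
    rfl
  have h2 : D (fun _ => 1) = 1 := by
    rw [hD, ← Matrix.det_one (n := Fin n) (R := Ω)]
    congr 1
    ext i j
    rw [Matrix.of_apply, map_one]
  let b := Module.finBasis ℚ A
  let W : Submodule ℚ Ω :=
    Submodule.span ℚ (Set.range fun σ : Fin n → Fin (finrank ℚ A) => D fun j => b (σ j))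
  have h3 : FiniteDimensional ℚ W := FiniteDimensional.span_of_finite ℚ (Set.finite_range _)
  have h4 : ∀ x, D x ∈ W := by
    intro x
    have e : x = fun j => ∑ i, b.repr (x j) i • b i := funext fun j => (b.sum_repr _).symm
    rw [e, D.map_sum]
    refine W.sum_mem fun σ _ => ?_
    rw [D.map_smul_univ]
    exact W.smul_mem _ (Submodule.subset_span ⟨σ, rfl⟩)
  let c := Module.finBasis ℚ W
  refine ⟨⟨_, inferInstance, fun _ => n, fun s => (c.coord s).compMultilinearMap
    (D.codRestrict W h4)⟩, fun u => ⟨fun hu s x => ?_, fun hu => ?_⟩⟩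
  · have h5 : (f u).det = 1 := hu
    have h6 : D.codRestrict W h4 (fun j => lm u (x j)) = D.codRestrict W h4 x :=
      Subtype.ext ((h1 u x).trans (by rw [h5, one_mul]; rfl))
    exact congrArg (c.coord s) h6
  · have h5 : D.codRestrict W h4 (fun _ => lm u 1) = D.codRestrict W h4 fun _ => 1 :=
      c.ext_elem fun s => hu s fun _ => 1
    have h6 : D (fun _ => (u : A) * 1) = D fun _ => 1 := congrArg Subtype.val h5
    rw [h1 u fun _ => 1, h2, mul_one] at h6
    exact h6

end Vale.Agent.P011N.A1
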