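import Vale.Agent.P011N.Iface

/-!
Block A1: the local data for unitary groups of algebras with an anisotropic involution.
-/

open Module NumberField IsDedekindDomain

namespace Vale.Agent.P011N.A1

/-- A model of the base change of `A` from `k` to `F`. -/
structure Mod (k A F : Type) [Field k] [Ring A] [StarRing A] [Algebra k A] [FiniteDimensional k A]
    [Field F] [Algebra k F] : Type 1 where
  E : Type
  [ring : Ring E]
  [starR : StarRing E]
  [alg : Algebra F E]
  j : A →+* E
  j_smul : ∀ (c : k) (x : A), j (c • x) = algebraMap k F c • j x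
  j_star : ∀ x : A, j (star x) = star (j x)
  star_smul : ∀ (c : F) (y : E), star (c • y) = c • star y
  bas : Basis (Fin (finrank k A)) F E
  bas_eq : ∀ i, bas i = j (Module.finBasis k A i)

attribute [instance] Mod.ring Mod.starR Mod.alg

section

variable {k A F : Type} [Field k] [Ring A] [StarRing A] [Algebra k A] [FiniteDimensional k A]
  [Field F] [Algebra k F] (M : Mod k A F)

/-- The map of the unitary groups. -/
def Mod.u : unitary A →* unitary M.E where
  toFun x := ⟨M.j x, by
    rw [Unitary.mem_iff, ← M.j_star, ← map_mul, ← map_mul, x.2.1, x.2.2, map_one]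
    exact ⟨rfl, rfl⟩⟩
  map_one' := Subtype.ext (map_one M.j)
  map_mul' x y := Subtype.ext (map_mul M.j (x : A) y)

theorem Mod.u_val (x : unitary A) : (M.u x : M.E) = M.j x := rfl

/-- The isotropic models. -/
structure Mod.Iso (G : Subgroup (unitary A)) : Prop where
  shift : ∀ S : unitary M.E, ∃ Z ∈ Subgroup.center (unitary M.E),
    IsUnit (1 + ((Z * S : unitary M.E) : M.E))
  loc : ∀ W : Subgroup (unitary M.E),
    (∀ g ∈ commutator (unitary M.E), ∀ x ∈ W, g * x * g⁻¹ ∈ W) →
    (∃ x ∈ W, x ∉ Subgroup.center (unitary M.E)) → commutator (unitary M.E) ≤ W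
  le : ∀ g ∈ G, M.u g ∈ commutator (unitary M.E)
  eig : ∃ y : M.E, y ≠ 0 ∧ y * y = 0 ∧
    (∀ c : F, ∃ x ∈ commutator (unitary M.E), (x : M.E) = 1 + c • y) ∧
    ∀ t : F, t ≠ 0 → ∃ τ ∈ commutator (unitary M.E), (τ : M.E) * y = t ^ 2 • (y * τ)

/-- The commutator subgroup is generated by finitely many unipotent groups which are expanded by
elements of the commutator subgroup. -/
def Mod.Gen : Prop :=
  ∃ (m : ℕ) (Y : Fin m → Submodule F M.E),
    (∀ i, ∀ y ∈ Y i, ∃ x ∈ commutator (unitary M.E), (x : M.E) = 1 + y) ∧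
    (∀ i, ∀ t : F, t ≠ 0 → ∃ τ ∈ commutator (unitary M.E), ∀ y ∈ Y i,
      (τ : M.E) * y = t ^ 2 • (y * τ)) ∧
    commutator (unitary M.E) ≤
      Subgroup.closure {x : unitary M.E | ∃ i, ∃ y ∈ Y i, (x : M.E) = 1 + y}

/-- The anisotropic models. -/
def Mod.Bnd (G : Subgroup (unitary A)) : Prop :=
  (∀ x : M.E, star x * x = 0 → x = 0) ∨
    ∃ (Δ : Type) (_ : DivisionRing Δ) (_ : Algebra F Δ) (_ : FiniteDimensional F Δ)
      (π : M.E →ₐ[F] Δ), (∀ x, π x = 0 → π (star x) = 0 → x = 0) ∧
        ∀ g ∈ G, Algebra.norm F (π (M.j (g : A))) = 1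

end

/-- The local data. -/
structure LocData (k A : Type) [Field k] [NumberField k] [Ring A] [StarRing A] [Algebra k A]
    [FiniteDimensional k A] (G : Subgroup (unitary A)) : Prop where
  fin : ∀ v : HeightOneSpectrum (𝓞 k), ∃ M : Mod k A (v.adicCompletion k), M.Iso G ∨ M.Bnd G
  inf : ∀ w : InfinitePlace k, ∃ M : Mod k A w.Completion, M.Iso G ∨ M.Bnd G
  ae : {v : HeightOneSpectrum (𝓞 k) | ¬ ∃ M : Mod k A (v.adicCompletion k), M.Iso G}.Finite
  gen : ∃ (v : HeightOneSpectrum (𝓞 k)) (M : Mod k A (v.adicCompletion k)), M.Iso G ∧ M.Gen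

/-- The local data of the special unitary groups. -/
def LocSU : Prop :=
  ∀ (k K A Ω : Type) [Field k] [NumberField k] [Field K] [Algebra k K] [StarRing K] [Ring A]
    [StarRing A] [Algebra k A] [Algebra K A] [IsScalarTower k K A] [StarModule K A] [Field Ω]
    [Algebra K Ω] [FiniteDimensional k A] (n : ℕ) (f : A →ₐ[K] Matrix (Fin n) (Fin n) Ω),
    AnisA k K A n → LocData k A (Vale.Agent.P011.H925.Full.GK f)

/-- The local data of the norm-one groups of quaternion algebras. -/
def LocQ : Prop :=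
  ∀ (L : Type) [Field L] [NumberField L] (a b : Lˣ), Vale.Agent.P011.MPQ.Aniso a b →
    LocData L (Vale.Agent.P011.MPQ.Qt a b) ⊤

/-- Abelian subgroups of infinite rank of the special unitary groups. -/
def WideSU : Prop :=
  ∀ (k K A Ω : Type) [Field k] [NumberField k] [Field K] [Algebra k K] [StarRing K] [Ring A]
    [StarRing A] [Algebra k A] [Algebra K A] [IsScalarTower k K A] [StarModule K A] [Field Ω]
    [Algebra K Ω] (n : ℕ) (f : A →ₐ[K] Matrix (Fin n) (Fin n) Ω), AnisA k K A n →
    Wide (Vale.Agent.P011.H925.Full.GK f)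

/-- Abelian subgroups of infinite rank of the norm-one groups of quaternion algebras. -/
def WideQ : Prop :=
  ∀ (L : Type) [Field L] [NumberField L] (a b : Lˣ), Vale.Agent.P011.MPQ.Aniso a b →
    Wide (Vale.Agent.P011.MPQ.SL1 a b)

end Vale.Agent.P011N.A1
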