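import Vale.Agent.P011N.A1.LocMod
import Vale.Agent.P011.H182.GLx
import Vale.Agent.P011.Even.Pattern
import Vale.Agent.P011.Even.Completion

/-!
The local data of the norm-one groups of quaternion algebras.
-/

open Module NumberField IsDedekindDomain Matrix

set_option linter.unusedSectionVars false
set_option linter.unusedSimpArgs false

namespace Vale.Agent.P011N.A1

open Vale.Agent.P011

section full

variable {F E : Type} [Field F] [CharZero F] [Ring E] [StarRing E] [Algebra F E] {e f : E}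

/-- The matrices of size two in the algebra. -/
noncomputable def Trp.hom (h : Trp F e f) (h1 : e * f + f * e = 1) :
    Matrix (Fin 2) (Fin 2) F →ₐ[F] E :=
  AlgHom.ofLinearMap
    { toFun := fun M => ph e f (M 0 0) (M 0 1) (M 1 0) (M 1 1)
      map_add' := fun M N => by
        simp only [ph, Matrix.add_apply]
        rw [← h1]
        module
      map_smul' := fun c M => by
        simp only [ph, Matrix.smul_apply, smul_eq_mul, RingHom.id_apply]
        rw [← h1]
        module }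
    (by simpa using ph_one (e := e) (f := f) (F := F))
    (fun M N => by
      change ph e f _ _ _ _ = ph e f _ _ _ _ * ph e f _ _ _ _
      rw [h.ph_mul]
      simp [Matrix.mul_apply, Fin.sum_univ_two])

theorem Trp.hom_apply (h : Trp F e f) (h1 : e * f + f * e = 1) (M : Matrix (Fin 2) (Fin 2) F) :
    h.hom h1 M = ph e f (M 0 0) (M 0 1) (M 1 0) (M 1 1) := rfl

theorem Trp.hom_bij [Nontrivial E] (h : Trp F e f) (h1 : e * f + f * e = 1)
    (hr : finrank F E = 4) : Function.Bijective (h.hom h1) := by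
  have : FiniteDimensional F E := Module.finite_of_finrank_pos (by omega)
  have h2 : Function.Injective (h.hom h1) := (h.hom h1).toRingHom.injective
  refine ⟨h2, (LinearMap.injective_iff_surjective_of_finrank_eq_finrank
    (f := (h.hom h1).toLinearMap) ?_).mp h2⟩
  rw [hr, Module.finrank_matrix]
  simp

theorem Trp.star_hom (h : Trp F e f) (h1 : e * f + f * e = 1) (M : Matrix (Fin 2) (Fin 2) F) :
    star (h.hom h1 M) = h.hom h1 M.adjugate := by
  rw [h.hom_apply, h.hom_apply, h.star_ph, Matrix.adjugate_fin_two]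
  simp

theorem Trp.mem_unitary (h : Trp F e f) (h1 : e * f + f * e = 1)
    (hb : Function.Bijective (h.hom h1)) (M : Matrix (Fin 2) (Fin 2) F) :
    h.hom h1 M ∈ unitary E ↔ M.det = 1 := by
  rw [Unitary.mem_iff, h.star_hom, ← map_mul, ← map_mul, Matrix.adjugate_mul, Matrix.mul_adjugate,
    and_self, ← map_one (h.hom h1), hb.1.eq_iff]
  constructor
  · intro h2
    simpa using congrFun (congrFun h2 0) 0
  · intro h2
    rw [h2, one_smul]

/-- The unitary group is generated by the elementary matrices. -/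
theorem Trp.mem_of (h : Trp F e f) (h1 : e * f + f * e = 1) (hb : Function.Bijective (h.hom h1))
    {W : Subgroup (unitary E)} (he : ∀ (c : F) (x : unitary E), (x : E) = 1 + c • e → x ∈ W)
    (hf : ∀ (c : F) (x : unitary E), (x : E) = 1 + c • f → x ∈ W) (x : unitary E) : x ∈ W := by
  have hU : ∀ c : F, 1 + c • e = ph e f 1 c 0 1 := fun c => by simp [ph]
  have hL : ∀ c : F, 1 + c • f = ph e f 1 0 c 1 := fun c => by simp [ph]
  have key : ∀ (a b c d : F) (x : unitary E), (x : E) = ph e f a b c d → a * d - b * c = 1 →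
      c ≠ 0 → x ∈ W := by
    intro a b c d x hx hd hc
    obtain ⟨x1, -, e1⟩ := h.up ((a - 1) / c)
    obtain ⟨x2, -, e2⟩ := h.symm.up c
    obtain ⟨x3, -, e3⟩ := h.up ((d - 1) / c)
    have e4 : x = x1 * x2 * x3 := by
      apply Subtype.ext
      simp only [Submonoid.coe_mul, e1, e2, e3, hU, hL, h.ph_mul, hx]
      congr 1
      · field_simp
        ring
      · field_simp
        linear_combination (-1 : F) * hd
      · ring
      · field_simp
        ring
    rw [e4]
    exact W.mul_mem (W.mul_mem (he _ _ e1) (hf _ _ e2)) (he _ _ e3)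
  obtain ⟨M, hM⟩ := hb.2 (x : E)
  have hd := (h.mem_unitary h1 hb M).mp (hM ▸ x.2)
  rw [Matrix.det_fin_two] at hd
  by_cases hc : M 1 0 = 0
  · obtain ⟨y, -, hy⟩ := h.symm.up 1
    refine (W.mul_mem_cancel_left (hf _ _ hy)).mp (key _ _ _ _ (y * x) (by
      rw [Submonoid.coe_mul, hy, hL, ← hM, h.hom_apply, h.ph_mul]) (by linear_combination hd) ?_)
    intro h2
    rw [hc] at h2 hd
    have h3 : M 0 0 = 0 := by linear_combination h2
    rw [h3] at hd
    simp at hd
  · exact key _ _ _ _ x hM.symm hd hc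

theorem Trp.mem_comm (h : Trp F e f) (h1 : e * f + f * e = 1)
    (hb : Function.Bijective (h.hom h1)) (x : unitary E) : x ∈ commutator (unitary E) := by
  refine h.mem_of h1 hb (fun c x hx => ?_) (fun c x hx => ?_) x
  · obtain ⟨y, h2, h3⟩ := h.up c
    exact (Subtype.ext (h3.trans hx.symm) : y = x) ▸ h2
  · obtain ⟨y, h2, h3⟩ := h.symm.up c
    exact (Subtype.ext (h3.trans hx.symm) : y = x) ▸ h2

theorem Trp.loc (h : Trp F e f) (h1 : e * f + f * e = 1) (hb : Function.Bijective (h.hom h1))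
    (W : Subgroup (unitary E)) (hW : ∀ g ∈ commutator (unitary E), ∀ x ∈ W, g * x * g⁻¹ ∈ W)
    (hx : ∃ x ∈ W, x ∉ Subgroup.center (unitary E)) : commutator (unitary E) ≤ W := by
  let ρ := (AlgEquiv.ofBijective _ hb).symm
  have hρ : ∀ x, h.hom h1 (ρ x) = x := (AlgEquiv.ofBijective _ hb).apply_symm_apply
  let ψ : unitary E →* (Matrix (Fin 2) (Fin 2) F)ˣ :=
    (Units.map (ρ : E →* Matrix (Fin 2) (Fin 2) F)).comp Unitary.toUnits
  have h2 : Function.Injective ψ := fun x y hxy =>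
    Subtype.ext (ρ.injective (congrArg Units.val hxy))
  have h3 : commutator (Matrix (Fin 2) (Fin 2) F)ˣ ≤ W.map ψ := by
    refine H182.comm_le_of_norm le_rfl ?_ ?_
    · rintro S T _ ⟨x, hx, rfl⟩
      have h4 : ((S * T * S⁻¹ * T⁻¹ : (Matrix (Fin 2) (Fin 2) F)ˣ) :
          Matrix (Fin 2) (Fin 2) F).det = 1 := by
        have h5 : Matrix.GeneralLinearGroup.det (S * T * S⁻¹ * T⁻¹) = 1 := by
          rw [map_mul, map_mul, map_mul, map_inv, map_inv, mul_comm (Matrix.GeneralLinearGroup.det S),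
            mul_inv_cancel_right, mul_inv_cancel]
        exact congrArg Units.val h5
      have h5 : ψ ⟨_, (h.mem_unitary h1 hb _).mpr h4⟩ = S * T * S⁻¹ * T⁻¹ :=
        Units.ext ((AlgEquiv.ofBijective _ hb).symm_apply_apply _)
      refine ⟨_, hW ⟨_, (h.mem_unitary h1 hb _).mpr h4⟩ (h.mem_comm h1 hb _) x hx, ?_⟩
      rw [map_mul, map_mul, map_inv, h5]
    · obtain ⟨x, hx, h4⟩ := hx
      rw [Subgroup.mem_center_iff, not_forall] at h4
      obtain ⟨y, hy⟩ := h4
      refine ⟨_, ⟨x, hx, rfl⟩, ψ y, fun h5 => hy (h2 (Units.ext ?_))⟩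
      rw [map_mul, map_mul, Units.val_mul, Units.val_mul, h5]
  intro x hx
  have h4 : (commutator (unitary E)).map ψ ≤ commutator (Matrix (Fin 2) (Fin 2) F)ˣ := by
    rw [commutator_def, commutator_def, Subgroup.map_commutator]
    exact Subgroup.commutator_mono le_top le_top
  obtain ⟨y, hy, h5⟩ := h3 (h4 ⟨x, hx, rfl⟩)
  exact h2 h5 ▸ hy

theorem Trp.shift (h : Trp F e f) (h1 : e * f + f * e = 1) (hb : Function.Bijective (h.hom h1))
    (S : unitary E) : ∃ Z ∈ Subgroup.center (unitary E), IsUnit (1 + ((Z * S : unitary E) : E)) := by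
  obtain ⟨M, hM⟩ := hb.2 (S : E)
  have hd := (h.mem_unitary h1 hb M).mp (hM ▸ S.2)
  rw [Matrix.det_fin_two] at hd
  by_cases h2 : (1 + M).det = 0
  · refine ⟨-1, Subgroup.mem_center_iff.mpr fun g => by simp, ?_⟩
    have h3 : (1 - M).det ≠ 0 := by
      intro h3
      simp only [Matrix.det_fin_two, Matrix.add_apply, Matrix.sub_apply, Matrix.one_apply_eq,
        Matrix.one_apply_ne, ne_eq, zero_ne_one, one_ne_zero, not_false_eq_true] at h2 h3
      have h4 : (4 : F) = 0 := by linear_combination h2 + h3 - 2 * hd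
      norm_num at h4
    have h4 := ((Matrix.isUnit_iff_isUnit_det _).mpr h3.isUnit).map (h.hom h1)
    rw [map_sub, map_one, hM] at h4
    rw [neg_one_mul, Unitary.coe_neg, ← sub_eq_add_neg]
    exact h4
  · refine ⟨1, Subgroup.one_mem _, ?_⟩
    have h4 := ((Matrix.isUnit_iff_isUnit_det _).mpr (Ne.isUnit h2)).map (h.hom h1)
    rwa [map_add, map_one, hM, ← one_mul S] at h4

theorem Trp.gen (h : Trp F e f) (h1 : e * f + f * e = 1) (hb : Function.Bijective (h.hom h1)) :
    ∃ (m : ℕ) (Y : Fin m → Submodule F E),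
    (∀ i, ∀ y ∈ Y i, ∃ x ∈ commutator (unitary E), (x : E) = 1 + y) ∧
    (∀ i, ∀ t : F, t ≠ 0 → ∃ τ ∈ commutator (unitary E), ∀ y ∈ Y i,
      (τ : E) * y = t ^ 2 • (y * τ)) ∧
    commutator (unitary E) ≤
      Subgroup.closure {x : unitary E | ∃ i, ∃ y ∈ Y i, (x : E) = 1 + y} := by
  refine ⟨2, ![Submodule.span F {e}, Submodule.span F {f}], ?_, ?_, fun x _ => ?_⟩
  · intro i y hy
    fin_cases i <;> obtain ⟨c, rfl⟩ := Submodule.mem_span_singleton.mp hy
    · exact h.up c
    · exact h.symm.up c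
  · have key : ∀ {e f : E}, Trp F e f → ∀ t : F, t ≠ 0 →
        ∃ τ ∈ commutator (unitary E), ∀ y ∈ Submodule.span F {e},
          τ.1 * y = t ^ 2 • (y * τ.1) := by
      intro e f h t ht
      refine ⟨h.tau ht, h.tau_mem ht, fun y hy => ?_⟩
      obtain ⟨c, rfl⟩ := Submodule.mem_span_singleton.mp hy
      rw [mul_smul_comm, smul_mul_assoc, h.tau_mul ht h.efe (h.rel.1 f)
        (by rw [mul_assoc, h.ee, mul_zero]) h.rel.2.2.2.2.1, smul_comm]
    intro i t ht
    fin_cases i
    · exact key h t ht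
    · exact key h.symm t ht
  · refine h.mem_of h1 hb (fun c x hx => Subgroup.subset_closure ?_)
      (fun c x hx => Subgroup.subset_closure ?_) x
    · exact ⟨0, _, Submodule.smul_mem _ _ (Submodule.mem_span_singleton_self e), hx⟩
    · exact ⟨1, _, Submodule.smul_mem _ _ (Submodule.mem_span_singleton_self f), hx⟩

end full

theorem Mod.iso_of_trp {k A F : Type} [Field k] [Ring A] [StarRing A] [Algebra k A]
    [FiniteDimensional k A] [Field F] [CharZero F] [Algebra k F] (M : Mod k A F) {e f : M.E}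
    (h : Trp F e f) (he : e ≠ 0) (h1 : e * f + f * e = 1) (hr : finrank F M.E = 4) :
    M.Iso ⊤ ∧ M.Gen := by
  have : Nontrivial M.E := nontrivial_of_ne _ _ he
  have h0 := h.hom_bij h1 hr
  exact ⟨⟨h.shift h1 h0, h.loc h1 h0, fun g _ => h.mem_comm h1 h0 _, h.eig he⟩, h.gen h1 h0⟩

section quat

variable {F : Type} [Field F] [CharZero F] {a b : Fˣ}

theorem exists_pure (h : ¬ MPQ.Aniso a b) :
    ∃ e : MPQ.Qt a b, e ≠ 0 ∧ e.re = 0 ∧ MPQ.nrd e = 0 := by
  simp only [MPQ.Aniso, not_forall] at h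
  obtain ⟨x, hx, hx0⟩ := h
  by_contra hc
  push Not at hc
  have h1 : ∀ q : MPQ.Qt a b, q.re = 0 → x * q * star x = 0 := by
    intro q hq
    by_contra h2
    refine hc _ h2 ?_ (by rw [MPQ.nrd_mul, MPQ.nrd_mul, hx, zero_mul, zero_mul])
    simp [hq]
    ring
  have h2 := congrArg QuaternionAlgebra.imI (h1 ⟨0, 1, 0, 0⟩ rfl)
  have h3 := congrArg QuaternionAlgebra.imJ (h1 ⟨0, 0, 1, 0⟩ rfl)
  have h4 := congrArg QuaternionAlgebra.imK (h1 ⟨0, 0, 0, 1⟩ rfl)
  simp at h2 h3 h4
  rw [MPQ.nrd] at hx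
  have ha := a.ne_zero
  have hb := b.ne_zero
  have h5 : (4 : F) * x.re ^ 2 = 0 := by linear_combination hx + h2 + h3 + h4
  have h6 : (4 : F) * (a * x.imI ^ 2) = 0 := by linear_combination -hx - h2 + h3 + h4
  have h7 : (4 : F) * (b * x.imJ ^ 2) = 0 := by linear_combination -hx + h2 - h3 + h4
  have h8 : (4 : F) * (a * b * x.imK ^ 2) = 0 := by linear_combination hx - h2 - h3 + h4
  apply hx0
  ext <;> simp_all

theorem exists_trp_q (h : ¬ MPQ.Aniso a b) :
    ∃ e f : MPQ.Qt a b, Trp F e f ∧ e ≠ 0 ∧ e * f + f * e = 1 := by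
  obtain ⟨e, he0, he1, he2⟩ := exists_pure h
  have ha := a.ne_zero
  have hb := b.ne_zero
  rw [MPQ.nrd, he1] at he2
  obtain ⟨g, hg1, hg2⟩ : ∃ g : MPQ.Qt a b, g.re = 0 ∧
      2 * (a * e.imI * g.imI + b * e.imJ * g.imJ - a * b * e.imK * g.imK) = 1 := by
    by_cases h1 : e.imI = 0
    · by_cases h2 : e.imJ = 0
      · have h3 : e.imK ≠ 0 := fun h3 => he0 (by ext <;> simp [*])
        exact ⟨⟨0, 0, 0, -(2 * a * b * e.imK)⁻¹⟩, rfl, by field_simp; ring⟩
      · exact ⟨⟨0, 0, (2 * b * e.imJ)⁻¹, 0⟩, rfl, by field_simp; ring⟩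
    · exact ⟨⟨0, (2 * a * e.imI)⁻¹, 0, 0⟩, rfl, by field_simp; ring⟩
  have h1 : e * e = 0 := by
    ext <;> simp [he1]
    · linear_combination -he2
    all_goals ring
  have h2 : e * g + g * e = 1 := by
    ext <;> simp [he1, hg1]
    · linear_combination hg2
    all_goals ring
  obtain ⟨c, h3⟩ : ∃ c : F, g * g = c • (1 : MPQ.Qt a b) :=
    ⟨(g * g).re, by ext <;> simp [hg1] <;> ring⟩
  have h4 : e * (g - c • e) + (g - c • e) * e = 1 := by
    rw [mul_sub, sub_mul, mul_smul_comm, smul_mul_assoc, h1, smul_zero, sub_zero, sub_zero, h2]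
  have h5 : (g - c • e) * (g - c • e) = 0 := by
    have h6 : (g - c • e) * (g - c • e) = g * g - c • (e * g + g * e) + (c * c) • (e * e) := by
      simp only [mul_sub, sub_mul, mul_smul_comm, smul_mul_assoc]
      module
    rw [h6, h1, h2, h3, smul_zero, sub_self, add_zero]
  refine ⟨e, g - c • e, ⟨fun c y => by ext <;> simp, by ext <;> simp [he1],
    by ext <;> simp [he1, hg1] <;> ring, h1, h5, ?_, ?_⟩, he0, h4⟩
  · rw [eq_sub_of_add_eq h4, sub_mul, one_mul, mul_assoc, h1, mul_zero, sub_zero]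
  · rw [eq_sub_of_add_eq' h4, sub_mul, one_mul, mul_assoc, h5, mul_zero, sub_zero]

end quat

section model

variable {L : Type} [Field L] {a b : Lˣ} {F : Type} [Field F] [Algebra L F] {a' b' : Fˣ}

/-- The map to the base change. -/
def qj (ha : algebraMap L F a = a') (hb : algebraMap L F b = b') : MPQ.Qt a b →+* MPQ.Qt a' b' where
  toFun x := ⟨algebraMap L F x.re, algebraMap L F x.imI, algebraMap L F x.imJ, algebraMap L F x.imK⟩
  map_one' := by ext <;> simp
  map_mul' x y := by ext <;> simp [ha, hb]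
  map_zero' := by ext <;> simp
  map_add' x y := by ext <;> simp

theorem qj_apply (ha : algebraMap L F a = a') (hb : algebraMap L F b = b') (x : MPQ.Qt a b) :
    qj ha hb x = ⟨algebraMap L F x.re, algebraMap L F x.imI, algebraMap L F x.imJ,
      algebraMap L F x.imK⟩ := rfl

/-- The base change of the quaternion algebra. -/
noncomputable def qMod (ha : algebraMap L F a = a') (hb : algebraMap L F b = b') :
    Mod L (MPQ.Qt a b) F :=
  Mod.ofSpan (MPQ.Qt a' b') (qj ha hb)
    (fun c x => by ext <;> simp [qj_apply, Algebra.smul_def])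
    (fun x => by ext <;> simp [qj_apply]) (fun c y => by ext <;> simp)
    (by
      intro y _
      have e : y = y.re • (⟨1, 0, 0, 0⟩ : MPQ.Qt _ _) + y.imI • ⟨0, 1, 0, 0⟩ +
          y.imJ • ⟨0, 0, 1, 0⟩ + y.imK • ⟨0, 0, 0, 1⟩ := by ext <;> simp
      rw [e]
      refine add_mem (add_mem (add_mem ?_ ?_) ?_) ?_ <;>
        refine Submodule.smul_mem _ _ (Submodule.subset_span ?_)
      · exact ⟨⟨1, 0, 0, 0⟩, by ext <;> simp [qj_apply]⟩
      · exact ⟨⟨0, 1, 0, 0⟩, by ext <;> simp [qj_apply]⟩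
      · exact ⟨⟨0, 0, 1, 0⟩, by ext <;> simp [qj_apply]⟩
      · exact ⟨⟨0, 0, 0, 1⟩, by ext <;> simp [qj_apply]⟩)
    (by rw [QuaternionAlgebra.finrank_eq_four, QuaternionAlgebra.finrank_eq_four])

variable [CharZero F] (ha : algebraMap L F a = a') (hb : algebraMap L F b = b')

theorem qMod_iso (h : ¬ MPQ.Aniso a' b') : (qMod ha hb).Iso ⊤ ∧ (qMod ha hb).Gen := by
  obtain ⟨e, f, h1, h2, h3⟩ := exists_trp_q h
  exact (qMod ha hb).iso_of_trp (e := e) (f := f) h1 h2 h3
    (QuaternionAlgebra.finrank_eq_four (a' : F) 0 (b' : F))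

theorem qMod_dich : (qMod ha hb).Iso ⊤ ∨ (qMod ha hb).Bnd ⊤ := by
  by_cases h : MPQ.Aniso a' b'
  · refine Or.inr (Or.inl ?_)
    change ∀ x : MPQ.Qt a' b', star x * x = 0 → x = 0
    intro x hx
    refine h x ?_
    have h1 := congrArg QuaternionAlgebra.re hx
    simp at h1
    rw [MPQ.nrd]
    linear_combination h1
  · exact Or.inl (qMod_iso ha hb h).1

theorem exists_dich (a b : Lˣ) (F : Type) [Field F] [Algebra L F] [CharZero F] :
    ∃ M : Mod L (MPQ.Qt a b) F, M.Iso ⊤ ∨ M.Bnd ⊤ :=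
  ⟨_, qMod_dich (a' := Units.map (algebraMap L F : L →* F) a)
    (b' := Units.map (algebraMap L F : L →* F) b) rfl rfl⟩

theorem exists_iso (a b : Lˣ) {x y : F}
    (h : algebraMap L F b = x ^ 2 - algebraMap L F a * y ^ 2) :
    ∃ M : Mod L (MPQ.Qt a b) F, M.Iso ⊤ ∧ M.Gen := by
  refine ⟨_, qMod_iso (a' := Units.map (algebraMap L F : L →* F) a)
    (b' := Units.map (algebraMap L F : L →* F) b) rfl rfl fun h1 => ?_⟩
  have h2 := h1 ⟨x, y, 1, 0⟩ (by
    change x ^ 2 - algebraMap L F a * y ^ 2 - algebraMap L F b * 1 ^ 2 +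
      algebraMap L F a * algebraMap L F b * 0 ^ 2 = 0
    linear_combination -h)
  exact one_ne_zero (congrArg QuaternionAlgebra.imJ h2)

end model

theorem exists_place {L : Type} [Field L] [NumberField L] {T : Set (HeightOneSpectrum (𝓞 L))}
    (hT : T.Finite) : ∃ v, v ∉ T := by
  obtain ⟨m, hm⟩ : ∃ m : ℕ, m = ∏ v ∈ hT.toFinset, Ideal.absNorm v.asIdeal := ⟨_, rfl⟩
  have h0 : m ≠ 0 := hm ▸ Finset.prod_ne_zero_iff.mpr fun v _ => by
    rw [Ne, Ideal.absNorm_eq_zero_iff]
    exact v.ne_bot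
  have h1 : Ideal.span {((m + 1 : ℕ) : 𝓞 L)} ≠ ⊤ := by
    rw [Ne, ← Ideal.absNorm_eq_one_iff, Ideal.absNorm_span_natCast, Nat.pow_eq_one, not_or]
    exact ⟨by omega, Module.finrank_pos.ne'⟩
  obtain ⟨P, hP, h2⟩ := Ideal.exists_le_maximal _ h1
  have h3 : ((m + 1 : ℕ) : 𝓞 L) ∈ P := h2 (Ideal.mem_span_singleton_self _)
  refine ⟨⟨P, hP.isPrime, fun h4 => ?_⟩, fun h4 => hP.ne_top ?_⟩
  · rw [h4, Ideal.mem_bot, Nat.cast_eq_zero] at h3
    omega
  · have h6 := Finset.dvd_prod_of_mem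
      (fun v : HeightOneSpectrum (𝓞 L) => Ideal.absNorm v.asIdeal) (hT.mem_toFinset.mpr h4)
    rw [← hm] at h6
    obtain ⟨c, hc⟩ : Ideal.absNorm P ∣ m := h6
    have h5 : (m : 𝓞 L) ∈ P := by
      rw [hc, Nat.cast_mul]
      exact P.mul_mem_right _ (Ideal.absNorm_mem P)
    rw [Nat.cast_succ] at h3
    exact (Ideal.eq_top_iff_one P).mpr ((P.add_mem_iff_right h5).mp h3)

/-- **The local data of the norm-one groups of quaternion algebras.** -/
theorem locQ : LocQ := by
  intro L _ _ a b _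
  have h1 : ∀ v : HeightOneSpectrum (𝓞 L), (Sum.inl v : Arith.Pl L) ∉ Even.bad a b →
      ∃ M : Mod L (MPQ.Qt a b) (v.adicCompletion L), M.Iso ⊤ ∧ M.Gen := by
    intro v hv
    obtain ⟨n, ⟨x, y, hn⟩, s, hs, h2⟩ := Subgroup.mem_sup.mp (not_not.mp hv)
    obtain ⟨z, hz⟩ := (Even.isSquare_iff v s).mpr hs
    refine exists_iso a b (x := algebraMap L _ x * z) (y := algebraMap L _ y * z) ?_
    rw [← h2, Units.val_mul, hn, map_mul, hz, map_sub, map_mul, map_pow, map_pow]
    ring
  have h2 : {v : HeightOneSpectrum (𝓞 L) | (Sum.inl v : Arith.Pl L) ∈ Even.bad a b}.Finite :=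
    (Even.bad_finite a b).preimage Sum.inl_injective.injOn
  refine ⟨fun v => exists_dich a b _, fun w => ?_, h2.subset fun v hv => ?_, ?_⟩
  · have : CharZero w.Completion :=
      charZero_of_injective_algebraMap (algebraMap L w.Completion).injective
    exact exists_dich a b _
  · by_contra h3
    exact hv ((h1 v h3).imp fun M hM => hM.1)
  · obtain ⟨v, hv⟩ := exists_place h2
    exact ⟨v, h1 v hv⟩

end Vale.Agent.P011N.A1
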