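import Vale.Agent.P011N.A1.Main0
import Vale.Agent.P011N.A1.LocQ

/-!
Block A1: finiteness for the norm-one groups of quaternion division algebras.
-/

namespace Vale.Agent.P011N.A1

/-- **Finiteness for norm-one groups of quaternion division algebras over number fields.** -/
theorem mfq : MFQ := mfq_of locQ

end Vale.Agent.P011N.A1
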