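import Vale.Agent.P011N.A1.LocSU
import Vale.Agent.P011N.A1.MainQ

/-!
Block A1: the finiteness theorems over number fields.
-/

namespace Vale.Agent.P011N.A1

/-- **Noncentral normal subgroups of special unitary groups over number fields have finite
index.** -/
theorem mfnf : MFNF := mfnf_of locSU

end Vale.Agent.P011N.A1
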