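import Vale.Agent.P011N.A1.Coc0
import Vale.Agent.P011.MPQ.Appr

/-!
Block A1: absolute values of number fields; cocompactness in terms of the places.
-/

open Module Topology NumberField IsDedekindDomain

namespace Vale.Agent.P011N.A1

open Vale.Agent.P011.MPQ

section na

variable {k : Type} [Field k] {a : AbsoluteValue k ℝ}

theorem na_sum (h : ∀ x y, a (x + y) ≤ max (a x) (a y)) {ι : Type} (s : Finset ι) {f : ι → k}
    (hf : ∀ i ∈ s, a (f i) ≤ 1) : a (∑ i ∈ s, f i) ≤ 1 :=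
  Finset.sum_induction f (fun x => a x ≤ 1) (fun x y hx hy => (h x y).trans (max_le hx hy))
    (by simp) hf

theorem na_int (h : ∀ x y, a (x + y) ≤ max (a x) (a y)) (z : ℤ) : a z ≤ 1 := by
  have h1 : ∀ n : ℕ, a n ≤ 1 := by
    intro n
    induction n with
    | zero => simp
    | succ n ih =>
      rw [Nat.cast_succ]
      exact (h _ _).trans (max_le ih (by simp))
  obtain ⟨n, rfl | rfl⟩ := z.eq_nat_or_neg
  · simpa using h1 n
  · simpa using h1 n

theorem na_rat [CharZero k] (h : ∀ x y, a (x + y) ≤ max (a x) (a y)) {p : Nat.Primes}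
    (hp : a (p.1 : k) < 1) {c : ℚ} (hc : padicNorm p.1 c ≤ 1) : a (c : k) ≤ 1 := by
  have h1 : IsCoprime (p.1 : ℤ) (c.den : ℤ) :=
    Nat.isCoprime_iff_coprime.mpr (p.2.coprime_iff_not_dvd.mpr (G1.not_dvd_den p hc))
  obtain ⟨x, y, h2⟩ := h1
  have h3 : (x : k) * p.1 + y * c.den = 1 := by exact_mod_cast congrArg (Int.cast : ℤ → k) h2
  have h4 := h ((x : k) * p.1) (y * c.den)
  rw [h3, map_one, map_mul, map_mul, le_max_iff] at h4
  have h5 : 1 ≤ a (c.den : k) := by
    rcases h4 with h4 | h4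
    · nlinarith [na_int h x, a.nonneg (x : k), a.nonneg (p.1 : k)]
    · nlinarith [na_int h y, a.nonneg (y : k), a.nonneg (c.den : k)]
  rw [Rat.cast_def, map_div₀, div_le_one (by linarith)]
  exact (na_int h _).trans h5

theorem na_rat_bd [CharZero k] (h : ∀ x y, a (x + y) ≤ max (a x) (a y)) {p : Nat.Primes}
    (hp : a (p.1 : k) < 1) (R : ℝ) :
    ∃ R' : ℝ, ∀ c : ℚ, (padicNorm p.1 c : ℝ) ≤ R → a (c : k) ≤ R' := by
  have h0 : (1 : ℝ) < p.1 := by exact_mod_cast p.2.one_lt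
  obtain ⟨m, hm⟩ := pow_unbounded_of_one_lt R h0
  have h1 : 0 < a ((p.1 : k) ^ m) := a.pos (pow_ne_zero _ (Nat.cast_ne_zero.mpr p.2.ne_zero))
  refine ⟨1 / a ((p.1 : k) ^ m), fun c hc => ?_⟩
  have h2 : padicNorm p.1 ((p.1 : ℚ) ^ m * c) ≤ 1 := by
    rw [padicNorm.mul, IsAbsoluteValue.abv_pow (padicNorm p.1), padicNorm.padicNorm_p_of_prime,
      inv_pow, inv_mul_le_iff₀ (by exact_mod_cast pow_pos p.2.pos m), mul_one]
    exact_mod_cast hc.trans hm.le
  have h3 := na_rat h hp h2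
  rw [Rat.cast_mul, Rat.cast_pow, Rat.cast_natCast, map_mul] at h3
  rwa [le_div_iff₀ h1, mul_comm]

end na

variable {k : Type} [Field k] [NumberField k]

theorem pabv_na (v : HeightOneSpectrum (𝓞 k)) (x y : k) :
    pabv (Sum.inl v) (x + y) ≤ max (pabv (Sum.inl v) x) (pabv (Sum.inl v) y) :=
  NumberField.HeightOneSpectrum.adicAbv_add_le_max k v x y

theorem pabv_le_one (v : HeightOneSpectrum (𝓞 k)) (x : k) :
    pabv (Sum.inl v) x ≤ 1 ↔ v.valuation k x ≤ 1 := by
  have h := pabv_le v x 1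
  rwa [map_one, map_one] at h

theorem pabv_lt_one (v : HeightOneSpectrum (𝓞 k)) (x : k) :
    pabv (Sum.inl v) x < 1 ↔ v.valuation k x < 1 := by
  have h := pabv_lt v x 1
  rwa [map_one, map_one] at h

theorem pabv_int (v : HeightOneSpectrum (𝓞 k)) (x : 𝓞 k) : pabv (Sum.inl v) (x : k) ≤ 1 :=
  (pabv_le_one v _).mpr (v.valuation_le_one x)

theorem exists_prime_pl (v : HeightOneSpectrum (𝓞 k)) :
    ∃ p : Nat.Primes, pabv (Sum.inl v) (p.1 : k) < 1 := by
  have h1 : pabv (Sum.inl v) (Ideal.absNorm v.asIdeal : k) < 1 := by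
    rw [pabv_lt_one]
    have h2 := (v.valuation_lt_one_iff_mem (K := k) _).mpr (Ideal.absNorm_mem v.asIdeal)
    simpa using h2
  have h2 : Ideal.absNorm v.asIdeal ≠ 0 := by
    rw [Ne, Ideal.absNorm_eq_zero_iff]
    exact v.ne_bot
  generalize Ideal.absNorm v.asIdeal = n at h1 h2
  induction n using induction_on_primes with
  | zero => exact absurd rfl h2
  | one => simp at h1
  | prime_mul p n hp ih =>
    by_cases h3 : pabv (Sum.inl v) (p : k) < 1
    · exact ⟨⟨p, hp⟩, h3⟩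
    · refine ih ?_ (right_ne_zero_of_mul h2)
      rw [Nat.cast_mul, map_mul] at h1
      nlinarith [(pabv (Sum.inl v)).nonneg (n : k)]

theorem finite_ne_one {x : k} (hx : x ≠ 0) :
    {v : HeightOneSpectrum (𝓞 k) | pabv (Sum.inl v) x ≠ 1}.Finite := by
  have h := (FinitePlace.hasFiniteMulSupport hx).preimage
    (f := FinitePlace.mk (K := k)) fun _ _ _ _ h => FinitePlace.mk_eq_iff.mp h
  refine h.subset fun v hv => ?_
  change FinitePlace.mk v x ≠ 1
  rwa [FinitePlace.mk_apply, FinitePlace.norm_embedding]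

theorem finite_gt_one (x : k) :
    {v : HeightOneSpectrum (𝓞 k) | ¬ pabv (Sum.inl v) x ≤ 1}.Finite := by
  by_cases hx : x = 0
  · simp [hx]
  · exact (finite_ne_one hx).subset fun v hv h => hv h.le

theorem finite_bd (q : HeightOneSpectrum (𝓞 k)) (R : ℝ) :
    {x : k | (∀ v, v ≠ q → pabv (Sum.inl v) x ≤ 1) ∧ pabv (Sum.inl q) x ≤ R ∧
      ∀ w, pabv (Sum.inr w) x ≤ R}.Finite := by
  obtain ⟨p, hp⟩ := exists_prime_pl q
  have hp0 : (p.1 : k) ≠ 0 := Nat.cast_ne_zero.mpr p.2.ne_zero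
  obtain ⟨n, hn⟩ := exists_pow_lt_of_lt_one (show 0 < 1 / max R 1 by positivity) hp
  rw [lt_div_iff₀ (by positivity)] at hn
  refine ((NumberField.Embeddings.finite_of_norm_le k ℂ ((p.1 : ℝ) ^ n * R)).preimage
    (f := fun x => (p.1 : k) ^ n * x)
    (mul_right_injective₀ (pow_ne_zero n hp0)).injOn).subset ?_
  rintro x ⟨h1, h2, h3⟩
  constructor
  · obtain ⟨y, hy⟩ := HeightOneSpectrum.mem_integers_of_valuation_le_one (R := 𝓞 k) k
      ((p.1 : k) ^ n * x) fun v => by
        rw [← pabv_le_one, map_mul, map_pow]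
        by_cases hv : v = q
        · subst hv
          exact (mul_le_mul_of_nonneg_left (h2.trans (le_max_left _ _)) (by positivity)).trans hn.le
        · have h4 : pabv (Sum.inl v) (p.1 : k) ≤ 1 := by simpa using na_int (pabv_na v) p.1
          exact mul_le_one₀ (pow_le_one₀ (by positivity) h4) (by positivity) (h1 v hv)
    change IsIntegral ℤ ((p.1 : k) ^ n * x)
    rw [← hy]
    exact y.2
  · intro φ
    rw [map_mul, map_pow, map_natCast, norm_mul, norm_pow, Complex.norm_natCast]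
    exact mul_le_mul_of_nonneg_left (h3 (InfinitePlace.mk φ)) (by positivity)

variable {A : Type} [Ring A] [StarRing A] [Algebra k A] [FiniteDimensional k A]

/-- The matrix of the left multiplication. -/
noncomputable def lmk (k : Type) {A : Type} [Field k] [Ring A] [Algebra k A]
    [FiniteDimensional k A] (x : A) : Matrix (Fin (finrank k A)) (Fin (finrank k A)) k :=
  Algebra.leftMulMatrix (Module.finBasis k A) x

/-- Cocompactness in terms of the places. -/
def CocK (k : Type) {A : Type} [Field k] [NumberField k] [Ring A] [StarRing A] [Algebra k A]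
    [FiniteDimensional k A] (G : Subgroup (unitary A)) : Prop :=
  ∀ S₀ : Set (HeightOneSpectrum (𝓞 k)), S₀.Finite → ∃ S : Set (HeightOneSpectrum (𝓞 k)),
    S.Finite ∧ S₀ ⊆ S ∧ ∃ R : PlI k → ℝ, ∀ g ∈ G, ∃ γ ∈ G,
      (∀ v, v ∉ S → ∀ i l, pabv (Sum.inl v) (lmk k (γ : A) i l) ≤ 1 ∧
        pabv (Sum.inl v) (lmk k ((γ⁻¹ : unitary A) : A) i l) ≤ 1) ∧
      ∀ p : PlI k, (∀ v, p = Sum.inl v → v ∈ S) → ∀ i l,
        pabv p (lmk k ((γ⁻¹ * g : unitary A) : A) i l) ≤ R p

omit [StarRing A] in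
theorem lmk_eq [Algebra ℚ A] : ∃ e : Free.ChooseBasisIndex ℤ (𝓞 k) × Free.ChooseBasisIndex ℤ (𝓞 k) →
    𝓞 k, ∀ (x : A) i l, lmk k x i l = ∑ s, (Algebra.leftMulMatrix
      ((integralBasis k).smulTower (Module.finBasis k A)) x (s.1, i) (s.2, l) : k) * e s := by
  refine ⟨fun s => (RingOfIntegers.basis k).repr 1 s.2 • RingOfIntegers.basis k s.1,
    fun x i l => ?_⟩
  have h1 : (1 : k) = ∑ t, ((RingOfIntegers.basis k).repr 1 t : k) * integralBasis k t := by
    have h2 := congrArg (algebraMap (𝓞 k) k) ((RingOfIntegers.basis k).sum_repr 1)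
    rw [map_one (algebraMap (𝓞 k) k), map_sum] at h2
    rw [← h2]
    refine Finset.sum_congr rfl fun t _ => ?_
    rw [integralBasis_apply, zsmul_eq_mul, map_mul, map_intCast]
  have h2 : ∀ t, integralBasis k t * lmk k x i l = ∑ s, (Algebra.leftMulMatrix
      ((integralBasis k).smulTower (Module.finBasis k A)) x (s, i) (t, l) : k) *
        integralBasis k s := by
    intro t
    simp only [Algebra.leftMulMatrix_eq_repr_mul, Basis.smulTower_repr, Basis.smulTower_apply, lmk,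
      mul_smul_comm, map_smul, Finsupp.smul_apply, smul_eq_mul, ← Rat.smul_def]
    exact ((integralBasis k).sum_repr _).symm
  rw [← one_mul (lmk k x i l), h1, Finset.sum_mul, Fintype.sum_prod_type_right]
  refine Finset.sum_congr rfl fun t _ => ?_
  rw [mul_assoc, h2, Finset.mul_sum]
  refine Finset.sum_congr rfl fun s _ => ?_
  beta_reduce
  rw [integralBasis_apply, zsmul_eq_mul, RingOfIntegers.coe_eq_algebraMap, map_mul, map_intCast]
  ring

theorem cocK [Algebra ℚ A] [IsSimpleRing A] (ha : ∀ x : A, star x * x = 0 → x = 0)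
    {G : Subgroup (unitary A)} (hG : Inv G) : CocK k G := by
  classical
  intro S₀ hS₀
  have : FiniteDimensional ℚ A := FiniteDimensional.trans ℚ k A
  choose pr hpr using exists_prime_pl (k := k)
  let P : Finset Nat.Primes := (hS₀.image pr).toFinset
  obtain ⟨e, he⟩ := lmk_eq (k := k) (A := A)
  obtain ⟨R, hR⟩ := coc_rat ha hG ((integralBasis k).smulTower (Module.finBasis k A)) P
  have h1 : ∀ p : PlI k, ∃ R' : ℝ, (∀ v, p = Sum.inl v → pr v ∈ P) → ∀ c : ℚ, |(c : ℝ)| ≤ R →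
      (∀ q ∈ P, (padicNorm q.1 c : ℝ) ≤ R) → pabv p (c : k) ≤ R' := by
    rintro (v | w)
    · obtain ⟨R', h⟩ := na_rat_bd (pabv_na v) (hpr v) R
      exact ⟨R', fun h1 c _ h2 => h c (h2 _ (h1 v rfl))⟩
    · refine ⟨R, fun _ c h _ => ?_⟩
      rwa [pabv_inr, w.map_ratCast, ← Rat.norm_cast_real, Real.norm_eq_abs]
  choose R' hR' using h1
  refine ⟨{v | pr v ∈ P}, ?_, fun v hv => (hS₀.image pr).mem_toFinset.mpr ⟨v, hv, rfl⟩,
    fun p => ∑ s, R' p * pabv p (e s : k), fun g hg => ?_⟩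
  · refine (P.finite_toSet.biUnion fun p _ =>
      finite_ne_one (k := k) (Nat.cast_ne_zero.mpr p.2.ne_zero)).subset fun v hv => ?_
    exact Set.mem_biUnion hv (hpr v).ne
  · obtain ⟨γ, hγ, h2, h3⟩ := hR g hg
    refine ⟨γ, hγ, fun v hv i l => ⟨?_, ?_⟩, fun p hp i l => ?_⟩
    · rw [he]
      refine na_sum (pabv_na v) _ fun s _ => ?_
      rw [map_mul]
      exact mul_le_one₀ (na_rat (pabv_na v) (hpr v) (h2 _ hv _ _).1) (by positivity) (pabv_int v _)
    · rw [he]
      refine na_sum (pabv_na v) _ fun s _ => ?_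
      rw [map_mul]
      exact mul_le_one₀ (na_rat (pabv_na v) (hpr v) (h2 _ hv _ _).2) (by positivity) (pabv_int v _)
    · rw [he]
      refine ((pabv p).sum_le _ _).trans (Finset.sum_le_sum fun s _ => ?_)
      rw [map_mul]
      exact mul_le_mul_of_nonneg_right (hR' p hp _ (h3 _ _).1 (h3 _ _).2) (by positivity)

end Vale.Agent.P011N.A1
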