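import Vale.Agent.P011N.A1.Top1

/-!
Block A1: properties of the local groups.
-/

open Module Topology Filter

set_option linter.unusedSectionVars false

namespace Vale.Agent.P011N.A1

/-- Sublevel sets of positive homogeneous functions are bounded. -/
theorem bdd_of_homog {F V : Type} [NontriviallyNormedField F] [NormedAddCommGroup V]
    [NormedSpace F V] [ProperSpace V] {φ : V → ℝ} (hφ : Continuous φ) {m : ℕ} (hm : m ≠ 0)
    (h1 : ∀ (c : F) (x : V), φ (c • x) = ‖c‖ ^ m * φ x) (h2 : ∀ x, x ≠ 0 → 0 < φ x) (a : ℝ) :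
    ∃ R : ℝ, ∀ x, φ x ≤ a → ‖x‖ ≤ R := by
  obtain ⟨c, hc⟩ := NormedField.exists_one_lt_norm F
  have h3 : IsCompact (Metric.closedBall (0 : V) 1 \ Metric.ball 0 (1 / ‖c‖)) :=
    (isCompact_closedBall 0 1).diff Metric.isOpen_ball
  have hc0 : 0 < 1 / ‖c‖ := by positivity
  obtain ⟨δ, hδ, h4⟩ : ∃ δ : ℝ, 0 < δ ∧
      ∀ x ∈ Metric.closedBall (0 : V) 1 \ Metric.ball 0 (1 / ‖c‖), δ ≤ φ x := by
    refine h3.exists_forall_le' hφ.continuousOn fun x hx => h2 x ?_
    rintro rfl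
    exact hx.2 (Metric.mem_ball_self hc0)
  refine ⟨max 1 (a / δ), fun x hx => ?_⟩
  by_contra h5
  rw [not_le, max_lt_iff] at h5
  have hx0 : x ≠ 0 := norm_pos_iff.mp (by linarith [h5.1])
  obtain ⟨d, -, h6, h7, -⟩ := rescale_to_shell hc one_pos hx0
  have h8 := h4 (d • x) ⟨by simpa using h6.le, by simpa using h7⟩
  rw [norm_smul] at h6
  have h9 : ‖d‖ ≤ 1 := by nlinarith [norm_nonneg d, h5.1]
  have h10 : ‖d‖ ^ m ≤ ‖d‖ := pow_le_of_le_one (norm_nonneg d) h9 hm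
  have h11 := h5.2
  rw [div_lt_iff₀ hδ] at h11
  rw [h1] at h8
  have h12 := h2 x hx0
  have h13 : ‖d‖ ^ m * φ x ≤ ‖d‖ * a := mul_le_mul h10 hx h12.le (norm_nonneg d)
  nlinarith [norm_nonneg d]

theorem comm_central {U : Type} [Group U] {Z W : U} (hZ : Z ∈ Subgroup.center U)
    (hW : W ∈ Subgroup.center U) (S T : U) :
    (Z * S) * (W * T) * (Z * S)⁻¹ * (W * T)⁻¹ = S * T * S⁻¹ * T⁻¹ := by
  have h := Subgroup.mem_center_iff.mp (Subgroup.mul_mem _ hZ hW)
  rw [Subgroup.mem_center_iff] at hZ hW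
  have e1 : Z * S * (W * T) = S * T * (Z * W) := by
    calc Z * S * (W * T) = Z * (S * W) * T := by group
      _ = Z * W * (S * T) := by rw [hW S]; group
      _ = _ := (h _).symm
  have e2 : W * T * (Z * S) = T * S * (Z * W) := by
    calc W * T * (Z * S) = W * (T * Z) * S := by group
      _ = (W * Z) * (T * S) := by rw [hZ T]; group
      _ = _ := by rw [hZ W, h]
  calc _ = (Z * S * (W * T)) * (W * T * (Z * S))⁻¹ := by group
    _ = _ := by rw [e1, e2]; group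

theorem comap_neBot_of_closure {X Y : Type} [TopologicalSpace Y] {f : X → Y} {y : Y}
    (h : y ∈ closure (Set.range f)) : (comap f (𝓝 y)).NeBot :=
  comap_neBot fun s hs => by
    obtain ⟨_, h1, x, rfl⟩ := mem_closure_iff_nhds.mp h s hs
    exact ⟨x, h1⟩

variable {k A F : Type} [Field k] [CharZero k] [Ring A] [StarRing A] [Algebra k A]
  [FiniteDimensional k A] [NontriviallyNormedField F] [ProperSpace F] [Algebra k F]
  {M : Mod k A F} {G : Subgroup (unitary A)}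

theorem Mod.Iso.approx (hI : M.Iso G) (h : An k A) (S T : unitary M.E) :
    ∃ y z : M.E, ∀ l : Filter (A × A), Tendsto (fun x => M.j x.1) l (𝓝 y) →
      Tendsto (fun x => M.j x.2) l (𝓝 z) →
      Tendsto (fun x => M.u (h.cay x.1 * h.cay x.2 * (h.cay x.1)⁻¹ * (h.cay x.2)⁻¹)) l
        (𝓝 (S * T * S⁻¹ * T⁻¹)) := by
  have : CharZero F := charZero_of_injective_algebraMap (algebraMap k F).injective
  obtain ⟨Z, hZ, hS⟩ := hI.shift S
  obtain ⟨W, hW, hT⟩ := hI.shift T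
  obtain ⟨y, hy1, hy2, hy3⟩ := exists_cy (F := F) (Z * S).2 hS
  obtain ⟨z, hz1, hz2, hz3⟩ := exists_cy (F := F) (W * T).2 hT
  refine ⟨y, z, fun l h1 h2 => ?_⟩
  have h3 := M.tendsto_cay h hy1 hy2 h1
  have h4 := M.tendsto_cay h hz1 hz2 h2
  have e1 : (⟨cy y, cy_mem hy1 hy2⟩ : unitary M.E) = Z * S := Subtype.ext hy3
  have e2 : (⟨cy z, cy_mem hz1 hz2⟩ : unitary M.E) = W * T := Subtype.ext hz3
  rw [e1] at h3
  rw [e2] at h4
  rw [← comm_central hZ hW S T]
  simp only [map_mul, map_inv]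
  exact ((h3.mul h4).mul h3.inv).mul h4.inv

theorem Mod.approx_one (M : Mod k A F) (h : An k A) (l : Filter (A × A))
    (h1 : Tendsto (fun x => M.j x.1) l (𝓝 0)) (h2 : Tendsto (fun x => M.j x.2) l (𝓝 0)) :
    Tendsto (fun x => M.u (h.cay x.1 * h.cay x.2 * (h.cay x.1)⁻¹ * (h.cay x.2)⁻¹)) l (𝓝 1) := by
  have h0 : star (0 : M.E) = -0 := by simp
  have h0' : IsUnit (1 + 0 : M.E) := by simp
  have h3 := M.tendsto_cay h h0 h0' h1
  have h4 := M.tendsto_cay h h0 h0' h2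
  have e1 : (⟨cy 0, cy_mem h0 h0'⟩ : unitary M.E) = 1 := Subtype.ext cy_zero
  rw [e1] at h3 h4
  simp only [map_mul, map_inv]
  simpa using ((h3.mul h4).mul h3.inv).mul h4.inv

theorem Mod.j_dense (M : Mod k A F) (hden : DenseRange (algebraMap k F)) : DenseRange M.j := by
  have h1 : DenseRange (Pi.map fun _ : Fin (finrank k A) => algebraMap k F) :=
    DenseRange.piMap fun _ => hden
  have h2 : Continuous (M.bas.equivFun.symm : (Fin (finrank k A) → F) → M.E) :=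
    M.bas.equivFun.symm.toLinearMap.continuous_of_finiteDimensional
  refine Dense.mono ?_ (M.bas.equivFun.symm.surjective.denseRange.comp h1 h2)
  rintro _ ⟨c, rfl⟩
  refine ⟨(Module.finBasis k A).equivFun.symm c, ?_⟩
  apply M.bas.equivFun.injective
  funext i
  rw [Function.comp_apply, LinearEquiv.apply_symm_apply, Basis.equivFun_apply, M.repr_j,
    ← Basis.equivFun_apply, LinearEquiv.apply_symm_apply]
  rfl

theorem comm_mem {U : Type} [Group U] (a b : U) : a * b * a⁻¹ * b⁻¹ ∈ commutator U :=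
  Subgroup.commutator_mem_commutator (Subgroup.mem_top a) (Subgroup.mem_top b)

/-- The commutators lie in the closure. -/
theorem Mod.Iso.comm_le (hI : M.Iso G) (h : An k A) (hG : commutator (unitary A) ≤ G)
    (hden : DenseRange (algebraMap k F)) : commutator (unitary M.E) ≤ M.cl G := by
  rw [commutator_def, Subgroup.commutator_le]
  intro S _ T _
  obtain ⟨y, z, h1⟩ := hI.approx h S T
  have h2 := comap_neBot_of_closure (M.j_dense hden y)
  have h3 := comap_neBot_of_closure (M.j_dense hden z)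
  refine mem_closure_of_tendsto (h1 (comap M.j (𝓝 y) ×ˢ comap M.j (𝓝 z))
    (tendsto_comap.comp tendsto_fst) (tendsto_comap.comp tendsto_snd))
    (Eventually.of_forall fun x => ⟨_, hG (comm_mem _ _), rfl⟩)

/-- A closed subgroup which contains the commutators is everything. -/
theorem Mod.Iso.eq_top (hI : M.Iso G) {W : Subgroup (M.cl G)} (hW : IsClosed (W : Set (M.cl G)))
    (h : commutator (unitary M.E) ≤ W.map (M.cl G).subtype) : W = ⊤ := by
  rw [eq_top_iff]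
  intro x _
  refine (M.ι_dense G).induction_on (p := fun x => x ∈ W) x hW fun g => ?_
  obtain ⟨y, hy, h1⟩ := h (hI.le g g.2)
  have h2 : y = M.ι G g := Subtype.ext h1
  exact h2 ▸ hy

theorem Mod.Iso.loc' (hI : M.Iso G) (hc : commutator (unitary M.E) ≤ M.cl G) : Loc (M.cl G) := by
  intro W h1 h2
  rw [or_iff_not_imp_left]
  intro h3
  obtain ⟨x, hx, h4⟩ := SetLike.not_le_iff_exists.mp h3
  refine hI.eq_top h1 (hI.loc _ ?_ ⟨x, ⟨x, hx, rfl⟩, fun h5 => h4 ?_⟩)
  · rintro g hg _ ⟨y, hy, rfl⟩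
    exact ⟨_, h2.conj_mem y hy ⟨g, hc hg⟩, rfl⟩
  · rw [Subgroup.mem_center_iff] at h5 ⊢
    exact fun g => Subtype.ext (h5 g)

theorem conj_eig {τ : unitary M.E} {y : M.E} {s : F} (h : (τ : M.E) * y = s • (y * τ)) (m : ℕ) :
    ((τ ^ m : unitary M.E) : M.E) * y * (((τ ^ m)⁻¹ : unitary M.E) : M.E) = s ^ m • y := by
  induction m with
  | zero => simp
  | succ m ih =>
    have h1 : (τ : M.E) * ((τ⁻¹ : unitary M.E) : M.E) = 1 := by
      rw [← Submonoid.coe_mul, mul_inv_cancel, Submonoid.coe_one]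
    rw [pow_succ', mul_inv_rev, Submonoid.coe_mul, Submonoid.coe_mul]
    calc _ = (τ : M.E) * (((τ ^ m : unitary M.E) : M.E) * y *
          (((τ ^ m)⁻¹ : unitary M.E) : M.E)) * ((τ⁻¹ : unitary M.E) : M.E) := by
          simp only [mul_assoc]
      _ = _ := by
          rw [ih, mul_smul_comm, h, smul_smul, smul_mul_assoc, mul_assoc, h1, mul_one, pow_succ]

theorem conj_eig' {τ x : unitary M.E} {y : M.E} {s : F} (h : (τ : M.E) * y = s • (y * τ))
    (hx : (x : M.E) = 1 + y) (m : ℕ) :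
    ((τ ^ m * x * (τ ^ m)⁻¹ : unitary M.E) : M.E) = 1 + s ^ m • y := by
  rw [Submonoid.coe_mul, Submonoid.coe_mul, hx, mul_add, add_mul, conj_eig h, mul_one,
    ← Submonoid.coe_mul, mul_inv_cancel, Submonoid.coe_one]

/-- The group generated by a ball. -/
noncomputable def Mod.bl (M : Mod k A F) (G : Subgroup (unitary A)) (R : ℝ) : Subgroup (M.cl G) :=
  Subgroup.closure {x : M.cl G | ‖M.v G x‖ ≤ R}

theorem Mod.mem_bl {R : ℝ} {x : M.cl G} (h : ‖M.v G x‖ ≤ R) : x ∈ M.bl G R :=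
  Subgroup.subset_closure h

theorem Mod.bl_mono {R S : ℝ} (h : R ≤ S) : M.bl G R ≤ M.bl G S :=
  Subgroup.closure_mono fun _ hx => le_trans hx h

/-- The elements whose conjugates by the group generated by a ball are bounded. -/
def Mod.bd (M : Mod k A F) (G : Subgroup (unitary A)) (R : ℝ) : Submodule F M.E where
  carrier := {y | ∃ r : ℝ, ∀ h ∈ M.bl G R,
    ‖M.v G h⁻¹ * y * M.v G h‖ ≤ r}
  add_mem' := by
    rintro y z ⟨r, hr⟩ ⟨s, hs⟩
    refine ⟨r + s, fun h hh => ?_⟩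
    rw [mul_add, add_mul]
    exact norm_add_le_of_le (hr h hh) (hs h hh)
  zero_mem' := ⟨0, fun h _ => by simp⟩
  smul_mem' := by
    rintro c y ⟨r, hr⟩
    refine ⟨‖c‖ * r, fun h hh => ?_⟩
    rw [mul_smul_comm, smul_mul_assoc, norm_smul]
    exact mul_le_mul_of_nonneg_left (hr h hh) (norm_nonneg c)

theorem Mod.bd_anti {R S : ℝ} (h : R ≤ S) : M.bd G S ≤ M.bd G R := by
  rintro y ⟨r, hr⟩
  exact ⟨r, fun g hg => hr g (Mod.bl_mono h hg)⟩

theorem Mod.Iso.exit (hI : M.Iso G) (hc : commutator (unitary M.E) ≤ M.cl G) : Exit (M.cl G) := by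
  obtain ⟨_, ⟨R, rfl⟩, hR⟩ := (wellFounded_lt (α := Submodule F M.E)).has_min
    (Set.range (M.bd G)) ⟨_, 0, rfl⟩
  have h1 : ∀ S, M.bd G R ≤ M.bd G S := by
    intro S
    rcases le_total S R with h | h
    · exact Mod.bd_anti h
    · exact ((Mod.bd_anti h).eq_of_not_lt (hR _ ⟨S, rfl⟩)).ge
  obtain ⟨c, hc0, hst⟩ := M.exists_star
  have hval : ∀ h x : M.cl G, M.v G h⁻¹ * M.v G x * M.v G h = M.v G (h⁻¹ * x * h) :=
    fun _ _ => by rw [map_mul, map_mul]
  let B : Subgroup (M.cl G) :=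
    { carrier := {x | M.v G x ∈ M.bd G R}
      mul_mem' := by
        rintro x y ⟨r, hr⟩ ⟨s, hs⟩
        refine ⟨r * s, fun h hh => ?_⟩
        have e : h⁻¹ * (x * y) * h = (h⁻¹ * x * h) * (h⁻¹ * y * h) := by group
        rw [hval, e, map_mul, ← hval, ← hval]
        exact (norm_mul_le _ _).trans (mul_le_mul (hr h hh) (hs h hh) (norm_nonneg _)
          ((norm_nonneg _).trans (hr h hh)))
      one_mem' := ⟨‖(1 : M.E)‖, fun h _ => by
        rw [hval, mul_one, inv_mul_cancel, map_one]⟩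
      inv_mem' := by
        rintro x ⟨r, hr⟩
        refine ⟨c * r, fun h hh => ?_⟩
        have e : h⁻¹ * x⁻¹ * h = (h⁻¹ * x * h)⁻¹ := by group
        rw [hval, e, M.v_inv, ← hval]
        exact (hst _).trans (mul_le_mul_of_nonneg_left (hr h hh) hc0.le) }
  have h2 : IsClosed (B : Set (M.cl G)) :=
    (M.bd G R).closed_of_finiteDimensional.preimage (M.isClosedEmbedding G).continuous
  have h3 : B.Normal := by
    refine ⟨fun x hx g => ?_⟩
    obtain ⟨r, hr⟩ := h1 (max R ‖M.v G g‖) hx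
    refine ⟨r, fun h hh => ?_⟩
    have e : h⁻¹ * (g * x * g⁻¹) * h = (g⁻¹ * h)⁻¹ * x * (g⁻¹ * h) := by group
    rw [hval, e]
    rw [← hval]
    exact hr (g⁻¹ * h) (Subgroup.mul_mem _ (Subgroup.inv_mem _ (Mod.mem_bl (le_max_right _ _)))
      (Mod.bl_mono (le_max_left _ _) hh))
  have h4 : B ≠ ⊤ := by
    intro h5
    obtain ⟨y, hy0, -, hy1, hy2⟩ := hI.eig
    obtain ⟨t, ht⟩ := NormedField.exists_one_lt_norm F
    obtain ⟨τ, hτ, h6⟩ := hy2 t (norm_pos_iff.mp (by linarith))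
    obtain ⟨x, hx, h7⟩ := hy1 1
    rw [one_smul] at h7
    have h8 : (⟨x, hc hx⟩ : M.cl G) ∈ B := h5 ▸ Subgroup.mem_top _
    obtain ⟨r, hr⟩ := h1 ‖M.v G ⟨τ, hc hτ⟩‖ h8
    have h9 : ∀ m : ℕ, (‖t‖ ^ 2) ^ m * ‖y‖ ≤ r + ‖(1 : M.E)‖ := by
      intro m
      have h10 := hr ((⟨τ, hc hτ⟩ : M.cl G) ^ m)⁻¹ (Subgroup.inv_mem _ (Subgroup.pow_mem _
        (Mod.mem_bl le_rfl) m))
      rw [hval, inv_inv] at h10
      have h11 : ‖1 + (t ^ 2) ^ m • y‖ ≤ r := by
        have e : M.v G ((⟨τ, hc hτ⟩ : M.cl G) ^ m * ⟨x, hc hx⟩ * ((⟨τ, hc hτ⟩ : M.cl G) ^ m)⁻¹) =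
            1 + (t ^ 2) ^ m • y := conj_eig' h6 h7 m
        rwa [e] at h10
      rw [← norm_pow, ← norm_pow, ← norm_smul]
      calc _ = ‖(1 + (t ^ 2) ^ m • y) - 1‖ := by rw [add_sub_cancel_left]
        _ ≤ _ := norm_sub_le_of_le h11 le_rfl
    obtain ⟨m, hm⟩ := pow_unbounded_of_one_lt ((r + ‖(1 : M.E)‖) / ‖y‖)
      (one_lt_pow₀ ht two_ne_zero)
    rw [div_lt_iff₀ (norm_pos_iff.mpr hy0)] at hm
    exact absurd (h9 m) (not_le.mpr hm)
  have h5 := (hI.loc' hc B h2 h3).resolve_right h4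
  refine ⟨_, M.cpt_norm G R, fun x hx D hD => ?_⟩
  by_contra h6
  push Not at h6
  obtain ⟨r, hr⟩ := M.bdd_norm hD
  exact hx (h5 ⟨r, fun h hh => hval h x ▸ hr _ (h6 h hh)⟩)

theorem Mod.ball_open (M : Mod k A F) (G : Subgroup (unitary A)) {R : ℝ} (hR : ‖(1 : M.E)‖ < R) :
    IsOpen (M.bl G R : Set (M.cl G)) := by
  refine Subgroup.isOpen_of_mem_nhds _ (g := 1) (mem_of_superset ?_ Subgroup.subset_closure)
  rw [← map_one (M.v G)] at hR
  exact (M.isClosedEmbedding G).continuous.norm.continuousAt.eventually_le_const hR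

theorem Mod.Iso.gen (hI : M.Iso G) (hc : commutator (unitary M.E) ≤ M.cl G) (hg : M.Gen) :
    ∃ C : Set (M.cl G), IsCompact C ∧ Subgroup.closure C = ⊤ := by
  obtain ⟨m, Y, h1, h2, h3⟩ := hg
  obtain ⟨t, ht0, ht⟩ := NormedField.exists_norm_lt_one F
  choose τ hτ1 hτ2 using fun i => h2 i t (norm_pos_iff.mp ht0)
  obtain ⟨R, hR⟩ := (Set.finite_range fun i => ‖M.v G ⟨τ i, hc (hτ1 i)⟩‖).bddAbove
  have h0 : ‖(1 : M.E)‖ < max R (‖(1 : M.E)‖ + 1) := lt_max_of_lt_right (lt_add_one _)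
  refine ⟨_, M.cpt_norm G (max R (‖(1 : M.E)‖ + 1)),
    hI.eq_top (W := M.bl G (max R (‖(1 : M.E)‖ + 1)))
    (Subgroup.isClosed_of_isOpen _ (M.ball_open G h0))
    (h3.trans ((Subgroup.closure_le _).mpr ?_))⟩
  rintro x ⟨i, y, hy, hx⟩
  obtain ⟨x', hx', h4⟩ := h1 i y hy
  have h5 : x' = x := Subtype.ext (h4.trans hx.symm)
  subst h5
  refine ⟨⟨x', hc hx'⟩, ?_, rfl⟩
  have h6 : Tendsto (fun n : ℕ => (‖t‖ ^ 2) ^ n * ‖y‖) atTop (𝓝 0) := by
    simpa using (tendsto_pow_atTop_nhds_zero_of_lt_one (by positivity)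
      (pow_lt_one₀ ht0.le ht two_ne_zero)).mul_const ‖y‖
  obtain ⟨n, hn⟩ := (h6.eventually (gt_mem_nhds one_pos)).exists
  let σ : M.cl G := ⟨τ i, hc (hτ1 i)⟩
  have h7 : σ ^ n ∈ M.bl G (max R (‖(1 : M.E)‖ + 1)) :=
    Subgroup.pow_mem _ (Mod.mem_bl (le_max_of_le_left (hR ⟨i, rfl⟩))) n
  have e : (⟨x', hc hx'⟩ : M.cl G) = (σ ^ n)⁻¹ * (σ ^ n * ⟨x', hc hx'⟩ * (σ ^ n)⁻¹) * σ ^ n := by
    group
  rw [SetLike.mem_coe, e]
  refine Subgroup.mul_mem _ (Subgroup.mul_mem _ (Subgroup.inv_mem _ h7)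
    (Mod.mem_bl (le_max_of_le_right ?_))) h7
  have e' : M.v G (σ ^ n * ⟨x', hc hx'⟩ * (σ ^ n)⁻¹) = 1 + (t ^ 2) ^ n • y :=
    conj_eig' (hτ2 i y hy) h4 n
  rw [e']
  refine norm_add_le_of_le le_rfl ?_
  rw [norm_smul, norm_pow, norm_pow]
  exact hn.le

theorem Mod.Iso.gen_conn [PreconnectedSpace F] (hI : M.Iso G)
    (hc : commutator (unitary M.E) ≤ M.cl G) :
    ∃ C : Set (M.cl G), IsCompact C ∧ Subgroup.closure C = ⊤ := by
  have : CharZero F := charZero_of_injective_algebraMap (algebraMap k F).injective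
  have h1 : (Subgroup.connectedComponentOfOne (M.cl G)).Normal := by
    refine ⟨fun x hx g => ?_⟩
    have h2 : Continuous fun y : M.cl G => g * y * g⁻¹ := by fun_prop
    have h3 := h2.image_connectedComponent_subset 1 ⟨x, hx, rfl⟩
    rwa [mul_one, mul_inv_cancel] at h3
  have h2 : Subgroup.connectedComponentOfOne (M.cl G) = ⊤ := by
    refine (hI.loc' hc _ isClosed_connectedComponent h1).resolve_left fun h3 => ?_
    obtain ⟨y, hy0, -, hy1, hy2⟩ := hI.eig
    choose x hx1 hx2 using hy1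
    let x' : F → M.cl G := fun c => ⟨x c, hc (hx1 c)⟩
    have h4 : Continuous x' := by
      rw [(M.isClosedEmbedding G).isInducing.continuous_iff]
      have e : M.v G ∘ x' = fun c : F => 1 + c • y :=
        funext hx2
      rw [e]
      fun_prop
    have h5 : x' 0 = 1 := Subtype.ext (Subtype.ext ((hx2 0).trans (by simp)))
    have h6 : x' 1 ∈ Subgroup.connectedComponentOfOne (M.cl G) := by
      have h7 := h4.image_connectedComponent_subset 0 ⟨1, by simp, rfl⟩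
      rwa [h5] at h7
    obtain ⟨τ, hτ, h7⟩ := hy2 2 two_ne_zero
    have h8 := Subgroup.mem_center_iff.mp (h3 h6) ⟨τ, hc hτ⟩
    have h9 : τ ^ 1 * x 1 * (τ ^ 1)⁻¹ = x 1 := by
      rw [pow_one, mul_inv_eq_iff_eq_mul]
      exact congrArg Subtype.val h8
    have h10 := conj_eig' h7 ((hx2 1).trans (by rw [one_smul])) 1
    rw [h9, hx2, add_right_inj, ← sub_eq_zero, ← sub_smul, smul_eq_zero] at h10
    exact h10.elim (by norm_num) hy0
  refine ⟨_, M.cpt_norm G (‖(1 : M.E)‖ + 1), ?_⟩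
  have h3 := M.ball_open G (lt_add_one ‖(1 : M.E)‖)
  rw [eq_top_iff, ← h2]
  exact IsClopen.connectedComponent_subset ⟨Subgroup.isClosed_of_isOpen _ h3, h3⟩
    (Subgroup.one_mem _)

theorem Mod.Bnd.cpt (hB : M.Bnd G) : CompactSpace (M.cl G) := by
  have key : ∀ (φ : M.E → ℝ) (m : ℕ) (a : ℝ), Continuous φ → m ≠ 0 →
      (∀ (c : F) (x : M.E), φ (c • x) = ‖c‖ ^ m * φ x) → (∀ x, x ≠ 0 → 0 < φ x) →
      (∀ g ∈ G, φ (M.j (g : A)) ≤ a) → CompactSpace (M.cl G) := by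
    intro φ m a h1 h2 h3 h4 h5
    obtain ⟨R, hR⟩ := bdd_of_homog h1 h2 h3 h4 a
    refine ⟨(M.cpt_norm G R).of_isClosed_subset isClosed_univ fun x _ => ?_⟩
    exact (M.ι_dense G).induction_on (p := fun x => ‖M.v G x‖ ≤ R) x
      (M.cpt_norm G R).isClosed fun g => hR _ (h5 g g.2)
  rcases hB with h | ⟨Δ, _, _, _, π, h1, h2⟩
  · refine key (fun x => ‖star x * x‖) 2 ‖(1 : M.E)‖ (by fun_prop) two_ne_zero (fun c x => ?_)
      (fun x hx => norm_pos_iff.mpr fun h1 => hx (h x h1)) fun g _ => ?_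
    · rw [M.star_smul, smul_mul_smul_comm, norm_smul, norm_mul, sq]
    · rw [← M.j_star, ← map_mul, g.2.1, map_one]
  · have h3 : Continuous fun x => Algebra.norm F (π x) := by
      simp only [Algebra.norm_eq_matrix_det (Module.finBasis F Δ)]
      refine Continuous.matrix_det (continuous_pi fun i => continuous_pi fun l => ?_)
      simp only [Algebra.leftMulMatrix_eq_repr_mul]
      exact (((Module.finBasis F Δ).coord i).comp ((LinearMap.mulRight F _).comp
        π.toLinearMap)).continuous_of_finiteDimensional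
    have h4 : ∀ (c : F) (x : M.E), Algebra.norm F (π (c • x)) =
        c ^ finrank F Δ * Algebra.norm F (π x) := by
      intro c x
      rw [map_smul, Algebra.smul_def, map_mul, Algebra.norm_algebraMap]
    have h5 : ∀ x : Δ, Algebra.norm F x = 0 → x = 0 := by
      intro x hx
      by_contra h6
      exact ((isUnit_iff_ne_zero.mpr h6).map (Algebra.norm F)).ne_zero hx
    refine key (fun x => ‖Algebra.norm F (π x)‖ + ‖Algebra.norm F (π (star x))‖) (finrank F Δ) 2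
      (h3.norm.add (h3.comp continuous_star).norm) Module.finrank_pos.ne' (fun c x => ?_)
      (fun x hx => ?_) fun g hg => ?_
    · rw [M.star_smul, h4, h4, norm_mul, norm_mul, norm_pow, mul_add]
    · by_contra h6
      have h7 := norm_nonneg (Algebra.norm F (π x))
      have h8 := norm_nonneg (Algebra.norm F (π (star x)))
      exact hx (h1 x (h5 _ (norm_eq_zero.mp (by linarith))) (h5 _ (norm_eq_zero.mp (by linarith))))
    · have h6 := h2 g⁻¹ (G.inv_mem hg)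
      have h7 : star (M.j (g : A)) = M.j ((g⁻¹ : unitary A) : A) := (M.j_star _).symm
      rw [h7, h6, h2 g hg, norm_one]
      norm_num

section ultra

variable [IsUltrametricDist F]

theorem Mod.ent_mul (M : Mod k A F) {x y : M.E} (hx : ∀ p, ‖M.ent x p‖ ≤ 1)
    (hy : ∀ p, ‖M.ent y p‖ ≤ 1) (p) : ‖M.ent (x * y) p‖ ≤ 1 := by
  change ‖Algebra.leftMulMatrix M.bas (x * y) p.1 p.2‖ ≤ 1
  rw [map_mul, Matrix.mul_apply]
  refine IsUltrametricDist.norm_sum_le_of_forall_le_of_nonneg zero_le_one fun l _ => ?_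
  rw [norm_mul]
  exact mul_le_one₀ (hx (p.1, l)) (norm_nonneg _) (hy (l, p.2))

/-- The integral elements. -/
def Mod.K (M : Mod k A F) (G : Subgroup (unitary A)) : Subgroup (M.cl G) where
  carrier := {x | (∀ p, ‖M.ent (M.v G x) p‖ ≤ 1) ∧
    ∀ p, ‖M.ent (M.v G x⁻¹) p‖ ≤ 1}
  mul_mem' := fun {x y} hx hy => ⟨by
    rw [map_mul]
    exact M.ent_mul hx.1 hy.1, by
    rw [mul_inv_rev, map_mul]
    exact M.ent_mul hy.2 hx.2⟩
  one_mem' := by
    have h : ∀ p, ‖M.ent 1 p‖ ≤ 1 := by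
      intro p
      change ‖Algebra.leftMulMatrix M.bas 1 p.1 p.2‖ ≤ 1
      rw [map_one, Matrix.one_apply]
      split_ifs <;> simp
    exact ⟨by rw [map_one]; exact h, by rw [inv_one, map_one]; exact h⟩
  inv_mem' := fun {x} hx => ⟨hx.2, by rw [inv_inv]; exact hx.1⟩

theorem Mod.K_open (M : Mod k A F) (G : Subgroup (unitary A)) :
    IsOpen (M.K G : Set (M.cl G)) := by
  have h1 : IsOpen {x : M.cl G | ∀ p, ‖M.ent (M.v G x) p‖ ≤ 1} := by
    rw [Set.ofPred_forall]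
    refine isOpen_iInter_of_finite fun p => ?_
    have h2 := (IsUltrametricDist.isOpen_closedBall (0 : F) one_ne_zero).preimage
      ((continuous_apply p).comp (M.ent.continuous_of_finiteDimensional.comp
        (M.isClosedEmbedding G).continuous))
    convert h2 using 1
    ext x
    simp
  exact h1.inter (h1.preimage continuous_inv)

theorem Mod.K_cpt (M : Mod k A F) (G : Subgroup (unitary A)) :
    IsCompact (M.K G : Set (M.cl G)) :=
  (M.cpt_ent G 1).of_isClosed_subset (Subgroup.isClosed_of_isOpen _ (M.K_open G)) fun _ hx => hx.1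

end ultra

end Vale.Agent.P011N.A1
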