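import Vale.Agent.P011N.A1.Abs2
import Vale.Agent.P011N.A1.Top2
import Vale.Agent.P011N.A1.Num
import Vale.Agent.P011.Even.Completion

/-!
Block A1: the finiteness theorem from the local data.
-/

open Module Topology Filter NumberField IsDedekindDomain

set_option linter.unusedSectionVars false

namespace Vale.Agent.P011N.A1

open Vale.Agent.P011.MPQ

/-- A completion together with a model. -/
structure LM (k A : Type) [Field k] [Ring A] [StarRing A] [Algebra k A] [FiniteDimensional k A] :
    Type 1 where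
  F : Type
  [nf : NontriviallyNormedField F]
  [pr : ProperSpace F]
  [al : Algebra k F]
  den : DenseRange (algebraMap k F)
  M : Mod k A F

attribute [instance] LM.nf LM.pr LM.al

variable {k A : Type} [Field k] [NumberField k] [Ring A] [StarRing A] [Algebra k A]
  [FiniteDimensional k A] {G : Subgroup (unitary A)}

theorem preconn (w : InfinitePlace k) : PreconnectedSpace w.Completion := by
  rcases w.isReal_or_isComplex with h | h
  · exact (InfinitePlace.Completion.isometryEquivRealOfIsReal h).symm.surjective.denseRange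
      |>.preconnectedSpace (InfinitePlace.Completion.isometryEquivRealOfIsReal h).symm.continuous
  · exact (InfinitePlace.Completion.isometryEquivComplexOfIsComplex h).symm.surjective.denseRange
      |>.preconnectedSpace
        (InfinitePlace.Completion.isometryEquivComplexOfIsComplex h).symm.continuous

theorem norm_inf (w : InfinitePlace k) (x : k) : ‖algebraMap k w.Completion x‖ = w x :=
  InfinitePlace.Completion.norm_coe w (WithAbs.toAbs _ x)

/-- The completion at an infinite place is nontrivially normed. -/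
@[reducible] noncomputable def nnfI (w : InfinitePlace k) : NontriviallyNormedField w.Completion where
  toNormedField := inferInstance
  non_trivial := ⟨algebraMap k _ ((2 : ℚ) : k), by
    rw [norm_inf, w.map_ratCast, ← Rat.norm_cast_real]
    norm_num⟩

theorem dense_inf (w : InfinitePlace k) : DenseRange (algebraMap k w.Completion) :=
  (InfinitePlace.Completion.denseRange_coe w).mono (by
    rintro _ ⟨x, rfl⟩
    exact ⟨x.ofAbs, rfl⟩)

theorem exists_fam (H : LocData k A G) :
    ∃ (X : PlI k → LM k A) (q : HeightOneSpectrum (𝓞 k)),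
      (∀ p x, ‖algebraMap k (X p).F x‖ = pabv p x) ∧
      (∀ v, IsUltrametricDist (X (Sum.inl v)).F) ∧
      (∀ w, PreconnectedSpace (X (Sum.inr w)).F) ∧
      (∀ p, (X p).M.Iso G ∨ (X p).M.Bnd G) ∧ {v | ¬ (X (Sum.inl v)).M.Iso G}.Finite ∧
      (X (Sum.inl q)).M.Iso G ∧ (X (Sum.inl q)).M.Gen := by
  obtain ⟨q, Mq, hq1, hq2⟩ := H.gen
  have h1 : ∀ v : HeightOneSpectrum (𝓞 k), ∃ M : Mod k A (v.adicCompletion k),
      (M.Iso G ∨ M.Bnd G) ∧ ((∃ M : Mod k A (v.adicCompletion k), M.Iso G) → M.Iso G) ∧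
      (v = q → M.Gen) := by
    intro v
    by_cases hv : v = q
    · subst hv
      exact ⟨Mq, Or.inl hq1, fun _ => hq1, fun _ => hq2⟩
    by_cases h2 : ∃ M : Mod k A (v.adicCompletion k), M.Iso G
    · obtain ⟨M, hM⟩ := h2
      exact ⟨M, Or.inl hM, fun _ => hM, fun h => absurd h hv⟩
    · obtain ⟨M, hM⟩ := H.fin v
      exact ⟨M, hM, fun h => absurd h h2, fun h => absurd h hv⟩
  choose Mf hf1 hf2 hf3 using h1
  choose Mi hi using H.inf
  let Xf : HeightOneSpectrum (𝓞 k) → LM k A := fun v =>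
    @LM.mk k A _ _ _ _ _ (v.adicCompletion k) (Vale.Agent.P011.Even.nnf v)
      (Vale.Agent.P011.Even.properSpace_compl v) inferInstance
      (HeightOneSpectrum.denseRange_algebraMap k v) (Mf v)
  let Xi : InfinitePlace k → LM k A := fun w =>
    @LM.mk k A _ _ _ _ _ w.Completion (nnfI w)
      (@ProperSpace.of_nontriviallyNormedField_of_weaklyLocallyCompactSpace _ (nnfI w)
        inferInstance) inferInstance (dense_inf w) (Mi w)
  refine ⟨Sum.elim Xf Xi, q, ?_, fun v => Vale.Agent.P011.Even.isUltra v, fun w => preconn w, ?_,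
    H.ae.subset fun v hv h => hv (hf2 v h), hf2 q ⟨Mq, hq1⟩, hf3 q rfl⟩
  · rintro (v | w) x
    · exact FinitePlace.norm_embedding v x
    · exact norm_inf w x
  · rintro (v | w)
    · exact hf1 v
    · exact hi w

section fam

variable [DecidableEq (PlI k)] {X : PlI k → LM k A}

theorem single_mem_field (hn : ∀ p x, ‖algebraMap k (X p).F x‖ = pabv p x) (p : PlI k)
    (c : (X p).F) : (Pi.single p c : ∀ w, (X w).F) ∈
      closure (Set.range fun (x : k) (w : PlI k) => algebraMap k (X w).F x) := by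
  rw [mem_closure_iff_nhds]
  intro O hO
  rw [nhds_pi, Filter.mem_pi] at hO
  obtain ⟨T, hT, U, hU, h1⟩ := hO
  choose ε hε hε' using fun w => Metric.mem_nhds_iff.mp (hU w)
  obtain ⟨z, hz⟩ := Metric.denseRange_iff.mp (X p).den c (ε p / 2) (half_pos (hε p))
  obtain ⟨x, hx⟩ := approxI T hT (Pi.single p z) (fun w => ε w / 2) fun w => half_pos (hε w)
  refine ⟨_, h1 fun w hw => hε' w ?_, x, rfl⟩
  have h2 := hx w hw
  rw [← hn, map_sub, ← dist_eq_norm] at h2
  rw [Metric.mem_ball]
  by_cases h3 : w = p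
  · subst h3
    rw [Pi.single_eq_same] at h2 ⊢
    rw [dist_comm] at hz
    linarith [dist_triangle (algebraMap k (X w).F x) (algebraMap k (X w).F z) c]
  · rw [Pi.single_eq_of_ne h3] at h2 ⊢
    rw [map_zero] at h2
    linarith [hε w]

theorem single_mem (hn : ∀ p x, ‖algebraMap k (X p).F x‖ = pabv p x) (p : PlI k)
    (y : (X p).M.E) : (Pi.single p y : ∀ w, (X w).M.E) ∈
      closure (Set.range fun (x : A) (w : PlI k) => (X w).M.j x) := by
  let Φ : (Fin (finrank k A) → ∀ w, (X w).F) → ∀ w, (X w).M.E :=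
    fun c w => ∑ i, c i w • (X w).M.bas i
  have h1 : Continuous Φ := by fun_prop
  have h2 : (fun i => Pi.single p ((X p).M.bas.repr y i)) ∈ closure (Set.pi Set.univ
      fun _ : Fin (finrank k A) => Set.range fun (x : k) (w : PlI k) => algebraMap k (X w).F x) := by
    rw [closure_pi_set]
    exact fun i _ => single_mem_field hn p _
  have h3 : Φ (fun i => Pi.single p ((X p).M.bas.repr y i)) = Pi.single p y := by
    funext w
    by_cases h4 : w = p
    · subst h4
      simp [Φ]
    · simp [Φ, h4]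
  rw [← h3]
  refine map_mem_closure h1 h2 fun c hc => ?_
  choose x hx using fun i => hc i (Set.mem_univ i)
  refine ⟨∑ i, x i • Module.finBasis k A i, funext fun w => ?_⟩
  change (X w).M.j _ = ∑ i, c i w • (X w).M.bas i
  rw [map_sum]
  refine Finset.sum_congr rfl fun i _ => ?_
  rw [(X w).M.j_smul, (X w).M.bas_eq, ← hx i]

theorem wa (h : An k A) (hG : commutator (unitary A) ≤ G)
    (hn : ∀ p x, ‖algebraMap k (X p).F x‖ = pabv p x) {p : PlI k} (hp : (X p).M.Iso G)
    (x : (X p).M.cl G) : Pi.mulSingle p x ∈ clo (fun w => (X w).M.ι G) ⊤ := by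
  have hc : Continuous (MonoidHom.mulSingle (fun w => (X w).M.cl G) p) :=
    continuous_mulSingle (A := fun w => (X w).M.cl G) p
  have h1 : (clo (fun w => (X w).M.ι G) ⊤).comap
      (MonoidHom.mulSingle (fun w => (X w).M.cl G) p) = ⊤ := by
    refine hp.eq_top ((Subgroup.isClosed_topologicalClosure _).preimage hc) ?_
    rw [commutator_def, Subgroup.commutator_le]
    intro S _ T _
    refine ⟨⟨_, hp.comm_le h hG (X p).den (comm_mem S T)⟩, ?_, rfl⟩
    obtain ⟨y, z, h1⟩ := hp.approx h S T
    have h2 := comap_neBot_of_closure (single_mem hn p y)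
    have h3 := comap_neBot_of_closure (single_mem hn p z)
    let l := comap (fun (x : A) (w : PlI k) => (X w).M.j x) (𝓝 (Pi.single p y)) ×ˢ
      comap (fun (x : A) (w : PlI k) => (X w).M.j x) (𝓝 (Pi.single p z))
    have h4' : Tendsto (fun (x : A × A) (w : PlI k) => (X w).M.j x.1) l (𝓝 (Pi.single p y)) :=
      tendsto_comap.comp tendsto_fst
    have h5' : Tendsto (fun (x : A × A) (w : PlI k) => (X w).M.j x.2) l (𝓝 (Pi.single p z)) :=
      tendsto_comap.comp tendsto_snd
    have h4 := tendsto_pi_nhds.mp h4'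
    have h5 := tendsto_pi_nhds.mp h5'
    refine mem_closure_of_tendsto (b := l) (f := fun x : A × A =>
      MonoidHom.pi (fun w => (X w).M.ι G) ⟨_, hG (comm_mem (h.cay x.1) (h.cay x.2))⟩) ?_
      (Eventually.of_forall fun x => ⟨_, Subgroup.mem_top _, rfl⟩)
    rw [tendsto_pi_nhds]
    intro w
    rw [tendsto_subtype_rng]
    have h6 := h4 w
    have h7 := h5 w
    by_cases h8 : w = p
    · subst h8
      rw [Pi.single_eq_same] at h6 h7
      rw [MonoidHom.mulSingle_apply, Pi.mulSingle_eq_same]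
      exact h1 l h6 h7
    · rw [Pi.single_eq_of_ne h8] at h6 h7
      rw [MonoidHom.mulSingle_apply, Pi.mulSingle_eq_of_ne h8]
      exact (X w).M.approx_one h l h6 h7
  have h2 : x ∈ (clo (fun w => (X w).M.ι G) ⊤).comap
      (MonoidHom.mulSingle (fun w => (X w).M.cl G) p) := h1 ▸ Subgroup.mem_top x
  exact h2

/-- The integral subgroups. -/
noncomputable def KK (X : PlI k → LM k A) (G : Subgroup (unitary A))
    (hu : ∀ v, IsUltrametricDist (X (Sum.inl v)).F) : ∀ p, Subgroup ((X p).M.cl G)
  | .inl v => haveI := hu v; (X (Sum.inl v)).M.K G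
  | .inr _ => ⊤

theorem norm_ent (hn : ∀ p x, ‖algebraMap k (X p).F x‖ = pabv p x) (p : PlI k) (g : G) (i) :
    ‖(X p).M.ent ((X p).M.v G ((X p).M.ι G g)) i‖ = pabv p (lmk k ((g : unitary A) : A) i.1 i.2) := by
  rw [Mod.v_ι, Mod.ent_j, hn]
  rfl

theorem mem_KK (hn : ∀ p x, ‖algebraMap k (X p).F x‖ = pabv p x)
    (hu : ∀ v, IsUltrametricDist (X (Sum.inl v)).F) (v : HeightOneSpectrum (𝓞 k)) (g : G) :
    (X (Sum.inl v)).M.ι G g ∈ KK X G hu (Sum.inl v) ↔
      ∀ i l, pabv (Sum.inl v) (lmk k ((g : unitary A) : A) i l) ≤ 1 ∧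
        pabv (Sum.inl v) (lmk k (((g : unitary A)⁻¹ : unitary A) : A) i l) ≤ 1 := by
  change (∀ p, _) ∧ (∀ p, _) ↔ _
  rw [← map_inv]
  simp only [norm_ent hn]
  exact ⟨fun h i l => ⟨h.1 (i, l), h.2 (i, l)⟩, fun h => ⟨fun p => (h _ _).1, fun p => (h _ _).2⟩⟩

end fam

/-- **Finiteness from the local data.** -/
theorem mf_of_loc (hnst : NST) (h : An k A) (hG : commutator (unitary A) ≤ G) (hC : CocK k G)
    (H : LocData k A G) : MF G := by
  classical
  obtain ⟨X, q, hn, hu, hpc, hd, hae, hq1, hq2⟩ := exists_fam H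
  have hcl : ∀ p, (X p).M.Iso G → commutator (unitary (X p).M.E) ≤ (X p).M.cl G :=
    fun p hp => hp.comm_le h hG (X p).den
  refine Sys.mf (ι := fun p => (X p).M.ι G) (K := KK X G hu) (inf := Set.range Sum.inr)
    (nc := {p | (X p).M.Iso G}) (q := Sum.inl q) hnst
    { inf_fin := Set.finite_range _
      cpt_fin := ?_
      cpt := fun p hp => ((hd p).resolve_left hp).cpt
      K_open := ?_
      K_cpt := ?_
      K_inf := ?_
      ae := ?_
      dense := fun p => (X p).M.ι_dense G
      inj := fun p => (X p).M.ι_inj G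
      loc := fun p hp => Mod.Iso.loc' hp (hcl p hp)
      exit := fun p hp => Mod.Iso.exit hp (hcl p hp)
      wa := fun p hp x => wa h hG hn hp x
      disc := ?_
      coc := ?_
      gen := ?_
      q_nc := hq1 }
  · refine ((hae.image Sum.inl).union (Set.finite_range Sum.inr)).subset ?_
    rintro (v | w) hp
    · exact Or.inl ⟨v, hp, rfl⟩
    · exact Or.inr ⟨w, rfl⟩
  · rintro (v | w)
    · have := hu v
      exact (X (Sum.inl v)).M.K_open G
    · exact isOpen_univ
  · rintro (v | w) hp
    · have := hu v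
      exact (X (Sum.inl v)).M.K_cpt G
    · exact absurd ⟨w, rfl⟩ hp
  · rintro _ ⟨w, rfl⟩
    rfl
  · intro g
    refine ((Set.finite_iUnion fun i => Set.finite_iUnion fun l =>
      (finite_gt_one (lmk k ((g : unitary A) : A) i l)).union
        (finite_gt_one (lmk k (((g : unitary A)⁻¹ : unitary A) : A) i l))).image Sum.inl).subset ?_
    rintro (v | w) hp
    · refine ⟨v, ?_, rfl⟩
      by_contra h1
      simp only [Set.mem_iUnion, not_exists, Set.mem_union, not_or, Set.mem_ofPred_eq, not_not] at h1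
      exact hp ((mem_KK hn hu v g).mpr h1)
    · exact absurd (Subgroup.mem_top _) hp
  · intro C hC
    choose R hR using fun p => (X p).M.bdd_ent (hC p)
    obtain ⟨R', hR'⟩ := (Set.finite_range fun w => R (Sum.inr w)).bddAbove
    have h1 : Function.Injective fun g : G => lmk k ((g : unitary A) : A) := fun a b hab =>
      Subtype.ext (Subtype.ext (Algebra.leftMulMatrix_injective _ hab))
    refine ((Set.Finite.pi' fun _ => Set.Finite.pi' fun _ =>
      finite_bd q (max (R (Sum.inl q)) R')).preimage h1.injOn).subset ?_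
    rintro g ⟨h2, h3, h4⟩ i l
    refine ⟨fun v hv => ((mem_KK hn hu v g).mp (h2 _ fun h5 => hv (Sum.inl.inj h5)) i l).1, ?_,
      fun w => ?_⟩
    · exact le_max_of_le_left ((norm_ent hn _ g (i, l)).symm.trans_le (hR _ _ h3 (i, l)))
    · exact le_max_of_le_right (((norm_ent hn _ g (i, l)).symm.trans_le
        (hR _ _ (h4 _ ⟨w, rfl⟩) (i, l))).trans (hR' ⟨w, rfl⟩))
  · intro S₀ hS₀
    obtain ⟨S, hS, h1, R, h2⟩ := hC (Sum.inl ⁻¹' S₀) (hS₀.preimage Sum.inl_injective.injOn)
    refine ⟨Sum.inl '' S ∪ Set.range Sum.inr, (hS.image _).union (Set.finite_range _), ?_, _,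
      fun p => (X p).M.cpt_ent G (R p), fun g => ?_⟩
    · rintro (v | w) hp
      · exact Or.inl ⟨v, h1 hp, rfl⟩
      · exact Or.inr ⟨w, rfl⟩
    · obtain ⟨γ, hγ, h3, h4⟩ := h2 g g.2
      refine ⟨⟨γ, hγ⟩, ?_, fun p hp i => ?_⟩
      · rintro (v | w) hp
        · exact (mem_KK hn hu v _).mpr (h3 v fun h5 => hp (Or.inl ⟨v, h5, rfl⟩))
        · exact Subgroup.mem_top _
      · rw [norm_ent hn]
        refine h4 p ?_ _ _
        rintro v rfl
        rcases hp with (⟨v', h5, h6⟩ | ⟨w, h5⟩) | ⟨w, h5⟩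
        · exact Sum.inl.inj h6 ▸ h5
        · exact absurd h5 Sum.inr_ne_inl
        · exact absurd h5 Sum.inr_ne_inl
  · rintro p hp (rfl | ⟨w, rfl⟩)
    · exact hq1.gen (hcl _ hq1) hq2
    · have := hpc w
      exact Mod.Iso.gen_conn hp (hcl _ hp)

end Vale.Agent.P011N.A1
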