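import Vale.Agent.P011N.A1.LocMod
import Vale.Agent.P011.H487.HermMat

/-!
Matrix algebras with the adjoint involution of a hermitian form.
-/

open Module Matrix
open scoped commutatorElement

set_option linter.unusedSectionVars false
set_option linter.unusedSimpArgs false

namespace Vale.Agent.P011N.A1

open Vale.Agent.P011

/-- An invertible hermitian matrix. -/
structure Hm (L : Type) [Field L] [StarRing L] (n : ℕ) where
  H : Matrix (Fin n) (Fin n) L
  herm : Hᴴ = H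
  det : H.det ≠ 0

variable {L : Type} [Field L] [StarRing L] {n : ℕ}

theorem Hm.mul_inv (P : Hm L n) : P.H * P.H⁻¹ = 1 :=
  Matrix.mul_nonsing_inv _ (isUnit_iff_ne_zero.mpr P.det)

theorem Hm.inv_mul (P : Hm L n) : P.H⁻¹ * P.H = 1 :=
  Matrix.nonsing_inv_mul _ (isUnit_iff_ne_zero.mpr P.det)

theorem Hm.inv_herm (P : Hm L n) : (P.H⁻¹)ᴴ = P.H⁻¹ := by
  rw [Matrix.conjTranspose_nonsing_inv, P.herm]

/-- The matrix algebra with the adjoint involution. -/
def Ad (_P : Hm L n) : Type := Matrix (Fin n) (Fin n) L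

variable {P : Hm L n}

instance : Ring (Ad P) := inferInstanceAs (Ring (Matrix (Fin n) (Fin n) L))

instance {F : Type} [Field F] [Algebra F L] : Algebra F (Ad P) :=
  inferInstanceAs (Algebra F (Matrix (Fin n) (Fin n) L))

/-- The identification with matrices. -/
def Ad.m (P : Hm L n) : Ad P ≃+* Matrix (Fin n) (Fin n) L := RingEquiv.refl _

noncomputable instance : StarRing (Ad P) where
  star X := (Ad.m P).symm (P.H * (Ad.m P X)ᴴ * P.H⁻¹)
  star_involutive X := by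
    apply (Ad.m P).injective
    simp only [RingEquiv.apply_symm_apply, conjTranspose_mul, conjTranspose_conjTranspose,
      P.herm, P.inv_herm]
    calc P.H * (P.H⁻¹ * (Ad.m P X * P.H)) * P.H⁻¹ =
        (P.H * P.H⁻¹) * Ad.m P X * (P.H * P.H⁻¹) := by simp only [Matrix.mul_assoc]
      _ = _ := by rw [P.mul_inv, Matrix.one_mul, Matrix.mul_one]
  star_mul X Y := by
    apply (Ad.m P).injective
    simp only [RingEquiv.apply_symm_apply, map_mul, conjTranspose_mul]
    calc P.H * ((Ad.m P Y)ᴴ * (Ad.m P X)ᴴ) * P.H⁻¹ =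
        P.H * (Ad.m P Y)ᴴ * (P.H⁻¹ * P.H) * (Ad.m P X)ᴴ * P.H⁻¹ := by
          rw [P.inv_mul, Matrix.mul_one]; simp only [Matrix.mul_assoc]
      _ = _ := by simp only [Matrix.mul_assoc]
  star_add X Y := by
    apply (Ad.m P).injective
    simp only [RingEquiv.apply_symm_apply, map_add, conjTranspose_add, Matrix.mul_add,
      Matrix.add_mul]

theorem Ad.m_star (X : Ad P) : Ad.m P (star X) = P.H * (Ad.m P X)ᴴ * P.H⁻¹ := rfl

theorem Ad.m_smul {F : Type} [Field F] [Algebra F L] (c : F) (X : Ad P) :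
    Ad.m P (c • X) = c • Ad.m P X := rfl

theorem Ad.star_smul (c : L) (X : Ad P) : star (c • X) = star c • star X := by
  apply (Ad.m P).injective
  rw [Ad.m_star, Ad.m_smul, Ad.m_smul, Ad.m_star, conjTranspose_smul, Matrix.mul_smul,
    Matrix.smul_mul]

theorem Ad.smul_eq {F : Type} [Field F] [Algebra F L] (c : F) (X : Ad P) :
    c • X = algebraMap F L c • X := by
  apply (Ad.m P).injective
  rw [Ad.m_smul, Ad.m_smul, algebraMap_smul]

theorem Ad.star_smul' {F : Type} [Field F] [Algebra F L]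
    (hF : ∀ c : F, star (algebraMap F L c) = algebraMap F L c) (c : F) (X : Ad P) :
    star (c • X) = c • star X := by
  rw [Ad.smul_eq, Ad.star_smul, hF, ← Ad.smul_eq]

/-- The unitary elements as invertible matrices. -/
noncomputable def adU (P : Hm L n) : unitary (Ad P) →* (Matrix (Fin n) (Fin n) L)ˣ :=
  (Units.map (Ad.m P).toMonoidHom).comp Unitary.toUnits

theorem adU_val (x : unitary (Ad P)) : (adU P x : Matrix (Fin n) (Fin n) L) = Ad.m P x := rfl

theorem adU_inj : Function.Injective (adU P) := fun _ _ h =>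
  Subtype.ext ((Ad.m P).injective (congrArg Units.val h))

theorem adU_form (x : unitary (Ad P)) :
    (adU P x : Matrix (Fin n) (Fin n) L) * P.H * (adU P x : Matrix (Fin n) (Fin n) L)ᴴ = P.H := by
  have h1 := congrArg (Ad.m P) x.2.2
  rw [map_mul, map_one, Ad.m_star] at h1
  rw [adU_val]
  calc Ad.m P x * P.H * (Ad.m P x)ᴴ = Ad.m P x * P.H * (Ad.m P x)ᴴ * (P.H⁻¹ * P.H) := by
        rw [P.inv_mul, Matrix.mul_one]
    _ = Ad.m P x * (P.H * (Ad.m P x)ᴴ * P.H⁻¹) * P.H := by simp only [Matrix.mul_assoc]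
    _ = _ := by rw [h1, Matrix.one_mul]

theorem adU_surj (T : (Matrix (Fin n) (Fin n) L)ˣ)
    (hT : (T : Matrix (Fin n) (Fin n) L) * P.H * (T : Matrix (Fin n) (Fin n) L)ᴴ = P.H) :
    ∃ x, adU P x = T := by
  have h1 : (T : Matrix (Fin n) (Fin n) L) * (P.H * (T : Matrix (Fin n) (Fin n) L)ᴴ * P.H⁻¹) = 1 := by
    rw [← Matrix.mul_assoc, ← Matrix.mul_assoc, hT, P.mul_inv]
  refine ⟨⟨(Ad.m P).symm T, ?_, ?_⟩, Units.ext rfl⟩
  · apply (Ad.m P).injective
    rw [map_mul, map_one, Ad.m_star, RingEquiv.apply_symm_apply]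
    exact mul_eq_one_comm.mp h1
  · apply (Ad.m P).injective
    rw [map_mul, map_one, Ad.m_star, RingEquiv.apply_symm_apply]
    exact h1

theorem exists_norm_one [CharZero L] (hne : ∃ x : L, star x ≠ x) (M : Matrix (Fin n) (Fin n) L) :
    ∃ ζ : L, ζ * star ζ = 1 ∧ IsUnit (1 + ζ • M) := by
  classical
  let Q : Polynomial L := ((1 : Matrix (Fin n) (Fin n) (Polynomial L)) +
    (Polynomial.X : Polynomial L) • M.map Polynomial.C).det
  have hQ : ∀ c : L, Q.eval c = (1 + c • M).det := by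
    intro c
    change (Polynomial.evalRingHom c) Q = _
    rw [RingHom.map_det]
    congr 1
    ext i j
    simp [Matrix.one_apply, Matrix.add_apply, Matrix.map_apply, Matrix.smul_apply]
    split_ifs <;> simp [mul_comm]
  have hQ0 : Q ≠ 0 := by
    intro h
    have h1 := hQ 0
    rw [h, zero_smul, add_zero, det_one, Polynomial.eval_zero] at h1
    exact zero_ne_one h1
  obtain ⟨θ, hθ0, hθ⟩ := H487.HForm.exists_theta hne
  have hθ' : star θ = -θ := by linear_combination hθ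
  have hd : ∀ m : ℕ, (m : L) - θ ≠ 0 := by
    intro m h
    have h1 : θ = m := by linear_combination -h
    have h2 : star θ = θ := by rw [h1, star_natCast]
    exact hθ0 (by linear_combination (h2 - hθ') / (-2))
  have hd' : ∀ m : ℕ, (m : L) + θ ≠ 0 := by
    intro m h
    have h1 := congrArg star h
    rw [star_add, star_natCast, hθ', star_zero, ← sub_eq_add_neg] at h1
    exact hd m h1
  let g : ℕ → L := fun m => ((m : L) + θ) / ((m : L) - θ)
  have hg : Function.Injective g := by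
    intro m m' h
    have h1 : ((m : L) + θ) * ((m' : L) - θ) = ((m' : L) + θ) * ((m : L) - θ) :=
      (div_eq_div_iff (hd m) (hd m')).mp h
    have h2 : (2 * θ) * ((m' : L) - m) = 0 := by linear_combination h1
    have h3 := (mul_eq_zero.mp h2).resolve_left (mul_ne_zero two_ne_zero hθ0)
    exact_mod_cast (sub_eq_zero.mp h3).symm
  obtain ⟨_, ⟨m, rfl⟩, hm⟩ := (Set.infinite_range_of_injective hg).exists_notMem_finset
    Q.roots.toFinset
  refine ⟨g m, ?_, ?_⟩
  · have h1 : star (g m) = ((m : L) - θ) / ((m : L) + θ) := by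
      simp only [g, star_div₀, star_add, star_sub, star_natCast, hθ', sub_neg_eq_add,
        ← sub_eq_add_neg]
    rw [h1]
    simp only [g]
    field_simp [hd m, hd' m]
  · rw [Matrix.isUnit_iff_isUnit_det, isUnit_iff_ne_zero, ← hQ]
    intro h4
    exact hm (by rw [Multiset.mem_toFinset, Polynomial.mem_roots hQ0]; exact h4)

theorem ad_shift [CharZero L] (hne : ∃ x : L, star x ≠ x) (S : unitary (Ad P)) :
    ∃ Z ∈ Subgroup.center (unitary (Ad P)), IsUnit (1 + ((Z * S : unitary (Ad P)) : Ad P)) := by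
  obtain ⟨ζ, h1, h2⟩ := exists_norm_one hne (Ad.m P S)
  have h3 : star (ζ • (1 : Ad P)) = star ζ • (1 : Ad P) := by rw [Ad.star_smul, star_one]
  refine ⟨⟨ζ • 1, ?_, ?_⟩, Subgroup.mem_center_iff.mpr fun g => Subtype.ext ?_, ?_⟩
  · rw [h3, smul_mul_smul_comm, mul_comm (star ζ), h1, one_smul, one_mul]
  · rw [h3, smul_mul_smul_comm, h1, one_smul, one_mul]
  · change (g : Ad P) * (ζ • 1) = (ζ • 1) * g
    rw [mul_smul_comm, smul_mul_assoc, mul_one, one_mul]
  · change IsUnit (1 + (ζ • (1 : Ad P)) * S)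
    rw [smul_mul_assoc, one_mul]
    exact h2

/-- Matrices of rank one. -/
def rk1 (P : Hm L n) (u w : Fin n → L) : Ad P := (Ad.m P).symm (vecMulVec (P.H *ᵥ star u) w)

theorem rk1_mul (u w u' w' : Fin n → L) :
    rk1 P u w * rk1 P u' w' = (w ⬝ᵥ (P.H *ᵥ star u')) • rk1 P u w' := by
  apply (Ad.m P).injective
  rw [map_mul, Ad.m_smul]
  simp only [rk1, RingEquiv.apply_symm_apply]
  rw [vecMulVec_mul_vecMulVec, vecMulVec_smul]

theorem rk1_star (u w : Fin n → L) : star (rk1 P u w) = rk1 P w u := by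
  apply (Ad.m P).injective
  rw [Ad.m_star]
  simp only [rk1, RingEquiv.apply_symm_apply]
  rw [conjTranspose_vecMulVec, mul_vecMulVec, vecMulVec_mul, star_mulVec, star_star, P.herm,
    vecMul_vecMul, P.mul_inv, vecMul_one]

theorem form_star (x y : Fin n → L) : star (x ⬝ᵥ (P.H *ᵥ star y)) = y ⬝ᵥ (P.H *ᵥ star x) := by
  rw [← star_dotProduct_star, star_mulVec, star_star, P.herm, ← dotProduct_mulVec]

/-- An isotropic vector gives a triple. -/
theorem exists_trp [CharZero L] {F : Type} [Field F] [Algebra F L]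
    (hF : ∀ c : F, star (algebraMap F L c) = algebraMap F L c) (hne : ∃ x : L, star x ≠ x)
    {z : Fin n → L} (hz0 : z ≠ 0) (hz : z ⬝ᵥ (P.H *ᵥ star z) = 0) :
    ∃ e f : Ad P, Trp F e f ∧ e ≠ 0 := by
  obtain ⟨θ, hθ0, hθ⟩ := H487.HForm.exists_theta hne
  have hθ' : star θ = -θ := by linear_combination hθ
  obtain ⟨i, hi⟩ : ∃ i, z i ≠ 0 := by
    by_contra hcon
    push Not at hcon
    exact hz0 (funext hcon)
  obtain ⟨w, hw⟩ : ∃ w : Fin n → L, z ⬝ᵥ (P.H *ᵥ star w) = 1 := by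
    refine ⟨star (P.H⁻¹ *ᵥ Pi.single i (z i)⁻¹), ?_⟩
    rw [star_star, mulVec_mulVec, P.mul_inv, one_mulVec, dotProduct_single, mul_inv_cancel₀ hi]
  have hw' : w ⬝ᵥ (P.H *ᵥ star z) = 1 := by rw [← form_star, hw, star_one]
  obtain ⟨c, hc⟩ : ∃ c : L, c = w ⬝ᵥ (P.H *ᵥ star w) / 2 := ⟨_, rfl⟩
  have hcs : star c = c := by rw [hc, star_div₀, form_star, star_ofNat]
  obtain ⟨z', hz'⟩ : ∃ z' : Fin n → L, z' = w - c • z := ⟨_, rfl⟩
  have hs : star z' = star w - c • star z := by rw [hz', star_sub, star_smul, hcs]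
  have h01 : z ⬝ᵥ (P.H *ᵥ star z') = 1 := by
    rw [hs, mulVec_sub, mulVec_smul, dotProduct_sub, dotProduct_smul, hw, hz, smul_zero, sub_zero]
  have h10 : z' ⬝ᵥ (P.H *ᵥ star z) = 1 := by rw [← form_star, h01, star_one]
  have h11 : z' ⬝ᵥ (P.H *ᵥ star z') = 0 := by
    rw [hs, mulVec_sub, mulVec_smul, dotProduct_sub, dotProduct_smul, h10, hz', sub_dotProduct,
      smul_dotProduct, hw, hc]
    simp only [smul_eq_mul]
    ring
  refine ⟨θ • rk1 P z z, θ⁻¹ • rk1 P z' z', ⟨Ad.star_smul' hF, ?_, ?_, ?_, ?_, ?_, ?_⟩, ?_⟩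
  · rw [Ad.star_smul, rk1_star, hθ', neg_smul]
  · rw [Ad.star_smul, rk1_star, star_inv₀, hθ', inv_neg, neg_smul]
  · rw [smul_mul_smul_comm, rk1_mul, hz, zero_smul, smul_zero]
  · rw [smul_mul_smul_comm, rk1_mul, h11, zero_smul, smul_zero]
  · rw [smul_mul_smul_comm, rk1_mul, h01, one_smul, mul_inv_cancel₀ hθ0, one_smul, mul_smul_comm,
      rk1_mul, h10, one_smul]
  · rw [smul_mul_smul_comm, rk1_mul, h10, one_smul, inv_mul_cancel₀ hθ0, one_smul, mul_smul_comm,
      rk1_mul, h01, one_smul]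
  · intro h
    have h1 : rk1 P z z = 0 := (smul_eq_zero.mp h).resolve_left hθ0
    have h2 := rk1_mul (P := P) z' z' z z
    rw [h1, mul_zero, h10, one_smul] at h2
    have h3 := congrArg (fun M => z ᵥ* Ad.m P M) h2
    simp only [rk1, RingEquiv.apply_symm_apply, map_zero, vecMul_zero, vecMul_vecMulVec, h01,
      one_smul] at h3
    exact hz0 h3.symm

theorem det_of_comm {g : unitary (Ad P)} (hg : g ∈ commutator (unitary (Ad P))) :
    (Ad.m P g).det = 1 := by
  have h1 := Abelianization.commutator_subset_ker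
    (Matrix.GeneralLinearGroup.det.comp (adU P)) hg
  rw [MonoidHom.mem_ker] at h1
  exact congrArg Units.val h1

theorem le_of_norm [CharZero L] (hne : ∃ x : L, star x ≠ x) {z : Fin n → L} (hz0 : z ≠ 0)
    (hz : z ⬝ᵥ (P.H *ᵥ star z) = 0) (W : Subgroup (unitary (Ad P)))
    (hW : ∀ g : unitary (Ad P), (Ad.m P g).det = 1 → ∀ x ∈ W, g * x * g⁻¹ ∈ W)
    (hx : ∃ x ∈ W, ∀ a : L, (x : Ad P) ≠ a • 1) {g : unitary (Ad P)} (hg : (Ad.m P g).det = 1) :
    g ∈ W := by
  have h1 := H487.mat_NS2 (Γ := W.map (adU P)) hne ⟨2, two_ne_zero, star_ofNat 2, by norm_num⟩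
    P.herm P.det ⟨z, hz0, hz⟩ (by
      rintro _ ⟨x, -, rfl⟩
      exact adU_form x) (by
      rintro S hS hS1 _ ⟨x, hx, rfl⟩
      obtain ⟨s, rfl⟩ := adU_surj S hS
      exact ⟨s * x * s⁻¹, hW s hS1 x hx, by rw [map_mul, map_mul, map_inv]⟩) (by
      obtain ⟨x, hx, hx'⟩ := hx
      exact ⟨_, ⟨x, hx, rfl⟩, hx'⟩) (adU P g) (adU_form g) hg
  obtain ⟨x, hx, h2⟩ := h1
  rwa [← adU_inj h2]

theorem ad_mem [CharZero L] (hne : ∃ x : L, star x ≠ x) {z : Fin n → L} (hz0 : z ≠ 0)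
    (hz : z ⬝ᵥ (P.H *ᵥ star z) = 0) {g : unitary (Ad P)} (hg : (Ad.m P g).det = 1) :
    g ∈ commutator (unitary (Ad P)) := by
  obtain ⟨e, f, h, he⟩ := exists_trp (F := ℚ) (P := P) (fun c => by simp) hne hz0 hz
  obtain ⟨x, hx, hx'⟩ := h.up 1
  refine le_of_norm hne hz0 hz _ (fun g _ x hx => Subgroup.Normal.conj_mem inferInstance x hx g)
    ⟨x, hx, fun a ha => he ?_⟩ hg
  rw [hx', one_smul] at ha
  have h1 : e = (a - 1) • (1 : Ad P) := by rw [sub_smul, ← ha, one_smul, add_sub_cancel_left]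
  have h2 := h.ee
  by_cases h3 : a - 1 = 0
  · rw [h1, h3, zero_smul]
  · nth_rewrite 1 [h1] at h2
    rw [smul_mul_assoc, one_mul] at h2
    exact (smul_eq_zero.mp h2).resolve_left h3

theorem ad_loc [CharZero L] (hne : ∃ x : L, star x ≠ x) {z : Fin n → L} (hz0 : z ≠ 0)
    (hz : z ⬝ᵥ (P.H *ᵥ star z) = 0) (W : Subgroup (unitary (Ad P)))
    (hW : ∀ g ∈ commutator (unitary (Ad P)), ∀ x ∈ W, g * x * g⁻¹ ∈ W)
    (hx : ∃ x ∈ W, x ∉ Subgroup.center (unitary (Ad P))) : commutator (unitary (Ad P)) ≤ W := by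
  intro g hg
  obtain ⟨x, hxW, hx⟩ := hx
  refine le_of_norm hne hz0 hz W (fun s hs => hW s (ad_mem hne hz0 hz hs))
    ⟨x, hxW, fun a ha => hx (Subgroup.mem_center_iff.mpr fun y => Subtype.ext ?_)⟩ (det_of_comm hg)
  change (y : Ad P) * x = x * y
  rw [ha, mul_smul_comm, smul_mul_assoc, mul_one, one_mul]

theorem ad_aniso (h : ∀ z : Fin n → L, z ⬝ᵥ (P.H *ᵥ star z) = 0 → z = 0) (x : Ad P)
    (hx : star x * x = 0) : x = 0 := by
  have h1 := congrArg (Ad.m P) hx
  rw [map_mul, map_zero, Ad.m_star] at h1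
  have h2 : (Ad.m P x)ᴴ * P.H⁻¹ * Ad.m P x = 0 := by
    calc (Ad.m P x)ᴴ * P.H⁻¹ * Ad.m P x =
        (P.H⁻¹ * P.H) * (Ad.m P x)ᴴ * P.H⁻¹ * Ad.m P x := by rw [P.inv_mul, Matrix.one_mul]
      _ = P.H⁻¹ * (P.H * (Ad.m P x)ᴴ * P.H⁻¹ * Ad.m P x) := by simp only [Matrix.mul_assoc]
      _ = 0 := by rw [h1, Matrix.mul_zero]
  apply (Ad.m P).injective
  rw [map_zero]
  refine Matrix.ext_of_mulVec_single fun i => ?_
  obtain ⟨c, hc⟩ : ∃ c, c = Ad.m P x *ᵥ Pi.single i 1 := ⟨_, rfl⟩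
  have h3 := h (star (P.H⁻¹ *ᵥ c)) (by
    rw [star_star, mulVec_mulVec, P.mul_inv, one_mulVec, star_mulVec, P.inv_herm, hc,
      star_mulVec, vecMul_vecMul, dotProduct_mulVec, vecMul_vecMul, h2, vecMul_zero,
      zero_dotProduct])
  have h4 : P.H⁻¹ *ᵥ c = 0 := by rw [← star_star (P.H⁻¹ *ᵥ c), h3, star_zero]
  have h5 := congrArg (fun v => P.H *ᵥ v) h4
  simp only [mulVec_mulVec, P.mul_inv, one_mulVec, mulVec_zero] at h5
  rw [← hc, h5, zero_mulVec]

end Vale.Agent.P011N.A1
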