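import Vale.Agent.P011N.A1.LocMod
import Vale.Agent.P011.H182.GLx

/-!
The product of a ring and its opposite ring with the involution which exchanges the factors.
-/

open Module Matrix
open scoped commutatorElement

set_option linter.unusedSectionVars false
set_option linter.unusedSimpArgs false

namespace Vale.Agent.P011N.A1

open Vale.Agent.P011 Vale.Agent.P011.One

/-- The product of a ring and its opposite ring. -/
def Sw (R : Type) : Type := R × Rᵐᵒᵖ

section sw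

variable {F R : Type} [Field F] [Ring R] [Algebra F R]

instance : Ring (Sw R) := inferInstanceAs (Ring (R × Rᵐᵒᵖ))

instance : Algebra F (Sw R) := inferInstanceAs (Algebra F (R × Rᵐᵒᵖ))

/-- An element of the product. -/
def Sw.mk (x y : R) : Sw R := (x, MulOpposite.op y)

/-- The first component. -/
def Sw.fst (z : Sw R) : R := Prod.fst z

/-- The second component. -/
def Sw.snd (z : Sw R) : R := (Prod.snd z).unop

theorem Sw.ext {z w : Sw R} (h1 : z.fst = w.fst) (h2 : z.snd = w.snd) : z = w :=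
  Prod.ext h1 (MulOpposite.unop_injective h2)

instance : StarRing (Sw R) where
  star z := Sw.mk z.snd z.fst
  star_involutive _ := rfl
  star_mul _ _ := rfl
  star_add _ _ := rfl

@[simp] theorem Sw.fst_mk (x y : R) : (Sw.mk x y).fst = x := rfl
@[simp] theorem Sw.snd_mk (x y : R) : (Sw.mk x y).snd = y := rfl
@[simp] theorem Sw.fst_mul (z w : Sw R) : (z * w).fst = z.fst * w.fst := rfl
@[simp] theorem Sw.snd_mul (z w : Sw R) : (z * w).snd = w.snd * z.snd := rfl
@[simp] theorem Sw.fst_add (z w : Sw R) : (z + w).fst = z.fst + w.fst := rfl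
@[simp] theorem Sw.snd_add (z w : Sw R) : (z + w).snd = z.snd + w.snd := rfl
@[simp] theorem Sw.fst_neg (z : Sw R) : (-z).fst = -z.fst := rfl
@[simp] theorem Sw.snd_neg (z : Sw R) : (-z).snd = -z.snd := rfl
@[simp] theorem Sw.fst_one : (1 : Sw R).fst = 1 := rfl
@[simp] theorem Sw.snd_one : (1 : Sw R).snd = 1 := rfl
@[simp] theorem Sw.fst_zero : (0 : Sw R).fst = 0 := rfl
@[simp] theorem Sw.snd_zero : (0 : Sw R).snd = 0 := rfl
@[simp] theorem Sw.fst_smul (c : F) (z : Sw R) : (c • z).fst = c • z.fst := rfl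
@[simp] theorem Sw.snd_smul (c : F) (z : Sw R) : (c • z).snd = c • z.snd := rfl
@[simp] theorem Sw.fst_star (z : Sw R) : (star z).fst = z.snd := rfl
@[simp] theorem Sw.snd_star (z : Sw R) : (star z).snd = z.fst := rfl

theorem Sw.star_smul (c : F) (z : Sw R) : star (c • z) = c • star z := rfl

/-- The projection. -/
def Sw.pr (F R : Type) [Field F] [Ring R] [Algebra F R] : Sw R →ₐ[F] R := AlgHom.fst F R Rᵐᵒᵖ

theorem Sw.pr_apply (z : Sw R) : Sw.pr F R z = z.fst := rfl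

theorem sw_finrank [FiniteDimensional F R] : finrank F (Sw R) = 2 * finrank F R := by
  have hfO : finrank F Rᵐᵒᵖ = finrank F R :=
    (LinearEquiv.finrank_eq (MulOpposite.opLinearEquiv F : R ≃ₗ[F] Rᵐᵒᵖ)).symm
  have : Module.Finite F Rᵐᵒᵖ := Module.Finite.equiv (MulOpposite.opLinearEquiv F : R ≃ₗ[F] Rᵐᵒᵖ)
  change Module.finrank F (R × Rᵐᵒᵖ) = _
  rw [Module.finrank_prod, hfO, two_mul]

/-- The units as unitary elements. -/
def swU : Rˣ ≃* unitary (Sw R) where
  toFun a := ⟨Sw.mk a (a⁻¹ : Rˣ), Sw.ext a.inv_mul a.inv_mul, Sw.ext a.mul_inv a.mul_inv⟩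
  invFun T := ⟨T.1.fst, T.1.snd, congrArg Sw.fst T.2.2, congrArg Sw.fst T.2.1⟩
  left_inv _ := rfl
  right_inv _ := rfl
  map_mul' a b := Subtype.ext (Sw.ext rfl (by
    change (((a * b)⁻¹ : Rˣ) : R) = ((b⁻¹ : Rˣ) : R) * ((a⁻¹ : Rˣ) : R)
    rw [_root_.mul_inv_rev, Units.val_mul]))

theorem swU_val (a : Rˣ) : (swU a : Sw R) = Sw.mk (a : R) ((a⁻¹ : Rˣ) : R) := rfl

theorem map_comm_le {G H : Type} [Group G] [Group H] (φ : G →* H) {g : G}
    (hg : g ∈ commutator G) : φ g ∈ commutator H := by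
  have h6 : (commutator G).map φ ≤ commutator H := by
    rw [commutator_def, commutator_def, Subgroup.map_commutator]
    exact Subgroup.commutator_mono le_top le_top
  exact h6 ⟨_, hg, rfl⟩

theorem swU_mem {a : Rˣ} : swU a ∈ commutator (unitary (Sw R)) ↔ a ∈ commutator Rˣ :=
  ⟨fun h => by simpa using map_comm_le (swU (R := R)).symm.toMonoidHom h,
    fun h => map_comm_le (swU (R := R)).toMonoidHom h⟩

theorem exists_shift [CharZero F] [FiniteDimensional F R] (a : Rˣ) :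
    ∃ t : Rˣ, (∀ x : Rˣ, t * x = x * t) ∧ IsUnit (1 + ((t * a : Rˣ) : R)) := by
  classical
  have hint : IsIntegral F (-(a : R)) := Algebra.IsIntegral.isIntegral _
  have hp : minpoly F (-(a : R)) ≠ 0 := minpoly.ne_zero hint
  obtain ⟨z, hz⟩ : ∃ z : F, z ∉ insert (0 : F) (minpoly F (-(a : R))).roots.toFinset :=
    Infinite.exists_notMem_finset _
  rw [Finset.mem_insert, not_or, Multiset.mem_toFinset, Polynomial.mem_roots hp] at hz
  obtain ⟨hz0, hz⟩ := hz
  have h1 : z ∉ spectrum F (-(a : R)) := by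
    intro h
    apply hz
    have h2 := spectrum.subset_polynomial_aeval (-(a : R)) (minpoly F (-(a : R)))
      ⟨z, h, rfl⟩
    rw [minpoly.aeval] at h2
    rw [Polynomial.IsRoot.def]
    by_contra h3
    apply h2
    rw [spectrum.mem_resolventSet_iff, sub_zero]
    exact (isUnit_iff_ne_zero.mpr h3).map (algebraMap F R)
  rw [spectrum.notMem_iff, sub_neg_eq_add] at h1
  let w : Rˣ := Units.map (algebraMap F R : F →* R) (Units.mk0 z hz0)
  have hw : ∀ x : Rˣ, w * x = x * w := fun x => Units.ext (Algebra.commutes _ _)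
  refine ⟨w⁻¹, fun x => ?_, ?_⟩
  · rw [inv_mul_eq_iff_eq_mul, ← mul_assoc, hw x, mul_assoc, mul_inv_cancel, mul_one]
  · have h2 : 1 + ((w⁻¹ * a : Rˣ) : R) = ((w⁻¹ : Rˣ) : R) * (algebraMap F R z + a) := by
      rw [mul_add, Units.val_mul]
      congr 1
      exact (Units.inv_mul w).symm
    rw [h2]
    exact (Units.isUnit _).mul h1

theorem sw_shift (F : Type) [Field F] [Algebra F R] [CharZero F] [FiniteDimensional F R]
    (S : unitary (Sw R)) : ∃ Z ∈ Subgroup.center (unitary (Sw R)),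
      IsUnit (1 + ((Z * S : unitary (Sw R)) : Sw R)) := by
  obtain ⟨a, rfl⟩ := swU.surjective S
  obtain ⟨t, ht, V, hV⟩ := exists_shift (F := F) a
  refine ⟨swU t, Subgroup.mem_center_iff.mpr fun W => ?_, ?_⟩
  · obtain ⟨w, rfl⟩ := swU.surjective W
    rw [← map_mul, ← ht, map_mul]
  · rw [← map_mul, swU_val]
    have e : 1 + (((t * a)⁻¹ : Rˣ) : R) = (((t * a)⁻¹ * V : Rˣ) : R) := by
      rw [Units.val_mul, hV, mul_add, mul_one, Units.inv_mul, add_comm]
    refine ⟨⟨1 + Sw.mk ((t * a : Rˣ) : R) (((t * a)⁻¹ : Rˣ) : R), Sw.mk ((V⁻¹ : Rˣ) : R)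
      ((((t * a)⁻¹ * V)⁻¹ : Rˣ) : R), Sw.ext ?_ ?_, Sw.ext ?_ ?_⟩, rfl⟩
    · change (1 + ((t * a : Rˣ) : R)) * (V⁻¹ : Rˣ) = 1
      rw [← hV, Units.mul_inv]
    · change ((((t * a)⁻¹ * V)⁻¹ : Rˣ) : R) * (1 + (((t * a)⁻¹ : Rˣ) : R)) = 1
      rw [e, Units.inv_mul]
    · change ((V⁻¹ : Rˣ) : R) * (1 + ((t * a : Rˣ) : R)) = 1
      rw [← hV, Units.inv_mul]
    · change (1 + (((t * a)⁻¹ : Rˣ) : R)) * ((((t * a)⁻¹ * V)⁻¹ : Rˣ) : R) = 1
      rw [e, Units.mul_inv]

end sw

section mat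

variable {F Δ : Type} [Field F] [DivisionRing Δ] [Algebra F Δ] {r : ℕ}

theorem sw_loc [CharZero Δ] (hr : 2 ≤ r) (W : Subgroup (unitary (Sw (Matrix (Fin r) (Fin r) Δ))))
    (hW : ∀ g ∈ commutator (unitary (Sw (Matrix (Fin r) (Fin r) Δ))), ∀ x ∈ W, g * x * g⁻¹ ∈ W)
    (hx : ∃ x ∈ W, x ∉ Subgroup.center (unitary (Sw (Matrix (Fin r) (Fin r) Δ)))) :
    commutator (unitary (Sw (Matrix (Fin r) (Fin r) Δ))) ≤ W := by
  have h1 := H182.comm_le_of_norm hr
    (Γ := W.comap (swU (R := Matrix (Fin r) (Fin r) Δ)).toMonoidHom) (fun S T γ hγ => by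
      have h2 := hW _ (swU_mem.mpr (Subgroup.commutator_mem_commutator (Subgroup.mem_top S)
        (Subgroup.mem_top T))) _ hγ
      rw [Subgroup.mem_comap, map_mul, map_mul, map_inv]
      exact h2) (by
      obtain ⟨x, hxW, hx⟩ := hx
      obtain ⟨a, rfl⟩ := swU.surjective x
      refine ⟨a, hxW, ?_⟩
      by_contra hcon
      push Not at hcon
      refine hx (Subgroup.mem_center_iff.mpr fun g => ?_)
      obtain ⟨b, rfl⟩ := swU.surjective g
      rw [← map_mul, ← map_mul]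
      exact congrArg _ (Units.ext (hcon b).symm))
  intro g hg
  obtain ⟨a, rfl⟩ := swU.surjective g
  exact h1 (swU_mem.mp hg)

/-- The skew elements of the elementary matrices. -/
def sk (F : Type) [Field F] [Algebra F Δ] (i j : Fin r) :
    Δ →ₗ[F] Sw (Matrix (Fin r) (Fin r) Δ) where
  toFun c := Sw.mk (single i j c) (-single i j c)
  map_add' c d := Sw.ext (by simp [single_add]) (by simp [single_add, add_comm])
  map_smul' c d := Sw.ext (by simp [smul_single]) (by simp [smul_single])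

theorem sk_fst (i j : Fin r) (c : Δ) : (sk F i j c).fst = single i j c := rfl

theorem sk_snd (i j : Fin r) (c : Δ) : (sk F i j c).snd = -single i j c := rfl

theorem sk_star (i j : Fin r) (c : Δ) : star (sk F i j c) = -sk F i j c :=
  Sw.ext rfl (neg_neg _).symm

theorem sk_trp {i j : Fin r} (hij : i ≠ j) : Trp F (sk F i j (1 : Δ)) (sk F j i (1 : Δ)) := by
  have hji := hij.symm
  refine ⟨Sw.star_smul, sk_star _ _ _, sk_star _ _ _, ?_, ?_, ?_, ?_⟩ <;>
    refine Sw.ext ?_ ?_ <;>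
    simp [sk_fst, sk_snd, single_mul_single_of_ne, single_mul_single_same, hij, hji]

theorem sk_rel {i j : Fin r} (hij : i ≠ j) (c : Δ) : sk F i j c * sk F i j c = 0 ∧
    sk F i j (1 : Δ) * sk F j i 1 * sk F i j c = sk F i j c ∧
    sk F i j c * (sk F i j (1 : Δ) * sk F j i 1) = 0 ∧
    sk F j i (1 : Δ) * sk F i j 1 * sk F i j c = 0 ∧
    sk F i j c * (sk F j i (1 : Δ) * sk F i j 1) = sk F i j c := by
  have hji := hij.symm
  refine ⟨?_, ?_, ?_, ?_, ?_⟩ <;> refine Sw.ext ?_ ?_ <;>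
    simp [sk_fst, sk_snd, single_mul_single_of_ne, single_mul_single_same, hij, hji]

theorem sk_ne (i j : Fin r) : sk F i j (1 : Δ) ≠ 0 := by
  intro h
  have h1 : (single i j (1 : Δ) : Matrix (Fin r) (Fin r) Δ) i j = 0 :=
    congrFun (congrFun (congrArg Sw.fst h) i) j
  rw [single_apply_same] at h1
  exact one_ne_zero h1

theorem dgu_tvu (i : Fin r) (x : Δˣ) {a b : Fin r} (hab : a ≠ b) (c : Δ) :
    ∃ c' : Δ, dgu i x * tvu hab c * (dgu i x)⁻¹ = tvu hab c' := by
  simp only [mul_inv_eq_iff_eq_mul, Units.ext_iff, Units.val_mul, dgu_val, tvu_val, add_mul,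
    mul_add, one_mul, mul_one]
  by_cases ha : a = i
  · subst ha
    refine ⟨x * c, ?_⟩
    rw [single_mul_single_same, single_mul_single_of_ne _ _ _ _ hab.symm, sub_mul, one_mul,
      ← single_add, add_sub_cancel]
    abel
  · by_cases hb : b = i
    · subst hb
      refine ⟨c * (x⁻¹ : Δˣ), ?_⟩
      rw [single_mul_single_same, single_mul_single_of_ne _ _ _ _ hab.symm, mul_sub, mul_one,
        mul_assoc, Units.inv_mul, mul_one, add_zero]
      have e : (single a b c : Matrix (Fin r) (Fin r) Δ) =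
          single a b (c * (x⁻¹ : Δˣ)) + single a b (c - c * (x⁻¹ : Δˣ)) := by
        rw [← single_add, add_sub_cancel]
      rw [e]
      abel
    · refine ⟨c, ?_⟩
      rw [single_mul_single_of_ne _ _ _ _ (Ne.symm ha), single_mul_single_of_ne _ _ _ _ hb]
      abel

/-- The commutator subgroup is contained in the group generated by the elementary matrices. -/
theorem comm_le_elem (hr : 2 ≤ r) : commutator (Matrix (Fin r) (Fin r) Δ)ˣ ≤
    Subgroup.closure {g | ∃ (i j : Fin r) (hij : i ≠ j) (c : Δ), g = tvu hij c} := by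
  set H := Subgroup.closure {g | ∃ (i j : Fin r) (hij : i ≠ j) (c : Δ), g = tvu hij c} with hH
  have hT : ∀ (i j : Fin r) (hij : i ≠ j) (c : Δ), tvu hij c ∈ H := fun i j hij c =>
    Subgroup.subset_closure ⟨i, j, hij, c, rfl⟩
  have hD : ∀ (i : Fin r) (x : Δˣ), ∀ h ∈ H, dgu i x * h * (dgu i x)⁻¹ ∈ H := by
    intro i x h hh
    have h1 : H ≤ H.comap (MulAut.conj (dgu i x)).toMonoidHom := by
      refine (Subgroup.closure_le _).mpr ?_
      rintro _ ⟨a, b, hab, c, rfl⟩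
      obtain ⟨c', hc'⟩ := dgu_tvu i x hab c
      change dgu i x * tvu hab c * (dgu i x)⁻¹ ∈ H
      rw [hc']
      exact hT _ _ _ _
    exact h1 hh
  have hN : H.Normal := by
    rw [← Subgroup.normalizer_eq_top_iff, eq_top_iff]
    intro g _
    refine gauss _ (fun i j hij c => Subgroup.le_normalizer (hT i j hij c)) (fun i x => ?_) r 0
      (zero_add r) g (fun i hi => absurd hi (Nat.not_lt_zero _))
    rw [Subgroup.mem_normalizer_iff]
    refine fun h => ⟨hD i x h, fun h1 => ?_⟩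
    have h2 := hD i x⁻¹ _ h1
    rw [map_inv] at h2
    simpa [mul_assoc] using h2
  exact comm_le_of_tvu hr H hT

theorem sw_gen [CharZero F] (hr : 2 ≤ r) :
    ∃ (m : ℕ) (Y : Fin m → Submodule F (Sw (Matrix (Fin r) (Fin r) Δ))),
    (∀ i, ∀ y ∈ Y i, ∃ x ∈ commutator (unitary (Sw (Matrix (Fin r) (Fin r) Δ))),
      (x : Sw (Matrix (Fin r) (Fin r) Δ)) = 1 + y) ∧
    (∀ i, ∀ t : F, t ≠ 0 → ∃ τ ∈ commutator (unitary (Sw (Matrix (Fin r) (Fin r) Δ))), ∀ y ∈ Y i,
      (τ : Sw (Matrix (Fin r) (Fin r) Δ)) * y = t ^ 2 • (y * τ)) ∧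
    commutator (unitary (Sw (Matrix (Fin r) (Fin r) Δ))) ≤
      Subgroup.closure {x : unitary (Sw (Matrix (Fin r) (Fin r) Δ)) |
        ∃ i, ∃ y ∈ Y i, (x : Sw (Matrix (Fin r) (Fin r) Δ)) = 1 + y} := by
  let e := Fintype.equivFin {p : Fin r × Fin r // p.1 ≠ p.2}
  refine ⟨_, fun l => LinearMap.range (sk F (e.symm l).1.1 (e.symm l).1.2), ?_, ?_, ?_⟩
  · rintro l _ ⟨c, rfl⟩
    obtain ⟨h0, h1, h2, h3, h4⟩ := sk_rel (F := F) (e.symm l).2 c
    exact ⟨_, (sk_trp (e.symm l).2).unip_mem (sk_star _ _ c) h0 h1 h2 h3 h4, rfl⟩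
  · intro l t ht
    refine ⟨_, (sk_trp (Δ := Δ) (e.symm l).2).tau_mem ht, ?_⟩
    rintro _ ⟨c, rfl⟩
    obtain ⟨h0, h1, h2, h3, h4⟩ := sk_rel (F := F) (e.symm l).2 c
    exact (sk_trp (e.symm l).2).tau_mul ht h1 h2 h3 h4
  · intro g hg
    obtain ⟨a, rfl⟩ := swU.surjective g
    have h1 := comm_le_elem hr (swU_mem.mp hg)
    refine Subgroup.mem_comap.mp (((Subgroup.closure_le (Subgroup.comap
      (swU (R := Matrix (Fin r) (Fin r) Δ)).toMonoidHom _)).mpr ?_) h1)
    rintro _ ⟨i, j, hij, c, rfl⟩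
    refine Subgroup.subset_closure ⟨e ⟨(i, j), hij⟩, sk F i j c, ⟨c, ?_⟩, Sw.ext rfl ?_⟩
    · rw [Equiv.symm_apply_apply]
    · exact sub_eq_add_neg _ _

end mat

end Vale.Agent.P011N.A1
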