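import Vale.Agent.P011N.A1.LocNs
import Vale.Agent.P011N.A1.LocSw

/-!
The model at a place which splits in the centre.
-/

open Module Matrix
open scoped TensorProduct

set_option linter.unusedSectionVars false
set_option linter.unusedSimpArgs false

namespace Vale.Agent.P011N.A1

open Vale.Agent.P011

variable {k K A Ω : Type} [Field k] [CharZero k] [Field K] [Algebra k K] [StarRing K] [Ring A]
  [StarRing A] [Algebra k A] [Algebra K A] [IsScalarTower k K A] [StarModule K A] [Field Ω]
  [Algebra K Ω] [FiniteDimensional k A] {n : ℕ} {F : Type} [Field F] [Algebra k F]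

/-- The map to the product with the opposite ring. -/
def swJ {R : Type} [Ring R] (g : A →+* R) : A →+* Sw R where
  toFun x := Sw.mk (g x) (g (star x))
  map_one' := Sw.ext (map_one g) (by rw [star_one]; exact map_one g)
  map_mul' x y := Sw.ext (map_mul g x y) (by rw [star_mul]; exact map_mul g _ _)
  map_zero' := Sw.ext (map_zero g) (by rw [star_zero]; exact map_zero g)
  map_add' x y := Sw.ext (map_add g x y) (by rw [star_add]; exact map_add g _ _)

theorem swJ_fst {R : Type} [Ring R] (g : A →+* R) (x : A) : (swJ g x).fst = g x := rfl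

theorem swJ_snd {R : Type} [Ring R] (g : A →+* R) (x : A) : (swJ g x).snd = g (star x) := rfl

theorem swJ_span (hA : AnisA k K A n) (φ : K →ₐ[k] F) {R : Type} [Ring R] [Algebra F R]
    (g : A →+* R) (hg : ∀ (c : K) (x : A), g (c • x) = φ c • g x)
    (hsp : ⊤ ≤ Submodule.span F (Set.range g)) : ⊤ ≤ Submodule.span F (Set.range (swJ g)) := by
  have : CharZero F := charZero_of_injective_algebraMap (algebraMap k F).injective
  obtain ⟨θ, h0, hθ⟩ := exists_skew hA.star_ne
  have h0' : φ θ ≠ 0 := (map_ne_zero φ).mpr h0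
  have hm : ∀ x, swJ g x ∈ Submodule.span F (Set.range (swJ g)) := fun x =>
    Submodule.subset_span ⟨x, rfl⟩
  have h1 : ∀ y : R, Sw.mk y 0 ∈ Submodule.span F (Set.range (swJ g)) ∧
      Sw.mk 0 y ∈ Submodule.span F (Set.range (swJ g)) := by
    intro y
    have hy := hsp (Submodule.mem_top (x := y))
    induction hy using Submodule.span_induction with
    | mem y hy =>
      obtain ⟨x, rfl⟩ := hy
      constructor
      · have e : Sw.mk (g x) 0 = (2 : F)⁻¹ • swJ g x + (2 * φ θ)⁻¹ • swJ g (θ • x) := by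
          refine Sw.ext ?_ ?_
          · simp only [Sw.fst_mk, Sw.fst_add, Sw.fst_smul, swJ_fst, hg]
            match_scalars
            field_simp
            ring
          · simp only [Sw.snd_mk, Sw.snd_add, Sw.snd_smul, swJ_snd, star_smul, hθ, hg, map_neg]
            match_scalars
            field_simp
            ring
        rw [e]
        exact add_mem (Submodule.smul_mem _ _ (hm _)) (Submodule.smul_mem _ _ (hm _))
      · have e : Sw.mk 0 (g x) = (2 : F)⁻¹ • swJ g (star x) +
            (-(2 * φ θ)⁻¹) • swJ g (θ • star x) := by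
          refine Sw.ext ?_ ?_
          · simp only [Sw.fst_mk, Sw.fst_add, Sw.fst_smul, swJ_fst, hg]
            match_scalars
            field_simp
            ring
          · simp only [Sw.snd_mk, Sw.snd_add, Sw.snd_smul, swJ_snd, star_smul, hθ, hg, map_neg,
              star_star]
            match_scalars
            field_simp
            ring
        rw [e]
        exact add_mem (Submodule.smul_mem _ _ (hm _)) (Submodule.smul_mem _ _ (hm _))
    | zero => exact ⟨zero_mem _, zero_mem _⟩
    | add y z _ _ hy hz =>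
      have e1 : Sw.mk (y + z) 0 = Sw.mk y 0 + Sw.mk z 0 := Sw.ext rfl (add_zero _).symm
      have e2 : Sw.mk 0 (y + z) = Sw.mk 0 y + Sw.mk 0 z := Sw.ext (add_zero _).symm rfl
      rw [e1, e2]
      exact ⟨add_mem hy.1 hz.1, add_mem hy.2 hz.2⟩
    | smul c y _ hy =>
      have e1 : Sw.mk (c • y) 0 = c • Sw.mk y 0 := Sw.ext rfl (smul_zero _).symm
      have e2 : Sw.mk 0 (c • y) = c • Sw.mk 0 y := Sw.ext (smul_zero _).symm rfl
      rw [e1, e2]
      exact ⟨Submodule.smul_mem _ _ hy.1, Submodule.smul_mem _ _ hy.2⟩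
  intro z _
  have e : z = Sw.mk z.fst 0 + Sw.mk 0 z.snd := Sw.ext (add_zero _).symm (zero_add _).symm
  rw [e]
  exact add_mem (h1 _).1 (h1 _).2

/-- The model. -/
noncomputable def spMod (hA : AnisA k K A n) (φ : K →ₐ[k] F) {R : Type} [Ring R] [Algebra F R]
    (g : A →+* R) (hg : ∀ (c : K) (x : A), g (c • x) = φ c • g x)
    (hsp : ⊤ ≤ Submodule.span F (Set.range g)) (hr : finrank F R = n ^ 2) : Mod k A F :=
  Mod.ofSpan (Sw R) (swJ g)
    (fun c x => Sw.ext (by
      rw [swJ_fst, Sw.fst_smul, swJ_fst, ← algebraMap_smul K c x, hg, φ.commutes]) (by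
      rw [swJ_snd, Sw.snd_smul, swJ_snd, ← algebraMap_smul K c x, star_smul,
        (hA.fixed _).mpr ⟨c, rfl⟩, hg, φ.commutes]))
    (fun x => Sw.ext rfl (by rw [swJ_snd, star_star]; rfl)) Sw.star_smul (swJ_span hA φ g hg hsp)
    (by
      have : Module.Finite F R := Module.finite_of_finrank_pos (by
        rw [hr]; exact pow_pos (by have := hA.le; omega) 2)
      rw [sw_finrank, hr, AnisA_rank hA])

theorem spMod_u (hA : AnisA k K A n) (φ : K →ₐ[k] F) {R : Type} [Ring R] [Algebra F R]
    (g : A →+* R) (hg : ∀ (c : K) (x : A), g (c • x) = φ c • g x)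
    (hsp : ⊤ ≤ Submodule.span F (Set.range g)) (hr : finrank F R = n ^ 2) (x : unitary A) :
    (spMod hA φ g hg hsp hr).u x = swU (Units.map g.toMonoidHom (Unitary.toUnits x)) := rfl

theorem sp_iso (hA : AnisA k K A n) (φ : K →ₐ[k] F) {Δ : Type} [DivisionRing Δ] [Algebra F Δ]
    {r : ℕ} (h2 : 2 ≤ r) (g : A →+* Matrix (Fin r) (Fin r) Δ)
    (hg : ∀ (c : K) (x : A), g (c • x) = φ c • g x)
    (hsp : ⊤ ≤ Submodule.span F (Set.range g))
    (hr : finrank F (Matrix (Fin r) (Fin r) Δ) = n ^ 2) {G : Subgroup (unitary A)}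
    (hkey : ∀ x ∈ G, Unitary.toUnits x ∈ commutator Aˣ) :
    (spMod hA φ g hg hsp hr).Iso G ∧ (spMod hA φ g hg hsp hr).Gen := by
  have : CharZero F := charZero_of_injective_algebraMap (algebraMap k F).injective
  have : CharZero Δ := charZero_of_injective_algebraMap (algebraMap F Δ).injective
  have : Module.Finite F (Matrix (Fin r) (Fin r) Δ) := Module.finite_of_finrank_pos (by
    rw [hr]; exact pow_pos (by have := hA.le; omega) 2)
  have hij : (⟨0, by omega⟩ : Fin r) ≠ ⟨1, by omega⟩ := fun h => zero_ne_one (congrArg Fin.val h)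
  refine ⟨⟨sw_shift F, sw_loc h2, fun x hx => ?_, (sk_trp hij).eig (sk_ne _ _)⟩, sw_gen h2⟩
  rw [spMod_u]
  exact swU_mem.mpr (map_comm_le _ (hkey x hx))

theorem sp_bnd (hA : AnisA k K A n) (φ : K →ₐ[k] F) {Δ : Type} [DivisionRing Δ] [Algebra F Δ]
    (g : A →+* Δ) (hg : ∀ (c : K) (x : A), g (c • x) = φ c • g x)
    (hsp : ⊤ ≤ Submodule.span F (Set.range g)) (hr : finrank F Δ = n ^ 2)
    {G : Subgroup (unitary A)} (hkey : ∀ x ∈ G, Unitary.toUnits x ∈ commutator Aˣ) :
    (spMod hA φ g hg hsp hr).Bnd G := by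
  have : Module.Finite F Δ := Module.finite_of_finrank_pos (by
    rw [hr]; exact pow_pos (by have := hA.le; omega) 2)
  refine Or.inr ⟨Δ, inferInstance, inferInstance, inferInstance, Sw.pr F Δ,
    fun x h1 h2 => Sw.ext h1 h2, fun x hx => ?_⟩
  have h1 := Abelianization.commutator_subset_ker
    (((Algebra.norm F).comp g.toMonoidHom).comp (Units.coeHom A)).toHomUnits (hkey x hx)
  rw [MonoidHom.mem_ker] at h1
  exact congrArg Units.val h1

theorem span_tensor {R : Type} [Ring R] [Algebra F R] [Algebra K F]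
    (ψ : F ⊗[K] A →ₐ[F] R) (hψ : Function.Surjective ψ) (g : A →+* R)
    (hg : ∀ x, g x = ψ (1 ⊗ₜ x)) : ⊤ ≤ Submodule.span F (Set.range g) := by
  intro y _
  obtain ⟨z, rfl⟩ := hψ y
  induction z with
  | zero => rw [map_zero]; exact zero_mem _
  | add a b ha hb => rw [map_add]; exact add_mem (ha trivial) (hb trivial)
  | tmul c x =>
    have e : ψ (c ⊗ₜ x) = c • g x := by
      rw [hg, ← map_smul, TensorProduct.smul_tmul', smul_eq_mul, mul_one]
    rw [e]
    exact Submodule.smul_mem _ _ (Submodule.subset_span ⟨x, rfl⟩)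

/-- The model at a place which splits in the centre. -/
theorem split_model (hA : AnisA k K A n) {G : Subgroup (unitary A)}
    (hkey : ∀ x ∈ G, Unitary.toUnits x ∈ commutator Aˣ) (φ : K →ₐ[k] F) :
    ∃ M : Mod k A F, M.Iso G ∨ M.Bnd G := by
  have := hA.simple
  have := hA.central
  have : Module.Finite K A := Module.Finite.of_restrictScalars_finite k K A
  let _ : Algebra K F := φ.toRingHom.toAlgebra
  have : IsSimpleRing (F ⊗[K] A) := H268.isSimpleRing_baseChange
  have : IsArtinianRing (F ⊗[K] A) := IsArtinianRing.of_finite F _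
  obtain ⟨r, hr, Δ, _, _, _, ⟨ψ⟩⟩ :=
    IsSimpleRing.exists_algEquiv_matrix_divisionRing_finite F (F ⊗[K] A)
  have key : ∀ (R : Type) [Ring R] [Algebra F R] (ψ : F ⊗[K] A ≃ₐ[F] R), ∃ g : A →+* R,
      (∀ (c : K) (x : A), g (c • x) = φ c • g x) ∧ ⊤ ≤ Submodule.span F (Set.range g) ∧
      finrank F R = n ^ 2 := by
    intro R _ _ ψ
    refine ⟨ψ.toRingEquiv.toRingHom.comp
      (Algebra.TensorProduct.includeRight : A →ₐ[K] F ⊗[K] A).toRingHom, fun c x => ?_,
      span_tensor ψ.toAlgHom ψ.surjective _ fun x => rfl, ?_⟩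
    · change ψ (1 ⊗ₜ (c • x)) = φ c • ψ (1 ⊗ₜ x)
      rw [← map_smul, ← TensorProduct.smul_tmul, TensorProduct.smul_tmul', smul_eq_mul,
        Algebra.smul_def]
      rfl
    · rw [← ψ.toLinearEquiv.finrank_eq, Module.finrank_baseChange, hA.rank]
  by_cases h2 : 2 ≤ r
  · obtain ⟨g, h3, h4, h5⟩ := key _ ψ
    exact ⟨_, Or.inl (sp_iso hA φ h2 g h3 h4 h5 hkey).1⟩
  · obtain rfl : r = 1 := by have := hr.out; omega
    let e : Matrix (Fin 1) (Fin 1) Δ ≃ₐ[F] Δ :=
      { toFun := fun X => X 0 0
        invFun := fun c => Matrix.of fun _ _ => c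
        left_inv := fun X => by
          ext i j
          rw [Subsingleton.elim i 0, Subsingleton.elim j 0]
          rfl
        right_inv := fun c => rfl
        map_mul' := fun X Y => by simp [Matrix.mul_apply]
        map_add' := fun X Y => rfl
        commutes' := fun c => by simp [Matrix.algebraMap_matrix_apply] }
    obtain ⟨g, h3, h4, h5⟩ := key _ (ψ.trans e)
    exact ⟨_, Or.inr (sp_bnd hA φ g h3 h4 h5 hkey)⟩

/-- The model at a place at which the algebra splits completely. -/
theorem split_model' (hA : AnisA k K A n) {G : Subgroup (unitary A)}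
    (hkey : ∀ x ∈ G, Unitary.toUnits x ∈ commutator Aˣ) (φ : K →ₐ[k] F)
    (g : A →+* Matrix (Fin n) (Fin n) F)
    (hg : ∀ c : K, g (algebraMap K A c) = algebraMap _ _ (φ c)) :
    ∃ M : Mod k A F, M.Iso G ∧ M.Gen := by
  have := hA.simple
  have := hA.central
  have hn := hA.le
  let _ : Algebra K F := φ.toRingHom.toAlgebra
  let g1 : A →ₐ[K] Matrix (Fin n) (Fin n) F := { g with commutes' := fun c => hg c }
  exact ⟨_, sp_iso hA φ (by omega) g
    (fun c x => by rw [Algebra.smul_def, map_mul, hg, ← Algebra.smul_def])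
    (span_tensor (H756.extM g1) (H756.extM_bijective (by omega) hA.rank g1).2 g
      fun x => (H756.extM_one_tmul g1 x).symm)
    (by rw [Module.finrank_matrix, Fintype.card_fin, Module.finrank_self, mul_one, pow_two]) hkey⟩

end Vale.Agent.P011N.A1
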