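import Vale.Agent.P011N.A1.LocPl
import Vale.Agent.P011N.A1.LocSp

/-!
The local data of the special unitary groups from the key statement.
-/

open Module NumberField

namespace Vale.Agent.P011N.A1

/-- Unitary elements of reduced norm one are products of commutators of units. -/
def KeySU : Prop :=
  ∀ (k K A Ω : Type) [Field k] [NumberField k] [Field K] [Algebra k K] [StarRing K] [Ring A]
    [StarRing A] [Algebra k A] [Algebra K A] [IsScalarTower k K A] [StarModule K A] [Field Ω]
    [Algebra K Ω] [FiniteDimensional k A] (n : ℕ) (f : A →ₐ[K] Matrix (Fin n) (Fin n) Ω),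
    AnisA k K A n → ∀ x ∈ Vale.Agent.P011.H925.Full.GK f, Unitary.toUnits x ∈ commutator Aˣ

theorem locSU_of (h : KeySU) : LocSU := fun k K A Ω _ _ _ _ _ _ _ _ _ _ _ _ _ _ n f hA =>
  locData_of hA f (fun _ _ _ φ => split_model hA (h k K A Ω n f hA) φ)
    fun _ _ _ φ g hg => split_model' hA (h k K A Ω n f hA) φ g hg

end Vale.Agent.P011N.A1
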