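import Vale.Agent.P011N.A1.LocS0
import Vale.Agent.P011.H976.GLComm
import Vale.Agent.P011.H984.Full.Iso

/-!
Unitary elements of reduced norm one are products of commutators of units: reduction to the
division algebra.
-/

open Module Matrix

set_option linter.unusedSectionVars false

namespace Vale.Agent.P011N.A1.Spl

open Vale.Agent.P011.One Vale.Agent.P011.H976 Vale.Agent.P011S

section ab

variable {D : Type} [DivisionRing D] [CharZero D] {m : ℕ}

/-- Every invertible matrix is diagonal modulo commutators. -/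
theorem exists_dgu (i : Fin m) (X : (Matrix (Fin m) (Fin m) D)ˣ) :
    ∃ δ : Dˣ, Abelianization.of (dgu i δ) = Abelianization.of X := by
  have h0 : ∀ (a b : Fin m) (hab : a ≠ b) (c : D), Abelianization.of (tvu hab c) = 1 := by
    intro a b hab c
    rw [← MonoidHom.mem_ker, Abelianization.ker_of, ← tvu_comm hab two_ne_zero c]
    exact comm_mem _ _
  refine gauss (Subgroup.comap Abelianization.of (Abelianization.of.comp (dgu i)).range)
    (fun a b hab c => ?_) (fun a x => ?_) m 0 (zero_add m) X fun a ha => absurd ha (Nat.not_lt_zero _)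
  · rw [Subgroup.mem_comap, h0]
    exact one_mem _
  · by_cases ha : i = a
    · exact ⟨x, by rw [← ha]; rfl⟩
    · have h1 := congrArg Abelianization.of (weyl ha x)
      rw [map_mul, map_mul _ (dgu a x), mul_comm] at h1
      exact ⟨x, mul_right_cancel h1⟩

theorem ab_congr {G H : Type} [Group G] [CommGroup H] (φ : G →* H) {x y : G}
    (h : Abelianization.of x = Abelianization.of y) : φ x = φ y := by
  rw [← Abelianization.lift_apply_of φ x, h, Abelianization.lift_apply_of]

variable [StarRing D]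

theorem star_dgu (i : Fin m) (δ : Dˣ) : star (dgu i δ) = dgu i (star δ) := by
  apply Units.ext
  rw [Units.coe_star, dgu_val, dgu_val, star_add, star_one, Matrix.star_eq_conjTranspose,
    Matrix.conjTranspose_single, star_sub, star_one, Units.coe_star]

theorem ab_star {X Y : (Matrix (Fin m) (Fin m) D)ˣ}
    (h : Abelianization.of X = Abelianization.of Y) :
    Abelianization.of (star X) = Abelianization.of (star Y) :=
  ab_congr (MonoidHom.mk' (fun Z : (Matrix (Fin m) (Fin m) D)ˣ => Abelianization.of (star Z))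
    fun a b => by rw [star_mul, map_mul, mul_comm]) h

variable {K Ω : Type} [Field K] [Algebra K D] [Field Ω] [Algebra K Ω] {d : ℕ}

theorem redNorm_dgu (f : D →ₐ[K] Matrix (Fin d) (Fin d) Ω) (i : Fin m) (δ : Dˣ) :
    redNorm f (Fin m) ((dgu i δ : (Matrix (Fin m) (Fin m) D)ˣ) : Matrix (Fin m) (Fin m) D) =
      (f δ).det := by
  have h1 : ∀ v : Fin m → D, redNorm f (Fin m) (Matrix.diagonal v) = ∏ a, (f (v a)).det := by
    intro v
    rw [← Matrix.det_blockDiagonal, ← Matrix.det_submatrix_equiv_self (Equiv.prodComm _ _)]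
    change (Matrix.comp _ _ _ _ _ ((Matrix.diagonal v).map f)).det = _
    congr 1
    ext ⟨a, p⟩ ⟨b, q⟩
    change f (Matrix.diagonal v a b) p q = if a = b then f (v a) p q else 0
    split_ifs with h
    · rw [h, Matrix.diagonal_apply_eq]
    · rw [Matrix.diagonal_apply_ne _ h, map_zero, Matrix.zero_apply]
  change redNorm f (Fin m) (Matrix.diagonal (Pi.mulSingle i (δ : D))) = _
  rw [h1, Finset.prod_eq_single i, Pi.mulSingle_eq_same]
  · intro a _ ha
    rw [Pi.mulSingle_eq_of_ne ha, map_one, Matrix.det_one]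
  · intro h
    exact absurd (Finset.mem_univ i) h

/-- The reduction to the division algebra. -/
theorem ab_eq (f : D →ₐ[K] Matrix (Fin d) (Fin d) Ω) (i : Fin m)
    (hsuk : ∀ (C : Type) [CommGroup C] (F0 : D → C),
      (∀ a b : D, a ≠ 0 → b ≠ 0 → F0 (a * b) = F0 a * F0 b) →
      (∀ s : D, s ≠ 0 → star s = s → F0 s = 1) → ∀ Z : D, Z ≠ 0 →
      (f (star Z)).det = (f Z).det → F0 Z = 1)
    {H X Y : (Matrix (Fin m) (Fin m) D)ˣ} (h : H * Y = star X * H)
    (hN : redNorm f (Fin m) (X : Matrix (Fin m) (Fin m) D) =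
      redNorm f (Fin m) (Y : Matrix (Fin m) (Fin m) D)) :
    Abelianization.of X = Abelianization.of Y := by
  classical
  obtain ⟨δ, hδ⟩ := exists_dgu i X
  have h1 : Abelianization.of (dgu i (star δ)) = Abelianization.of Y := by
    have h2 := congrArg Abelianization.of h
    rw [map_mul, map_mul, mul_comm] at h2
    rw [← star_dgu, ab_star hδ, mul_right_cancel h2]
  let N : (Matrix (Fin m) (Fin m) D)ˣ →* Ωˣ := Units.map (redNorm f (Fin m))
  have h2 : (f (δ : D)).det = redNorm f (Fin m) (X : Matrix (Fin m) (Fin m) D) := by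
    rw [← redNorm_dgu f i δ]
    exact congrArg Units.val (ab_congr N hδ)
  have h3 : (f (star (δ : D))).det = redNorm f (Fin m) (Y : Matrix (Fin m) (Fin m) D) := by
    rw [← Units.coe_star, ← redNorm_dgu f i (star δ)]
    exact congrArg Units.val (ab_congr N h1)
  let ψ : Dˣ →* Abelianization (Matrix (Fin m) (Fin m) D)ˣ := Abelianization.of.comp (dgu i)
  let F0 : D → Abelianization (Matrix (Fin m) (Fin m) D)ˣ := fun z => if hz : z = 0 then 1 else
    ψ (Units.mk0 z hz) * (ψ (star (Units.mk0 z hz)))⁻¹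
  have hF : ∀ (z : D) (hz : z ≠ 0), F0 z = ψ (Units.mk0 z hz) * (ψ (star (Units.mk0 z hz)))⁻¹ :=
    fun z hz => dif_neg hz
  have h4 : F0 δ = 1 := by
    refine hsuk _ F0 ?_ ?_ δ δ.ne_zero (by rw [h2, h3, hN])
    · intro a b ha hb
      rw [hF a ha, hF b hb, hF _ (mul_ne_zero ha hb), Units.mk0_mul, star_mul, map_mul, map_mul,
        _root_.mul_inv_rev, mul_mul_mul_comm]
    · intro x hx hx'
      have e1 : star (Units.mk0 x hx) = Units.mk0 x hx := Units.ext hx'
      rw [hF x hx, e1, mul_inv_cancel]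
  rw [hF _ δ.ne_zero, Units.mk0_val, mul_inv_eq_one] at h4
  rw [← hδ, ← h1]
  exact h4

end ab

section hilb

variable {K A : Type} [Field K] [CharZero K] [StarRing K] [Ring A] [StarRing A] [Algebra K A]
  [StarModule K A] [FiniteDimensional K A]

/-- Unitary elements are quotients of a unit by its adjoint. -/
theorem exists_hilb (hne : ∃ x : K, star x ≠ x) {g : A} (hg : g * star g = 1) :
    ∃ h : Aˣ, (h : A) = g * star (h : A) := by
  classical
  obtain ⟨u, hu⟩ := hne
  obtain ⟨s, hs0, hs⟩ : ∃ s : K, s ≠ 0 ∧ star s = -s :=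
    ⟨u - star u, sub_ne_zero.mpr hu.symm, by rw [star_sub, star_star, neg_sub]⟩
  have h1 : ∀ t : ℕ, star (1 + (t : K) * s) = 1 - (t : K) * s := fun t => by
    rw [star_add, star_one, star_mul', star_natCast, hs, mul_neg, sub_eq_add_neg]
  have h2 : ∀ t : ℕ, 1 - (t : K) * s ≠ 0 := by
    intro t h
    have h3 : 1 + (t : K) * s = 0 := by rw [← star_eq_zero, h1, h]
    have h4 : (2 : K) = 0 := by linear_combination h + h3
    exact two_ne_zero h4
  have h3 : Function.Injective fun t : ℕ => (1 + (t : K) * s) / (1 - (t : K) * s) := by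
    intro a b hab
    have h4 := (div_eq_div_iff (h2 a) (h2 b)).mp hab
    have h5 : (2 * s) * ((a : K) - b) = 0 := by linear_combination h4
    exact Nat.cast_injective (sub_eq_zero.mp
      ((mul_eq_zero.mp h5).resolve_left (mul_ne_zero two_ne_zero hs0)))
  have hp : minpoly K (-g) ≠ 0 := minpoly.ne_zero (Algebra.IsIntegral.isIntegral _)
  obtain ⟨_, ⟨t, rfl⟩, hz⟩ := (Set.infinite_range_of_injective h3).exists_notMem_finset
    (minpoly K (-g)).roots.toFinset
  rw [Multiset.mem_toFinset, Polynomial.mem_roots hp] at hz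
  have h4 : (1 + (t : K) * s) / (1 - (t : K) * s) ∉ spectrum K (-g) := by
    intro h
    apply hz
    have h5 := spectrum.subset_polynomial_aeval (-g) (minpoly K (-g)) ⟨_, h, rfl⟩
    rw [minpoly.aeval] at h5
    rw [Polynomial.IsRoot.def]
    by_contra h6
    apply h5
    rw [spectrum.mem_resolventSet_iff, sub_zero]
    exact (isUnit_iff_ne_zero.mpr h6).map (algebraMap K A)
  rw [spectrum.notMem_iff, sub_neg_eq_add] at h4
  obtain ⟨h, hh⟩ := ((isUnit_iff_ne_zero.mpr (h2 t)).map (algebraMap K A)).mul h4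
  rw [mul_add, ← map_mul, mul_div_cancel₀ _ (h2 t), ← Algebra.smul_def,
    Algebra.algebraMap_eq_smul_one] at hh
  refine ⟨h, ?_⟩
  rw [hh, star_add, star_smul, star_smul, star_one, h1, ← h1, star_star, mul_add, mul_smul_comm,
    mul_smul_comm, mul_one, hg, add_comm]

end hilb

section key

variable {k K A Ω : Type} [Field k] [Field K] [CharZero K] [Algebra k K] [StarRing K] [Ring A]
  [StarRing A] [Algebra K A] [StarModule K A] [Field Ω] [Algebra K Ω] {n : ℕ}

/-- The key lemma, given the triviality of the reduced unitary Whitehead groups. -/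
theorem key_of (hA : AnisA k K A n)
    (hsuk : ∀ (D Ω' : Type) [DivisionRing D] [StarRing D] [Algebra K D] [FiniteDimensional K D]
      [StarModule K D] [Algebra.IsCentral K D] [Field Ω'] [Algebra K Ω'] (d : ℕ)
      (f : D →ₐ[K] Matrix (Fin d) (Fin d) Ω'), finrank K D = d ^ 2 →
      ∀ (C : Type) [CommGroup C] (F0 : D → C),
      (∀ a b : D, a ≠ 0 → b ≠ 0 → F0 (a * b) = F0 a * F0 b) →
      (∀ s : D, s ≠ 0 → star s = s → F0 s = 1) → ∀ Z : D, Z ≠ 0 →
      (f (star Z)).det = (f Z).det → F0 Z = 1)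
    (f : A →ₐ[K] Matrix (Fin n) (Fin n) Ω) :
    ∀ g ∈ Vale.Agent.P011.H925.Full.GK f, ∃ u ∈ commutator Aˣ, (u : A) = g := by
  intro g hg
  have hn : 0 < n := by
    have := hA.le
    omega
  have hfd : FiniteDimensional K A := by
    refine FiniteDimensional.of_finrank_pos ?_
    rw [hA.rank]
    exact pow_pos hn 2
  have hc := hA.central
  have hs := hA.simple
  obtain ⟨P⟩ := Vale.Agent.P011.H984.exists_pj (K := K) hA.aniso
  obtain ⟨m, ⟨F⟩⟩ := Vale.Agent.P011.H984.exists_fm K hA.aniso P
  obtain ⟨d, hnd, hd⟩ := F.exists_deg hA.rank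
  have hd0 : 0 < d := Nat.pos_of_ne_zero (by
    rintro rfl
    omega)
  have hcen : Algebra.IsCentral K P.Cr := F.isCentral hA.central
  have hfin : FiniteDimensional K P.Cr := FiniteDimensional.of_finrank_pos (by
    rw [hd]
    exact pow_pos hd0 2)
  have hch : CharZero P.Cr := charZero_of_injective_algebraMap (algebraMap K P.Cr).injective
  obtain ⟨f'⟩ := Vale.Agent.P011.H268.exists_split_sepClosed (K := K) (A := P.Cr)
    (E := AlgebraicClosure K) hd
  let e : Aˣ ≃* (Matrix (Fin m) (Fin m) P.Cr)ˣ :=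
    Units.mapEquiv (F.mx : A ≃* Matrix (Fin m) (Fin m) P.Cr)
  let u : Aˣ := ⟨g, star (g : A), g.2.2, g.2.1⟩
  obtain ⟨h, hh⟩ := exists_hilb hA.star_ne (g := (g : A)) g.2.2
  have h1 : h = u * star h := Units.ext hh
  have h2 : redNorm f' (Fin m) (F.mx g) = 1 := (F.det_iff f f' hn hA.rank hnd _).mp hg
  have h3 : Abelianization.of (e h) = Abelianization.of (e (star h)) := by
    refine ab_eq f' ⟨0, F.pos⟩ (hsuk _ _ d f' hd) (H := ⟨F.HH, F.HI, F.HH_HI, F.HI_HH⟩)
      (Units.ext (F.mx_star h)) ?_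
    change redNorm f' (Fin m) (F.mx h) = redNorm f' (Fin m) (F.mx (star (h : A)))
    conv_lhs => rw [hh, map_mul, map_mul, h2, one_mul]
  have h4 : e u ∈ commutator (Matrix (Fin m) (Fin m) P.Cr)ˣ := by
    rw [← Abelianization.ker_of, MonoidHom.mem_ker]
    nth_rewrite 1 [h1] at h3
    rw [map_mul, map_mul] at h3
    exact mul_eq_right.mp h3
  refine ⟨u, ?_, rfl⟩
  rw [← e.symm_apply_apply u]
  exact mem_comm_map e.symm.toMonoidHom h4

end key

end Vale.Agent.P011N.A1.Spl
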