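import Vale.Agent.P011N.A1.Defs

/-!
Construction of models; triples of skew nilpotent elements.
-/

open Module
open scoped commutatorElement

set_option linter.unusedSectionVars false
set_option linter.unusedSimpArgs false

namespace Vale.Agent.P011N.A1

section mk

variable {k A F : Type} [Field k] [Ring A] [StarRing A] [Algebra k A] [FiniteDimensional k A]
  [Field F] [Algebra k F]

/-- A model given by a map whose image spans. -/
noncomputable def Mod.ofSpan (E : Type) [Ring E] [StarRing E] [Algebra F E] (j : A →+* E)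
    (j_smul : ∀ (c : k) (x : A), j (c • x) = algebraMap k F c • j x)
    (j_star : ∀ x : A, j (star x) = star (j x))
    (star_smul : ∀ (c : F) (y : E), star (c • y) = c • star y)
    (span : ⊤ ≤ Submodule.span F (Set.range j)) (rank : finrank F E = finrank k A) :
    Mod k A F where
  E := E
  j := j
  j_smul := j_smul
  j_star := j_star
  star_smul := star_smul
  bas := basisOfTopLeSpanOfCardEqFinrank (fun i => j (Module.finBasis k A i)) (by
    refine span.trans (Submodule.span_le.mpr ?_)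
    rintro _ ⟨x, rfl⟩
    have e : j x = ∑ i, algebraMap k F ((Module.finBasis k A).repr x i) •
        j (Module.finBasis k A i) := by
      conv_lhs => rw [← (Module.finBasis k A).sum_repr x]
      rw [map_sum]
      exact Finset.sum_congr rfl fun i _ => j_smul _ _
    rw [e]
    exact Submodule.sum_mem _ fun i _ => Submodule.smul_mem _ _
      (Submodule.subset_span ⟨i, rfl⟩)) (by rw [Fintype.card_fin, rank])
  bas_eq := fun i => by rw [coe_basisOfTopLeSpanOfCardEqFinrank]

end mk

section sl2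

variable {F E : Type} [Field F] [Ring E] [StarRing E] [Algebra F E]

/-- Two skew nilpotent elements which generate an algebra of matrices of size two. -/
structure Trp (F : Type) [Field F] {E : Type} [Ring E] [StarRing E] [Algebra F E] (e f : E) :
    Prop where
  sm : ∀ (c : F) (y : E), star (c • y) = c • star y
  se : star e = -e
  sf : star f = -f
  ee : e * e = 0
  ff : f * f = 0
  efe : e * f * e = e
  fef : f * e * f = f

theorem Trp.symm {e f : E} (h : Trp F e f) : Trp F f e :=
  ⟨h.sm, h.sf, h.se, h.ff, h.ee, h.fef, h.efe⟩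

/-- The unitary element of a skew element of square zero. -/
def unip {y : E} (hs : star y = -y) (hy : y * y = 0) : unitary E :=
  ⟨1 + y, by
    rw [Unitary.mem_iff, star_add, star_one, hs]
    constructor
    · rw [add_mul, one_mul, mul_add, mul_one, neg_mul, hy]; abel
    · rw [add_mul, one_mul, mul_add, mul_one, mul_neg, hy]; abel⟩

theorem unip_val {y : E} (hs : star y = -y) (hy : y * y = 0) : (unip hs hy : E) = 1 + y := rfl

variable {e f : E}

theorem Trp.rel (h : Trp F e f) : (∀ x, e * (e * x) = 0) ∧ (∀ x, f * (f * x) = 0) ∧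
    (∀ x, e * (f * (e * x)) = e * x) ∧ (∀ x, f * (e * (f * x)) = f * x) ∧ e * (f * e) = e ∧
    f * (e * f) = f :=
  ⟨fun x => by rw [← mul_assoc, h.ee, zero_mul], fun x => by rw [← mul_assoc, h.ff, zero_mul],
    fun x => by rw [← mul_assoc, ← mul_assoc, h.efe], fun x => by
      rw [← mul_assoc, ← mul_assoc, h.fef], by rw [← mul_assoc, h.efe], by
      rw [← mul_assoc, h.fef]⟩

/-- The element of a matrix of size two. -/
def ph (e f : E) (a b c d : F) : E :=
  1 + (a - 1) • (e * f) + b • e + c • f + (d - 1) • (f * e)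

theorem Trp.ph_mul (h : Trp F e f) (a b c d a' b' c' d' : F) :
    ph e f a b c d * ph e f a' b' c' d' =
      ph e f (a * a' + b * c') (a * b' + b * d') (c * a' + d * c') (c * b' + d * d') := by
  obtain ⟨r1, r2, r3, r4, r5, r6⟩ := h.rel
  simp only [ph, add_mul, mul_add, one_mul, mul_one, smul_mul_assoc, mul_smul_comm, mul_assoc,
    r1, r2, r3, r4, r5, r6, h.ee, h.ff, mul_zero, smul_zero]
  module

theorem Trp.star_ph (h : Trp F e f) (a b c d : F) :
    star (ph e f a b c d) = ph e f d (-b) (-c) a := by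
  simp only [ph, star_add, star_one, h.sm, star_mul, h.se, h.sf, neg_mul_neg]
  module

theorem ph_one : ph e f (1 : F) 0 0 1 = 1 := by
  simp [ph]

/-- The diagonal elements. -/
def Trp.tau (h : Trp F e f) {t : F} (ht : t ≠ 0) : unitary E :=
  ⟨ph e f t 0 0 t⁻¹, by
    rw [Unitary.mem_iff, h.star_ph, h.ph_mul, h.ph_mul]
    simp [ht, ph_one]⟩

theorem Trp.tau_val (h : Trp F e f) {t : F} (ht : t ≠ 0) :
    (h.tau ht : E) = ph e f t 0 0 t⁻¹ := rfl

theorem Trp.tau_mul (h : Trp F e f) {t : F} (ht : t ≠ 0) {y : E} (h1 : e * f * y = y)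
    (h2 : y * (e * f) = 0) (h3 : f * e * y = 0) (h4 : y * (f * e) = y) :
    (h.tau ht : E) * y = t ^ 2 • (y * h.tau ht) := by
  rw [h.tau_val]
  simp only [ph, add_mul, mul_add, one_mul, mul_one, smul_mul_assoc, mul_smul_comm, h1, h2, h3,
    h4, zero_smul, smul_zero, add_zero, zero_mul, mul_zero]
  match_scalars
  field_simp
  ring

theorem Trp.unip_mem [CharZero F] (h : Trp F e f) {y : E} (hs : star y = -y) (hy : y * y = 0)
    (h1 : e * f * y = y) (h2 : y * (e * f) = 0) (h3 : f * e * y = 0) (h4 : y * (f * e) = y) :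
    unip hs hy ∈ commutator (unitary E) := by
  have hs' : star ((3 : F)⁻¹ • y) = -((3 : F)⁻¹ • y) := by rw [h.sm, hs, smul_neg]
  have hy' : ((3 : F)⁻¹ • y) * ((3 : F)⁻¹ • y) = 0 := by
    rw [smul_mul_smul_comm, hy, smul_zero]
  have h5 := h.tau_mul (two_ne_zero : (2 : F) ≠ 0) h1 h2 h3 h4
  have e1 : unip hs hy = ⁅h.tau (two_ne_zero : (2 : F) ≠ 0), unip hs' hy'⁆ := by
    rw [commutatorElement_def, eq_mul_inv_iff_mul_eq, eq_mul_inv_iff_mul_eq]
    apply Subtype.ext
    simp only [Submonoid.coe_mul, unip_val, add_mul, mul_add, one_mul, mul_one, smul_mul_assoc,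
      mul_smul_comm, hy, h5, smul_zero, zero_mul, add_zero]
    match_scalars <;> norm_num
  rw [e1]
  exact Subgroup.commutator_mem_commutator (Subgroup.mem_top _) (Subgroup.mem_top _)

theorem Trp.up [CharZero F] (h : Trp F e f) (c : F) :
    ∃ x ∈ commutator (unitary E), (x : E) = 1 + c • e := by
  obtain ⟨r1, r2, r3, r4, r5, r6⟩ := h.rel
  have hs : star (c • e) = -(c • e) := by rw [h.sm, h.se, smul_neg]
  have hy : (c • e) * (c • e) = 0 := by rw [smul_mul_smul_comm, h.ee, smul_zero]
  refine ⟨unip hs hy, h.unip_mem hs hy ?_ ?_ ?_ ?_, rfl⟩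
  · rw [mul_smul_comm, h.efe]
  · rw [smul_mul_assoc, r1, smul_zero]
  · rw [mul_smul_comm, mul_assoc, h.ee, mul_zero, smul_zero]
  · rw [smul_mul_assoc, r5]

theorem Trp.tau_mem [CharZero F] (h : Trp F e f) {t : F} (ht : t ≠ 0) :
    h.tau ht ∈ commutator (unitary E) := by
  have hU : ∀ c : F, 1 + c • e = ph e f 1 c 0 1 := fun c => by simp [ph]
  have hL : ∀ c : F, 1 + c • f = ph e f 1 0 c 1 := fun c => by simp [ph]
  obtain ⟨x1, m1, e1⟩ := h.up t
  obtain ⟨x2, m2, e2⟩ := h.symm.up (-t⁻¹)
  obtain ⟨x3, m3, e3⟩ := h.up (-1)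
  obtain ⟨x4, m4, e4⟩ := h.symm.up 1
  have e5 : h.tau ht = x1 * x2 * x1 * x3 * x4 * x3 := by
    apply Subtype.ext
    simp only [Submonoid.coe_mul, e1, e2, e3, e4, hU, hL, h.ph_mul, h.tau_val]
    congr 1 <;> field_simp <;> ring
  rw [e5]
  exact mul_mem (mul_mem (mul_mem (mul_mem (mul_mem m1 m2) m1) m3) m4) m3

/-- The last clause of the isotropic models. -/
theorem Trp.eig [CharZero F] (h : Trp F e f) (he : e ≠ 0) : ∃ y : E, y ≠ 0 ∧ y * y = 0 ∧
    (∀ c : F, ∃ x ∈ commutator (unitary E), (x : E) = 1 + c • y) ∧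
    ∀ t : F, t ≠ 0 → ∃ τ ∈ commutator (unitary E), (τ : E) * y = t ^ 2 • (y * τ) := by
  obtain ⟨r1, r2, r3, r4, r5, r6⟩ := h.rel
  refine ⟨e, he, h.ee, h.up, fun t ht => ⟨h.tau ht, h.tau_mem ht, h.tau_mul ht h.efe (r1 f) ?_ r5⟩⟩
  rw [mul_assoc, h.ee, mul_zero]

end sl2

end Vale.Agent.P011N.A1
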