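import Vale.Agent.P011N.A1.LocAd
import Vale.Agent.P011.H756.Herm
import Vale.Agent.P011.H268.Nrd

/-!
The model at a place which does not split in the centre.
-/

open Module Matrix
open scoped TensorProduct

set_option linter.unusedSectionVars false
set_option linter.unusedSimpArgs false

namespace Vale.Agent.P011N.A1

open Vale.Agent.P011

theorem fix_span {k K : Type} [Field k] [Field K] [CharZero K] [Algebra k K] [StarRing K]
    (hfix : ∀ x : K, star x = x ↔ x ∈ Set.range (algebraMap k K)) {θ : K} (h0 : θ ≠ 0)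
    (hθ : star θ = -θ) (x : K) : ∃ a b : k, x = algebraMap k K a + algebraMap k K b * θ := by
  obtain ⟨a, ha⟩ := (hfix ((x + star x) / 2)).mp (by
    rw [star_div₀, star_add, star_star, star_ofNat, add_comm])
  obtain ⟨b, hb⟩ := (hfix ((x - star x) / (2 * θ))).mp (by
    rw [star_div₀, star_sub, star_star, star_mul', star_ofNat, hθ]
    field_simp
    ring)
  refine ⟨a, b, ?_⟩
  rw [ha, hb]
  field_simp
  ring

theorem exists_skew {K : Type} [Field K] [StarRing K] (hne : ∃ x : K, star x ≠ x) :
    ∃ θ : K, θ ≠ 0 ∧ star θ = -θ := by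
  obtain ⟨x, hx⟩ := hne
  exact ⟨x - star x, sub_ne_zero.mpr hx.symm, by rw [star_sub, star_star, neg_sub]⟩

theorem fix_rank {k K : Type} [Field k] [Field K] [CharZero K] [Algebra k K] [StarRing K]
    (hfix : ∀ x : K, star x = x ↔ x ∈ Set.range (algebraMap k K)) (hne : ∃ x : K, star x ≠ x) :
    finrank k K = 2 := by
  obtain ⟨θ, h0, hθ⟩ := exists_skew hne
  have hli : LinearIndependent k ![(1 : K), θ] := by
    rw [LinearIndependent.pair_iff]
    intro s t h
    have hs : star (algebraMap k K s) = algebraMap k K s := (hfix _).mpr ⟨s, rfl⟩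
    have ht : star (algebraMap k K t) = algebraMap k K t := (hfix _).mpr ⟨t, rfl⟩
    rw [Algebra.smul_def, Algebra.smul_def, mul_one] at h
    have h1 := congrArg star h
    rw [star_add, star_mul', hs, ht, hθ, star_zero] at h1
    have h2 : algebraMap k K s = 0 := by linear_combination (h + h1) / 2
    have h3 : algebraMap k K t * θ = 0 := by linear_combination (h - h1) / 2
    exact ⟨(map_eq_zero _).mp h2, (map_eq_zero _).mp ((mul_eq_zero.mp h3).resolve_right h0)⟩
  have hsp : ⊤ ≤ Submodule.span k (Set.range ![(1 : K), θ]) := by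
    intro x _
    obtain ⟨a, b, rfl⟩ := fix_span hfix h0 hθ x
    rw [← Algebra.smul_def, Algebra.algebraMap_eq_smul_one]
    exact add_mem (Submodule.smul_mem _ _ (Submodule.subset_span ⟨0, rfl⟩))
      (Submodule.smul_mem _ _ (Submodule.subset_span ⟨1, rfl⟩))
  rw [finrank_eq_card_basis (Basis.mk hli hsp), Fintype.card_fin]

section

variable {k K A Ω : Type} [Field k] [CharZero k] [Field K] [Algebra k K] [StarRing K] [Ring A]
  [StarRing A] [Algebra k A] [Algebra K A] [IsScalarTower k K A] [StarModule K A] [Field Ω]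
  [Algebra K Ω] [FiniteDimensional k A] {n : ℕ}

theorem mem_GK {f : A →ₐ[K] Matrix (Fin n) (Fin n) Ω} {g : unitary A} :
    g ∈ H925.Full.GK f ↔ (f g).det = 1 := Iff.rfl

theorem AnisA_rank (hA : AnisA k K A n) : finrank k A = 2 * n ^ 2 := by
  have : CharZero K := charZero_of_injective_algebraMap (algebraMap k K).injective
  have h1 := fix_rank hA.fixed hA.star_ne
  have h2 : n ^ 2 ≠ 0 := pow_ne_zero _ (by have := hA.le; omega)
  have : Module.Finite k K := Module.finite_of_finrank_pos (by omega)
  have : Module.Finite K A := Module.finite_of_finrank_pos (by rw [hA.rank]; omega)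
  rw [← Module.finrank_mul_finrank k K A, h1, hA.rank]

/-- The model given by a splitting over a quadratic extension. -/
theorem ns_model (hA : AnisA k K A n) (f : A →ₐ[K] Matrix (Fin n) (Fin n) Ω) {F L : Type}
    [Field F] [Algebra k F] [Field L] [StarRing L] [Algebra F L]
    (hfix : ∀ x : L, star x = x ↔ x ∈ Set.range (algebraMap F L)) (φ : K →+* L)
    (hφ : ∀ x, φ (star x) = star (φ x))
    (hk : ∀ c : k, φ (algebraMap k K c) = algebraMap F L (algebraMap k F c))
    (g : A →+* Matrix (Fin n) (Fin n) L)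
    (hg : ∀ c : K, g (algebraMap K A c) = algebraMap L _ (φ c)) :
    ∃ (P : Hm L n) (M : Mod k A F),
      ((∃ z : Fin n → L, z ≠ 0 ∧ z ⬝ᵥ (P.H *ᵥ star z) = 0) → M.Iso (H925.Full.GK f)) ∧
      ((∀ z : Fin n → L, z ⬝ᵥ (P.H *ᵥ star z) = 0 → z = 0) → M.Bnd (H925.Full.GK f)) := by
  have : CharZero K := charZero_of_injective_algebraMap (algebraMap k K).injective
  have : CharZero L := φ.charZero_iff φ.injective |>.mp inferInstance
  have := hA.simple
  have := hA.central
  have hn : n ≠ 0 := by have := hA.le; omega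
  obtain ⟨θ, h0, hθ⟩ := exists_skew hA.star_ne
  have hθ' : star (φ θ) = -φ θ := by rw [← hφ, hθ, map_neg]
  have h0' : φ θ ≠ 0 := (map_ne_zero φ).mpr h0
  have hne : ∃ x : L, star x ≠ x := ⟨φ θ, fun h => h0' (by
    rw [hθ'] at h
    linear_combination (-1 / 2 : L) * h)⟩
  have hF : ∀ c : F, star (algebraMap F L c) = algebraMap F L c := fun c => (hfix _).mpr ⟨c, rfl⟩
  obtain ⟨H, hH, hd, hs⟩ := H756.exists_herm hn hA.rank hne φ hφ g hg
  let P : Hm L n := ⟨H, hH, hd⟩
  let j : A →+* Ad P := (Ad.m P).symm.toRingHom.comp g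
  have hj : ∀ x, Ad.m P (j x) = g x := fun x => rfl
  have hgs : ∀ (c : K) (x : A), g (c • x) = φ c • g x := fun c x => by
    rw [Algebra.smul_def, map_mul, hg, ← Algebra.smul_def]
  let _ : Algebra K L := φ.toAlgebra
  let g1 : A →ₐ[K] Matrix (Fin n) (Fin n) L := { g with commutes' := fun c => hg c }
  have hg1 : ∀ x, g1 x = g x := fun x => rfl
  have hsm : ∀ (c : k) (x : A), j (c • x) = algebraMap k F c • j x := fun c x => by
    apply (Ad.m P).injective
    rw [hj, Ad.smul_eq, Ad.m_smul, hj, ← hk, ← hgs, algebraMap_smul]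
  have hst : ∀ x : A, j (star x) = star (j x) := fun x => by
    apply (Ad.m P).injective
    rw [Ad.m_star, hj, hj]
    change _ = H * (g x)ᴴ * P.H⁻¹
    rw [← hs, Matrix.mul_assoc]
    change _ = g (star x) * (P.H * P.H⁻¹)
    rw [P.mul_inv, Matrix.mul_one]
  have hsp : ⊤ ≤ Submodule.span F (Set.range j) := by
    intro Y _
    obtain ⟨y, hy⟩ := (H756.extM_bijective hn hA.rank g1).2 (Ad.m P Y)
    have hY : Y = (Ad.m P).symm (H756.extM g1 y) := by rw [hy, RingEquiv.symm_apply_apply]
    rw [hY]
    clear hY hy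
    induction y with
    | zero => rw [map_zero, map_zero]; exact zero_mem _
    | add a b ha hb => rw [map_add, map_add]; exact add_mem ha hb
    | tmul c x =>
      obtain ⟨a, b, hc⟩ := fix_span hfix h0' hθ' c
      have h2 : (Ad.m P).symm (H756.extM g1 (c ⊗ₜ x)) = a • j x + b • j (θ • x) := by
        apply (Ad.m P).injective
        rw [RingEquiv.apply_symm_apply, map_add, Ad.smul_eq, Ad.smul_eq b, Ad.m_smul, Ad.m_smul,
          hj, hj, hgs, smul_smul, ← add_smul, ← hc, ← hg1, ← H756.extM_one_tmul g1 x, ← map_smul,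
          TensorProduct.smul_tmul', smul_eq_mul, mul_one]
      rw [h2]
      exact add_mem (Submodule.smul_mem _ _ (Submodule.subset_span ⟨x, rfl⟩))
        (Submodule.smul_mem _ _ (Submodule.subset_span ⟨θ • x, rfl⟩))
  have hrk : finrank F (Ad P) = finrank k A := by
    have h1 := fix_rank hfix hne
    have : Module.Finite F L := Module.finite_of_finrank_pos (by omega)
    rw [AnisA_rank hA]
    change finrank F (Matrix (Fin n) (Fin n) L) = _
    rw [Module.finrank_matrix, Fintype.card_fin, h1]
    ring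
  refine ⟨P, Mod.ofSpan (Ad P) j hsm hst (Ad.star_smul' hF) hsp hrk, ?_, fun h => Or.inl ?_⟩
  · rintro ⟨z, hz0, hz⟩
    have : CharZero F := charZero_of_injective_algebraMap (algebraMap k F).injective
    obtain ⟨e, e', h, he⟩ := exists_trp (F := F) (P := P) hF hne hz0 hz
    refine ⟨ad_shift hne, ad_loc hne hz0 hz, fun x hx => ad_mem hne hz0 hz ?_, h.eig he⟩
    have : Module.Finite K A := Module.Finite.of_restrictScalars_finite k K A
    have h1 := H268.det_compare (Nat.pos_of_ne_zero hn) hA.rank f g1 (x : A) (ν := 1)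
      (by rw [map_one]; exact hx)
    rw [map_one] at h1
    exact h1
  · exact ad_aniso h

end

end Vale.Agent.P011N.A1
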