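import Vale.Agent.P011N.A1.LocNs
import Vale.Agent.P011.H73.SplitInv
import Vale.Agent.P011.H63.SplitNF
import Vale.Agent.P011.H961.SplitAE
import Vale.Agent.P011.Two.Refl
import Vale.Agent.P011.Two.LocChain
import Vale.Agent.P011.Even.LocModel

/-!
The models at the places of a number field.
-/

open Module Matrix NumberField IsDedekindDomain
open scoped TensorProduct

set_option linter.unusedSectionVars false
set_option linter.unusedSimpArgs false

namespace Vale.Agent.P011N.A1

open Vale.Agent.P011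

/-- A splitting exists as soon as finitely many elements of the centre have integral images. -/
theorem exists_good_set {K A : Type} [Field K] [Ring A] [Algebra K A] [IsSimpleRing A]
    [Algebra.IsCentral K A] {n : ℕ} (hn : n ≠ 0) (hfinrank : finrank K A = n ^ 2) :
    ∃ Z : Finset K, ∀ (L : Type) [NontriviallyNormedField L] [ProperSpace L]
      [IsUltrametricDist L] (φ : K →+* L), (∀ z ∈ Z, ‖φ z‖ ≤ 1) →
      ∃ g : A →+* Matrix (Fin n) (Fin n) L,
        ∀ c : K, g (algebraMap K A c) = algebraMap L _ (φ c) := by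
  classical
  have hfd : FiniteDimensional K A := Module.finite_of_finrank_pos (by rw [hfinrank]; positivity)
  let b : Basis (Fin (finrank K A)) K A := Module.finBasis K A
  have hbi : ∀ i j : Fin (finrank K A), ∃ (m : ℕ) (x y : Fin m → A),
      ∀ l, ∑ t, x t * b l * y t = if l = j then b i else 0 := by
    intro i j
    obtain ⟨m, x, y, h⟩ := H973.exists_bimul ((b.coord j).smulRight (b i))
      (Finset.univ.image b)
    refine ⟨m, x, y, fun l => ?_⟩
    rw [← h (b l) (Finset.mem_image_of_mem _ (Finset.mem_univ l)), LinearMap.smulRight_apply,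
      Basis.coord_apply, b.repr_self, Finsupp.single_apply]
    split_ifs
    · rw [one_smul]
    · rw [zero_smul]
  choose m x y hxy using hbi
  let Y : Finset A := {1} ∪
    (Finset.univ.image fun p : Fin (finrank K A) × Fin (finrank K A) => b p.1 * b p.2) ∪
    (Finset.univ.biUnion fun i => Finset.univ.biUnion fun j => Finset.univ.image (x i j)) ∪
    (Finset.univ.biUnion fun i => Finset.univ.biUnion fun j => Finset.univ.image (y i j))
  refine ⟨Y.biUnion fun a => Finset.univ.image (b.repr a), fun L _ _ _ φ hφ => ?_⟩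
  have hint : ∀ a ∈ Y, ∀ l, ‖φ (b.repr a l)‖ ≤ 1 := fun a ha l =>
    hφ _ (Finset.mem_biUnion.mpr ⟨a, ha, Finset.mem_image_of_mem _ (Finset.mem_univ l)⟩)
  let _ : Algebra K L := φ.toAlgebra
  have hsim : IsSimpleRing (L ⊗[K] A) := H268.isSimpleRing_baseChange
  let b' : Basis (Fin (finrank K A)) L (L ⊗[K] A) := Algebra.TensorProduct.basis L b
  have hb' : ∀ i, b' i = 1 ⊗ₜ[K] b i := fun i => Algebra.TensorProduct.basis_apply b i
  have hrep : ∀ (z : A) (l : Fin (finrank K A)), b'.repr (1 ⊗ₜ[K] z) l = φ (b.repr z l) := by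
    intro z l
    rw [Algebra.TensorProduct.basis_repr_tmul]
    simp only [one_smul, Finsupp.mapRange_apply]
    rfl
  obtain ⟨g⟩ := H961.split_of_basis b' hn (by rw [Fintype.card_fin, hfinrank]) (fun l => by
      rw [Algebra.TensorProduct.one_def, hrep]
      exact hint _ (by simp [Y]) l)
    (fun i j l => by
      rw [hb', hb', Algebra.TensorProduct.tmul_mul_tmul, one_mul, hrep]
      refine hint _ ?_ l
      simp only [Y, Finset.mem_union]
      exact Or.inl (Or.inl (Or.inr (Finset.mem_image.mpr ⟨(i, j), Finset.mem_univ _, rfl⟩))))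
    (fun i j => by
      refine ⟨m i j, fun t => 1 ⊗ₜ[K] x i j t, fun t => 1 ⊗ₜ[K] y i j t, fun t l => ?_,
        fun t l => ?_, fun l => ?_⟩
      · rw [hrep]
        refine hint _ ?_ l
        simp only [Y, Finset.mem_union]
        exact Or.inl (Or.inr (Finset.mem_biUnion.mpr ⟨i, Finset.mem_univ i, Finset.mem_biUnion.mpr
          ⟨j, Finset.mem_univ j, Finset.mem_image_of_mem _ (Finset.mem_univ t)⟩⟩))
      · rw [hrep]
        refine hint _ ?_ l
        simp only [Y, Finset.mem_union]
        exact Or.inr (Finset.mem_biUnion.mpr ⟨i, Finset.mem_univ i, Finset.mem_biUnion.mpr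
          ⟨j, Finset.mem_univ j, Finset.mem_image_of_mem _ (Finset.mem_univ t)⟩⟩)
      · simp only [hb', Algebra.TensorProduct.tmul_mul_tmul, one_mul]
        rw [← TensorProduct.tmul_sum, hxy]
        split_ifs
        · rfl
        · exact TensorProduct.tmul_zero _ _)
  refine ⟨(g : L ⊗[K] A →+* _).comp
    ((Algebra.TensorProduct.includeRight : A →ₐ[K] L ⊗[K] A) : A →+* L ⊗[K] A), fun c => ?_⟩
  have h1 : (1 : L) ⊗ₜ[K] (algebraMap K A c) = algebraMap L (L ⊗[K] A) (φ c) := by
    rw [Algebra.TensorProduct.algebraMap_apply, Algebra.algebraMap_eq_smul_one,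
      ← TensorProduct.smul_tmul, Algebra.smul_def, mul_one]
    rfl
  change g ((1 : L) ⊗ₜ[K] (algebraMap K A c)) = _
  rw [h1, AlgHom.commutes]

section num

variable {k K : Type} [Field k] [NumberField k] [Field K] [Algebra k K] [StarRing K]

theorem finite_big (c : k) :
    {v : HeightOneSpectrum (𝓞 k) | ¬ ‖algebraMap k (v.adicCompletion k) c‖ ≤ 1}.Finite := by
  refine (HeightOneSpectrum.Support.finite (𝓞 k) c).subset fun v hv => ?_
  rw [Set.mem_ofPred_eq, Even.norm_le_one_iff, Even.valued_alg, not_le] at hv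
  exact hv

theorem finite_big' (hfix : ∀ x : K, star x = x ↔ x ∈ Set.range (algebraMap k K)) (z : K) :
    {v : HeightOneSpectrum (𝓞 k) | ∃ φ : K →ₐ[k] v.adicCompletion k, ¬ ‖φ z‖ ≤ 1}.Finite := by
  obtain ⟨t, ht⟩ := (hfix (z + star z)).mp (by rw [star_add, star_star, add_comm])
  obtain ⟨m, hm⟩ := (hfix (z * star z)).mp (by rw [star_mul, star_star])
  refine ((finite_big t).union (finite_big m)).subset ?_
  rintro v ⟨φ, hcon⟩
  by_contra h
  simp only [Set.mem_union, Set.mem_ofPred_eq, not_or, not_not] at h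
  obtain ⟨h1, h2⟩ := h
  have := Even.isUltra v
  rw [← φ.commutes, ht] at h1
  rw [← φ.commutes, hm] at h2
  rw [not_le] at hcon
  have h3 : φ z * φ z = φ (z + star z) * φ z + -φ (z * star z) := by
    rw [← map_mul, ← map_mul, ← map_neg, ← map_add]
    congr 1
    ring
  have h4 : ‖φ z * φ z‖ ≤ ‖φ z‖ := by
    rw [h3]
    refine (IsUltrametricDist.norm_add_le_max _ _).trans (max_le ?_ ?_)
    · rw [norm_mul]
      exact mul_le_of_le_one_left (norm_nonneg _) h1
    · rw [norm_neg]
      exact h2.trans hcon.le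
  rw [norm_mul] at h4
  nlinarith

/-- The algebra splits at almost all places which split in the centre. -/
theorem split_ae {A : Type} [Ring A] [StarRing A] [Algebra K A] {n : ℕ} (hA : AnisA k K A n) :
    ∃ T : Set (HeightOneSpectrum (𝓞 k)), T.Finite ∧ ∀ v ∉ T, ∀ φ : K →ₐ[k] v.adicCompletion k,
      ∃ g : A →+* Matrix (Fin n) (Fin n) (v.adicCompletion k),
        ∀ c : K, g (algebraMap K A c) = algebraMap _ _ (φ c) := by
  have := hA.simple
  have := hA.central
  have hn : n ≠ 0 := by have := hA.le; omega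
  obtain ⟨Z, hZ⟩ := exists_good_set hn hA.rank
  refine ⟨⋃ z ∈ Z, {v | ∃ φ : K →ₐ[k] v.adicCompletion k, ¬ ‖φ z‖ ≤ 1},
    Z.finite_toSet.biUnion fun z _ => finite_big' hA.fixed z, fun v hv φ => ?_⟩
  let _ := Even.nnf v
  have := Even.isUltra v
  refine hZ (v.adicCompletion k) φ.toRingHom fun z hz => ?_
  by_contra h
  exact hv (Set.mem_biUnion hz ⟨φ, h⟩)

end num

section phi

variable {k K : Type} [Field k] [CharZero k] [Field K] [Algebra k K] [StarRing K]

/-- A generator of the quadratic extension. -/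
theorem exists_gen (hfix : ∀ x : K, star x = x ↔ x ∈ Set.range (algebraMap k K))
    (hne : ∃ x : K, star x ≠ x) : ∃ (d : kˣ) (θ : K), θ ≠ 0 ∧ star θ = -θ ∧
      θ ^ 2 = algebraMap k K d ∧ ¬ IsSquare (d : k) := by
  have : CharZero K := charZero_of_injective_algebraMap (algebraMap k K).injective
  obtain ⟨θ, h0, hθ⟩ := exists_skew hne
  obtain ⟨d, hd⟩ := (hfix (θ ^ 2)).mp (by rw [star_pow, hθ, neg_sq])
  have hd0 : d ≠ 0 := by
    rintro rfl
    rw [map_zero] at hd
    exact pow_ne_zero 2 h0 hd.symm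
  refine ⟨Units.mk0 d hd0, θ, h0, hθ, hd.symm, ?_⟩
  rintro ⟨r, hr⟩
  rw [Units.val_mk0] at hr
  have h1 : star (algebraMap k K r) = algebraMap k K r := (hfix _).mpr ⟨r, rfl⟩
  have h2 : (θ - algebraMap k K r) * (θ + algebraMap k K r) = 0 := by
    rw [hr, map_mul] at hd
    linear_combination -hd
  rcases mul_eq_zero.mp h2 with h3 | h3
  · have h4 := congrArg star h3
    rw [star_sub, hθ, h1, star_zero] at h4
    exact h0 (by linear_combination (h3 - h4) / 2)
  · have h4 := congrArg star h3
    rw [star_add, hθ, h1, star_zero] at h4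
    exact h0 (by linear_combination (h3 - h4) / 2)

variable (hfix : ∀ x : K, star x = x ↔ x ∈ Set.range (algebraMap k K)) {d : k} {θ : K}
  (h0 : θ ≠ 0) (hθ : star θ = -θ) (hd : θ ^ 2 = algebraMap k K d) (hns : ¬ IsSquare d)
  {F : Type} [Field F] [Algebra k F]

include hfix h0 hθ hd hns

theorem phi_split (h : IsSquare (algebraMap k F d)) : Nonempty (K →ₐ[k] F) := by
  have : CharZero K := charZero_of_injective_algebraMap (algebraMap k K).injective
  obtain ⟨r, hr⟩ := h
  obtain ⟨j, -⟩ := Even.exists_hom (L := F) hns hd (fix_span hfix h0 hθ) (sL := r)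
    (by rw [hr, pow_two])
  exact ⟨j⟩

theorem phi_ns {L : Type} [Field L] [StarRing L] [Algebra F L]
    (hF : ∀ c : F, star (algebraMap F L c) = algebraMap F L c) {s : L} (hs : star s = -s)
    (hs2 : s ^ 2 = algebraMap F L (algebraMap k F d)) :
    ∃ φ : K →+* L, (∀ x, φ (star x) = star (φ x)) ∧
      ∀ c : k, φ (algebraMap k K c) = algebraMap F L (algebraMap k F c) := by
  have : CharZero K := charZero_of_injective_algebraMap (algebraMap k K).injective
  let _ : Algebra k L := ((algebraMap F L).comp (algebraMap k F)).toAlgebra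
  obtain ⟨j, hj⟩ := Even.exists_hom (L := L) hns hd (fix_span hfix h0 hθ) (sL := s) hs2
  have hc : ∀ c : k, j (algebraMap k K c) = algebraMap F L (algebraMap k F c) := j.commutes
  refine ⟨j.toRingHom, fun x => ?_, hc⟩
  obtain ⟨a, b, rfl⟩ := fix_span hfix h0 hθ x
  change j _ = star (j _)
  rw [star_add, star_mul', (hfix _).mpr ⟨a, rfl⟩, (hfix _).mpr ⟨b, rfl⟩, hθ, map_add, map_add,
    map_mul, map_mul, map_neg, hj, hc, hc, star_add, star_mul', hF, hF, hs]

end phi

/-- Division algebras with an involution of the second kind over a local field are fields. -/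
theorem rank_one {F L : Type} [NontriviallyNormedField F] [CharZero F] [IsUltrametricDist F]
    [ProperSpace F] (hF : Even.IndexTwo F) [Field L] [StarRing L] [Algebra F L]
    (hfix : ∀ x : L, star x = x ↔ x ∈ Set.range (algebraMap F L)) {d : Fˣ}
    (hd : ¬ IsSquare (d : F)) {s : L} (hs : star s = -s) (hs2 : s ^ 2 = algebraMap F L d)
    (Δ : Type) [DivisionRing Δ] [Algebra L Δ] [FiniteDimensional L Δ] [Algebra.IsCentral L Δ]
    (t : Δ → Δ) (h1 : ∀ x y, t (x + y) = t x + t y) (h2 : ∀ x y, t (x * y) = t y * t x)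
    (h3 : ∀ x, t (t x) = x) (h4 : ∀ (c : L) x, t (c • x) = star c • t x) : finrank L Δ = 1 := by
  have : CharZero L := charZero_of_injective_algebraMap (algebraMap F L).injective
  have hs0 : s ≠ 0 := by
    rintro rfl
    rw [zero_pow two_ne_zero, eq_comm, map_eq_zero] at hs2
    exact d.ne_zero hs2
  have hne : ∃ x : L, star x ≠ x := ⟨s, fun h => hs0 (by
    rw [hs] at h
    linear_combination (-1 / 2 : L) * h)⟩
  let _ : Algebra F Δ := ((algebraMap L Δ).comp (algebraMap F L)).toAlgebra'
    fun c x => Algebra.commutes _ x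
  have hal : ∀ c : F, algebraMap F Δ c = algebraMap L Δ (algebraMap F L c) := fun c => rfl
  have : IsScalarTower F L Δ := IsScalarTower.of_algebraMap_eq hal
  have : Module.Finite F L := Module.finite_of_finrank_pos (by rw [fix_rank hfix hne]; omega)
  have : FiniteDimensional F Δ := FiniteDimensional.trans F L Δ
  have ht1 : t 1 = 1 := by
    have h5 := h2 1 (t 1)
    rw [one_mul, h3, one_mul] at h5
    exact h5.symm
  have htL : ∀ c : L, t (algebraMap L Δ c) = algebraMap L Δ (star c) := fun c => by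
    rw [Algebra.algebraMap_eq_smul_one, h4, ht1, Algebra.algebraMap_eq_smul_one]
  have hF' : ∀ c : F, star (algebraMap F L c) = algebraMap F L c := fun c => (hfix _).mpr ⟨c, rfl⟩
  let τ : Δ →ₗ[F] Δ :=
    { toFun := t
      map_add' := h1
      map_smul' := fun c x => by
        rw [RingHom.id_apply, ← algebraMap_smul L c x, h4, hF', algebraMap_smul] }
  have hcen : ∀ z : Δ, (∀ x, x * z = z * x) → z ∈ Set.range (algebraMap L Δ) := fun z hz => by
    have h5 : z ∈ Subalgebra.center L Δ := Subalgebra.mem_center_iff.mpr hz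
    rwa [Algebra.IsCentral.center_eq_bot, Algebra.mem_bot] at h5
  have SK : Even.SecondKind F Δ d (algebraMap L Δ s) τ :=
    { ns := hd
      sq := by rw [← map_pow, hs2, hal]
      central := fun x => (Algebra.commutes s x).symm
      center := fun z hz => by
        obtain ⟨c, rfl⟩ := hcen z hz
        obtain ⟨a, b, rfl⟩ := fix_span hfix hs0 hs c
        exact ⟨a, b, by rw [map_add, map_mul, hal, hal]⟩
      mul := h2
      invol := h3
      neg := by
        change t _ = _
        rw [htL, hs, map_neg] }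
  have h5 := SK.comm (Even.LocDiv.finrank_center_le_four F Δ t h1 h2
    fun c => by rw [hal, htL, hF']) hF
  rw [finrank_eq_one_iff_of_nonzero' (1 : Δ) one_ne_zero]
  intro w
  obtain ⟨c, rfl⟩ := hcen w fun x => h5 x w
  exact ⟨c, (Algebra.algebraMap_eq_smul_one c).symm⟩

section place

variable {k K A Ω : Type} [Field k] [NumberField k] [Field K] [Algebra k K] [StarRing K] [Ring A]
  [StarRing A] [Algebra k A] [Algebra K A] [IsScalarTower k K A] [StarModule K A] [Field Ω]
  [Algebra K Ω] [FiniteDimensional k A] {n : ℕ}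

/-- Finite places. -/
theorem fin_place (hA : AnisA k K A n) (f : A →ₐ[K] Matrix (Fin n) (Fin n) Ω)
    (v : HeightOneSpectrum (𝓞 k)) : Nonempty (K →ₐ[k] v.adicCompletion k) ∨
      ∃ M : Mod k A (v.adicCompletion k), M.Iso (H925.Full.GK f) := by
  obtain ⟨d, θ, h0, hθ, hd, hns⟩ := exists_gen hA.fixed hA.star_ne
  by_cases hsq : IsSquare (algebraMap k (v.adicCompletion k) (d : k))
  · exact Or.inl (phi_split hA.fixed h0 hθ hd hns hsq)
  right
  have := hA.simple
  have := hA.central
  have : Module.Finite K A := Module.Finite.of_restrictScalars_finite k K A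
  let _ := Even.nnf v
  have := Even.isUltra v
  let F := v.adicCompletion k
  let dF : F := algebraMap k F (d : k)
  have := Even.fact_of_not_square hsq
  let L := QuadraticAlgebra F dF 0
  let s : L := ⟨0, 1⟩
  have hs2 : s ^ 2 = algebraMap F L dF := Even.omega_sq' dF
  have hs : star s = -s := Even.star_omega
  have hfix : ∀ x : L, star x = x ↔ x ∈ Set.range (algebraMap F L) := Even.fix_qa
  have hF : ∀ c : F, star (algebraMap F L c) = algebraMap F L c := fun c => (hfix _).mpr ⟨c, rfl⟩
  have : CharZero L := charZero_of_injective_algebraMap (algebraMap F L).injective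
  have hs0 : s ≠ 0 := by
    intro h
    rw [h, zero_pow two_ne_zero, eq_comm, map_eq_zero, map_eq_zero] at hs2
    exact d.ne_zero hs2
  have hne : ∃ x : L, star x ≠ x := ⟨s, fun h => hs0 (by
    rw [hs] at h
    linear_combination (-1 / 2 : L) * h)⟩
  obtain ⟨φ, hφ, hk⟩ := phi_ns hA.fixed h0 hθ hd hns hF hs hs2
  obtain ⟨g, hg⟩ := H73.SplitInv.exists_split φ hφ hne hA.rank
    (rank_one (Even.indexTwo v) hfix (d := Even.iu v d) hsq hs hs2)
  obtain ⟨P, M, hM, -⟩ := ns_model hA f hfix φ hφ hk g hg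
  refine ⟨M, hM ?_⟩
  obtain ⟨e, hQ⟩ := Even.exists_quadL hfix (fix_rank hfix hne)
  obtain ⟨z, z', hz⟩ := Two.Fr.exists_hp hQ
    (Two.univ2 (fun h => hsq ((Even.isSquare_iff v d).mpr h)) hfix hs hs2)
    (Even.rowHF P.H P.herm) (Even.rowHF_nondeg P.H P.herm P.det)
    (by rw [Module.finrank_fin_fun]; exact hA.le)
  refine ⟨z, ?_, (Two.bh_eq P.H P.herm z z).symm.trans hz.zz⟩
  rintro rfl
  have h1 := hz.one
  rw [Two.bh_eq, Two.bh, zero_dotProduct] at h1
  exact zero_ne_one h1

/-- Infinite places. -/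
theorem inf_place (hA : AnisA k K A n) (f : A →ₐ[K] Matrix (Fin n) (Fin n) Ω)
    (w : InfinitePlace k) : Nonempty (K →ₐ[k] w.Completion) ∨
      ∃ M : Mod k A w.Completion, M.Iso (H925.Full.GK f) ∨ M.Bnd (H925.Full.GK f) := by
  obtain ⟨d, θ, h0, hθ, hd, hns⟩ := exists_gen hA.fixed hA.star_ne
  by_cases hsq : IsSquare (algebraMap k w.Completion (d : k))
  · exact Or.inl (phi_split hA.fixed h0 hθ hd hns hsq)
  right
  have := hA.simple
  have := hA.central
  have : Module.Finite K A := Module.Finite.of_restrictScalars_finite k K A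
  let F := w.Completion
  let _ : Algebra F ℂ := (InfinitePlace.Completion.extensionEmbedding w).toAlgebra
  obtain ⟨s, hs2⟩ := IsAlgClosed.exists_pow_nat_eq (algebraMap F ℂ (algebraMap k F (d : k)))
    two_pos
  have hsn : s ∉ Set.range (algebraMap F ℂ) := by
    rintro ⟨r, rfl⟩
    exact hsq ⟨r, (algebraMap F ℂ).injective (by rw [← hs2, map_mul, pow_two])⟩
  have hw : w.IsReal := by
    by_contra h
    exact hsn (InfinitePlace.Completion.surjective_extensionEmbedding_of_isComplex
      (InfinitePlace.not_isReal_iff_isComplex.mp h) s)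
  have hfix : ∀ x : ℂ, star x = x ↔ x ∈ Set.range (algebraMap F ℂ) := by
    intro x
    rw [Complex.star_def, Complex.conj_eq_iff_real]
    constructor
    · rintro ⟨r, rfl⟩
      obtain ⟨y, rfl⟩ := InfinitePlace.Completion.surjective_extensionEmbeddingOfIsReal hw r
      exact ⟨y, (InfinitePlace.Completion.extensionEmbeddingOfIsReal_apply hw y).symm⟩
    · rintro ⟨y, rfl⟩
      exact ⟨_, (InfinitePlace.Completion.extensionEmbeddingOfIsReal_apply hw y).symm⟩
  have hF : ∀ c : F, star (algebraMap F ℂ c) = algebraMap F ℂ c := fun c => (hfix _).mpr ⟨c, rfl⟩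
  have hs : star s = -s := by
    have h1 : (star s - s) * (star s + s) = 0 := by
      have h2 := congrArg star hs2
      rw [star_pow, hF, ← hs2] at h2
      linear_combination h2
    rcases mul_eq_zero.mp h1 with h2 | h2
    · exact absurd ((hfix s).mp (sub_eq_zero.mp h2)) hsn
    · exact eq_neg_of_add_eq_zero_left h2
  obtain ⟨φ, hφ, hk⟩ := phi_ns hA.fixed h0 hθ hd hns hF hs hs2
  let _ : Algebra K ℂ := φ.toAlgebra
  obtain ⟨g⟩ := H268.exists_split_sepClosed (K := K) (A := A) (E := ℂ) hA.rank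
  obtain ⟨P, M, hM, hM'⟩ := ns_model hA f hfix φ hφ hk g.toRingHom g.commutes
  refine ⟨M, ?_⟩
  by_cases h : ∀ z : Fin n → ℂ, z ⬝ᵥ (P.H *ᵥ star z) = 0 → z = 0
  · exact Or.inr (hM' h)
  · push Not at h
    obtain ⟨z, h1, h2⟩ := h
    exact Or.inl (hM ⟨z, h2, h1⟩)

/-- There are places outside a finite set which split in the centre. -/
theorem exists_split_place (hA : AnisA k K A n) (T : Set (HeightOneSpectrum (𝓞 k)))
    (hT : T.Finite) : ∃ v ∉ T, Nonempty (K →ₐ[k] v.adicCompletion k) := by
  obtain ⟨d, θ, h0, hθ, hd, hns⟩ := exists_gen hA.fixed hA.star_ne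
  obtain ⟨v, hv, h⟩ := H63.exists_ls d T hT
  exact ⟨v, hv, phi_split hA.fixed h0 hθ hd hns ((Even.isSquare_iff v d).mpr h)⟩

/-- The local data from the models at the places which split in the centre. -/
theorem locData_of (hA : AnisA k K A n) (f : A →ₐ[K] Matrix (Fin n) (Fin n) Ω)
    (h1 : ∀ (F : Type) [Field F] [Algebra k F], (K →ₐ[k] F) →
      ∃ M : Mod k A F, M.Iso (H925.Full.GK f) ∨ M.Bnd (H925.Full.GK f))
    (h2 : ∀ (F : Type) [Field F] [Algebra k F] (φ : K →ₐ[k] F)
      (g : A →+* Matrix (Fin n) (Fin n) F), (∀ c : K, g (algebraMap K A c) = algebraMap _ _ (φ c)) →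
      ∃ M : Mod k A F, M.Iso (H925.Full.GK f) ∧ M.Gen) :
    LocData k A (H925.Full.GK f) := by
  obtain ⟨T, hT, hs⟩ := split_ae hA
  refine ⟨fun v => ?_, fun w => ?_, hT.subset fun v hv => ?_, ?_⟩
  · rcases fin_place hA f v with ⟨⟨φ⟩⟩ | ⟨M, hM⟩
    · exact h1 _ φ
    · exact ⟨M, Or.inl hM⟩
  · rcases inf_place hA f w with ⟨⟨φ⟩⟩ | h
    · exact h1 _ φ
    · exact h
  · by_contra h
    rcases fin_place hA f v with ⟨⟨φ⟩⟩ | h3
    · obtain ⟨g, hg⟩ := hs v h φ
      obtain ⟨M, hM, -⟩ := h2 _ φ g hg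
      exact hv ⟨M, hM⟩
    · exact hv h3
  · obtain ⟨v, hv, ⟨φ⟩⟩ := exists_split_place hA T hT
    obtain ⟨g, hg⟩ := hs v hv φ
    exact ⟨v, h2 _ φ g hg⟩

end place

end Vale.Agent.P011N.A1
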