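import Vale.Agent.P011N.A1.Defs

/-!
The model of an algebra with an involution of the second kind at a place which splits: the product
of an algebra and its opposite with the exchange involution.
-/

open Module

set_option linter.unusedSectionVars false

namespace Vale.Agent.P011N.A1.Spl

/-- The product of a ring and its opposite. -/
def Sw (B : Type) : Type := B × Bᵐᵒᵖ

section sw

variable {B : Type} [Ring B]

instance : Ring (Sw B) := inferInstanceAs (Ring (B × Bᵐᵒᵖ))

instance {F : Type} [Field F] [Algebra F B] : Algebra F (Sw B) :=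
  inferInstanceAs (Algebra F (B × Bᵐᵒᵖ))

/-- The element with two given components. -/
def Sw.mk (a b : B) : Sw B := (a, MulOpposite.op b)

/-- The first component. -/
def Sw.fst (x : Sw B) : B := Prod.fst x

/-- The second component. -/
def Sw.snd (x : Sw B) : B := (Prod.snd x).unop

theorem Sw.ext {x y : Sw B} (h1 : x.fst = y.fst) (h2 : x.snd = y.snd) : x = y :=
  Prod.ext h1 (MulOpposite.unop_injective h2)

theorem Sw.fst_mk (a b : B) : (Sw.mk a b).fst = a := rfl
theorem Sw.snd_mk (a b : B) : (Sw.mk a b).snd = b := rfl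
theorem Sw.fst_mul (x y : Sw B) : (x * y).fst = x.fst * y.fst := rfl
theorem Sw.snd_mul (x y : Sw B) : (x * y).snd = y.snd * x.snd := rfl
theorem Sw.fst_add (x y : Sw B) : (x + y).fst = x.fst + y.fst := rfl
theorem Sw.snd_add (x y : Sw B) : (x + y).snd = x.snd + y.snd := rfl
theorem Sw.fst_sub (x y : Sw B) : (x - y).fst = x.fst - y.fst := rfl
theorem Sw.snd_sub (x y : Sw B) : (x - y).snd = x.snd - y.snd := rfl
theorem Sw.fst_one : (1 : Sw B).fst = 1 := rfl
theorem Sw.snd_one : (1 : Sw B).snd = 1 := rfl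
theorem Sw.fst_zero : (0 : Sw B).fst = 0 := rfl
theorem Sw.snd_zero : (0 : Sw B).snd = 0 := rfl

theorem Sw.fst_smul {F : Type} [Field F] [Algebra F B] (c : F) (x : Sw B) :
    (c • x).fst = c • x.fst := rfl

theorem Sw.snd_smul {F : Type} [Field F] [Algebra F B] (c : F) (x : Sw B) :
    (c • x).snd = c • x.snd := rfl

instance : StarRing (Sw B) where
  star x := Sw.mk x.snd x.fst
  star_involutive _ := rfl
  star_mul _ _ := rfl
  star_add _ _ := rfl

theorem Sw.fst_star (x : Sw B) : (star x).fst = x.snd := rfl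
theorem Sw.snd_star (x : Sw B) : (star x).snd = x.fst := rfl

/-- The units as unitary elements. -/
def Sw.uni (B : Type) [Ring B] : Bˣ ≃* unitary (Sw B) where
  toFun a := ⟨Sw.mk (a : B) ((a⁻¹ : Bˣ) : B),
    Sw.ext a.inv_mul a.inv_mul, Sw.ext a.mul_inv a.mul_inv⟩
  invFun x := ⟨x.1.fst, x.1.snd, congrArg Sw.fst x.2.2, congrArg Sw.fst x.2.1⟩
  left_inv _ := Units.ext rfl
  right_inv _ := Subtype.ext rfl
  map_mul' a b := Subtype.ext (Sw.ext rfl (by
    change (((a * b)⁻¹ : Bˣ) : B) = ((b⁻¹ : Bˣ) : B) * ((a⁻¹ : Bˣ) : B)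
    rw [mul_inv_rev, Units.val_mul]))

theorem Sw.uni_val (a : Bˣ) : (Sw.uni B a : Sw B) = Sw.mk (a : B) ((a⁻¹ : Bˣ) : B) := rfl

theorem Sw.isUnit {x : Sw B} (h1 : IsUnit x.fst) (h2 : IsUnit x.snd) : IsUnit x := by
  obtain ⟨a, ha⟩ := h1
  obtain ⟨b, hb⟩ := h2
  refine ⟨⟨x, Sw.mk ((a⁻¹ : Bˣ) : B) ((b⁻¹ : Bˣ) : B), Sw.ext ?_ ?_, Sw.ext ?_ ?_⟩, rfl⟩
  · rw [Sw.fst_mul, ← ha]
    exact a.mul_inv
  · rw [Sw.snd_mul, ← hb]
    exact b.inv_mul
  · rw [Sw.fst_mul, ← ha]
    exact a.inv_mul
  · rw [Sw.snd_mul, ← hb]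
    exact b.mul_inv

theorem Sw.finrank {F : Type} [Field F] [Algebra F B] [FiniteDimensional F B] :
    finrank F (Sw B) = 2 * finrank F B := by
  have h1 : Module.finrank F Bᵐᵒᵖ = Module.finrank F B :=
    (LinearEquiv.finrank_eq (MulOpposite.opLinearEquiv F : B ≃ₗ[F] Bᵐᵒᵖ)).symm
  have h2 : Module.Finite F Bᵐᵒᵖ :=
    Module.Finite.equiv (MulOpposite.opLinearEquiv F : B ≃ₗ[F] Bᵐᵒᵖ)
  change Module.finrank F (B × Bᵐᵒᵖ) = _
  rw [Module.finrank_prod, h1, two_mul]

end sw

theorem mem_comm_map {G H : Type} [Group G] [Group H] (e : G →* H) {x : G}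
    (hx : x ∈ commutator G) : e x ∈ commutator H := by
  have h1 : (commutator G).map e ≤ commutator H := by
    rw [commutator_def, commutator_def, Subgroup.map_commutator]
    exact Subgroup.commutator_mono le_top le_top
  exact h1 ⟨x, hx, rfl⟩

theorem comm_mem {G : Type} [Group G] (a b : G) : a * b * a⁻¹ * b⁻¹ ∈ commutator G :=
  Subgroup.commutator_mem_commutator (Subgroup.mem_top a) (Subgroup.mem_top b)

/-- The degree of a field over the fixed field of an involution. -/
theorem finrank_fix {k K : Type} [Field k] [Field K] [Algebra k K] [StarRing K]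
    (hfix : ∀ x : K, star x = x ↔ x ∈ Set.range (algebraMap k K)) (hne : ∃ x : K, star x ≠ x) :
    finrank k K = 2 := by
  classical
  obtain ⟨u, hu⟩ := hne
  have hu' : u - star u ≠ 0 := sub_ne_zero.mpr hu.symm
  have hu'' : star u - u ≠ 0 := sub_ne_zero.mpr hu
  have hk : ∀ a : k, star (algebraMap k K a) = algebraMap k K a := fun a => (hfix _).mpr ⟨a, rfl⟩
  have h1 : LinearIndependent k ![(1 : K), u] := by
    rw [LinearIndependent.pair_iff]
    intro a b hab
    rw [Algebra.smul_def, Algebra.smul_def, mul_one] at hab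
    have h2 := congrArg star hab
    rw [star_add, star_mul', hk, hk, star_zero] at h2
    have h3 : algebraMap k K b * (u - star u) = 0 := by linear_combination hab - h2
    have h4 : b = 0 := (map_eq_zero _).mp ((mul_eq_zero.mp h3).resolve_right hu')
    rw [h4, map_zero, zero_mul, add_zero] at hab
    exact ⟨(map_eq_zero _).mp hab, h4⟩
  have h2 : ⊤ ≤ Submodule.span k (Set.range ![(1 : K), u]) := by
    intro y _
    obtain ⟨b, hb⟩ := (hfix ((y - star y) / (u - star u))).mp (by
      rw [star_div₀, star_sub, star_sub, star_star, star_star]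
      field_simp
      ring)
    obtain ⟨a, ha⟩ := (hfix (y - (y - star y) / (u - star u) * u)).mp (by
      rw [star_sub, star_mul', star_div₀, star_sub, star_sub, star_star, star_star]
      field_simp
      ring)
    have e : y = a • (1 : K) + b • u := by
      rw [Algebra.smul_def, Algebra.smul_def, ha, hb]
      ring
    rw [e]
    exact add_mem (Submodule.smul_mem _ _ (Submodule.subset_span ⟨0, rfl⟩))
      (Submodule.smul_mem _ _ (Submodule.subset_span ⟨1, rfl⟩))
  rw [finrank_eq_card_basis (Basis.mk h1 h2), Fintype.card_fin]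

section model

variable {k K A F B : Type} [Field k] [Field K] [Algebra k K] [StarRing K] [Ring A] [StarRing A]
  [Algebra k A] [Algebra K A] [IsScalarTower k K A] [StarModule K A] [FiniteDimensional k A]
  [Field F] [Algebra k F] [Algebra K F] [IsScalarTower k K F] [Ring B] [Algebra F B]
  [FiniteDimensional F B]

/-- A base change of `A` from `K` to `F`. -/
structure Bc (K A F B : Type) [Field K] [Ring A] [Algebra K A] [Field F] [Algebra K F] [Ring B]
    [Algebra F B] where
  i : A →+* B
  smul : ∀ (c : K) (x : A), i (c • x) = algebraMap K F c • i x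
  span : ⊤ ≤ Submodule.span F (Set.range i)
  rank : finrank F B = finrank K A

/-- The map to the product. -/
def Bc.j (C : Bc K A F B) : A →+* Sw B where
  toFun x := Sw.mk (C.i x) (C.i (star x))
  map_one' := Sw.ext (map_one C.i) (by rw [Sw.snd_mk, star_one, map_one]; rfl)
  map_mul' x y := Sw.ext (map_mul C.i x y) (by rw [Sw.snd_mk, star_mul, map_mul]; rfl)
  map_zero' := Sw.ext (map_zero C.i) (by rw [Sw.snd_mk, star_zero, map_zero]; rfl)
  map_add' x y := Sw.ext (map_add C.i x y) (by rw [Sw.snd_mk, star_add, map_add]; rfl)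

omit [StarRing K] [StarModule K A] [FiniteDimensional F B] in
theorem Bc.j_val (C : Bc K A F B) (x : A) : C.j x = Sw.mk (C.i x) (C.i (star x)) := rfl

omit [FiniteDimensional k A] [FiniteDimensional F B] in
theorem Bc.j_smul (C : Bc K A F B)
    (hfix : ∀ x : K, star x = x ↔ x ∈ Set.range (algebraMap k K)) (c : k) (x : A) :
    C.j (c • x) = algebraMap k F c • C.j x := by
  have hk : star (algebraMap k K c) = algebraMap k K c := (hfix _).mpr ⟨c, rfl⟩
  rw [← algebraMap_smul K c x, C.j_val, star_smul, hk, C.smul, C.smul,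
    ← IsScalarTower.algebraMap_apply]
  rfl

omit [FiniteDimensional F B] in
theorem Bc.top_le (C : Bc K A F B)
    (hfix : ∀ x : K, star x = x ↔ x ∈ Set.range (algebraMap k K)) (hne : ∃ x : K, star x ≠ x) :
    ⊤ ≤ Submodule.span F (Set.range fun l => C.j (Module.finBasis k A l)) := by
  obtain ⟨u, hu⟩ := hne
  have hθ : algebraMap K F (u - star u) ≠ 0 := (map_ne_zero _).mpr (sub_ne_zero.mpr hu.symm)
  set Sp := Submodule.span F (Set.range fun l => C.j (Module.finBasis k A l))
  have hj : ∀ x : A, C.j x ∈ Sp := by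
    intro x
    have e : C.j x = ∑ l, algebraMap k F ((Module.finBasis k A).repr x l) •
        C.j (Module.finBasis k A l) := by
      conv_lhs => rw [← (Module.finBasis k A).sum_repr x]
      rw [map_sum]
      exact Finset.sum_congr rfl fun l _ => C.j_smul hfix _ _
    rw [e]
    exact Submodule.sum_mem _ fun l _ => Submodule.smul_mem _ _ (Submodule.subset_span ⟨l, rfl⟩)
  have hleft : ∀ x : A, Sw.mk (C.i x) 0 ∈ Sp := by
    intro x
    have e : Sw.mk (C.i x) 0 = (algebraMap K F (u - star u))⁻¹ •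
        (C.j (u • x) - algebraMap K F (star u) • C.j x) := by
      refine Sw.ext ?_ ?_
      · rw [Sw.fst_smul, Sw.fst_sub, Sw.fst_smul, C.j_val, C.j_val, Sw.fst_mk, Sw.fst_mk, Sw.fst_mk,
          C.smul, ← sub_smul, ← map_sub, smul_smul, inv_mul_cancel₀ hθ, one_smul]
      · rw [Sw.snd_smul, Sw.snd_sub, Sw.snd_smul, C.j_val, C.j_val, Sw.snd_mk, Sw.snd_mk, Sw.snd_mk,
          star_smul, C.smul, sub_self, smul_zero]
    rw [e]
    exact Submodule.smul_mem _ _ (sub_mem (hj _) (Submodule.smul_mem _ _ (hj _)))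
  have hright : ∀ x : A, Sw.mk 0 (C.i x) ∈ Sp := by
    intro x
    have e : Sw.mk 0 (C.i x) = C.j (star x) - Sw.mk (C.i (star x)) 0 := by
      refine Sw.ext ?_ ?_
      · rw [Sw.fst_sub, C.j_val, Sw.fst_mk, Sw.fst_mk, Sw.fst_mk, sub_self]
      · rw [Sw.snd_sub, C.j_val, Sw.snd_mk, Sw.snd_mk, Sw.snd_mk, star_star, sub_zero]
    rw [e]
    exact sub_mem (hj _) (hleft _)
  let L1 : B →ₗ[F] Sw B :=
    { toFun := fun a => Sw.mk a 0
      map_add' := fun _ _ => Sw.ext rfl (add_zero _).symm
      map_smul' := fun c _ => Sw.ext rfl (smul_zero c).symm }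
  let L2 : B →ₗ[F] Sw B :=
    { toFun := fun a => Sw.mk 0 a
      map_add' := fun _ _ => Sw.ext (add_zero _).symm rfl
      map_smul' := fun c _ => Sw.ext (smul_zero c).symm rfl }
  have h1 : Submodule.span F (Set.range C.i) ≤ Sp.comap L1 := by
    rw [Submodule.span_le]
    rintro _ ⟨x, rfl⟩
    exact hleft x
  have h2 : Submodule.span F (Set.range C.i) ≤ Sp.comap L2 := by
    rw [Submodule.span_le]
    rintro _ ⟨x, rfl⟩
    exact hright x
  intro x _
  have e : x = L1 x.fst + L2 x.snd := Sw.ext (add_zero _).symm (zero_add _).symm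
  rw [e]
  exact add_mem (h1 (C.span trivial)) (h2 (C.span trivial))

/-- **The model at a place which splits.** -/
noncomputable def Bc.mod (C : Bc K A F B)
    (hfix : ∀ x : K, star x = x ↔ x ∈ Set.range (algebraMap k K)) (hne : ∃ x : K, star x ≠ x) :
    Mod k A F where
  E := Sw B
  j := C.j
  j_smul := C.j_smul hfix
  j_star x := by
    rw [C.j_val, C.j_val, star_star]
    rfl
  star_smul _ _ := rfl
  bas := basisOfTopLeSpanOfCardEqFinrank (fun l => C.j (Module.finBasis k A l))
    (C.top_le hfix hne) (by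
      rw [Fintype.card_fin, Sw.finrank, C.rank, ← finrank_fix hfix hne,
        Module.finrank_mul_finrank])
  bas_eq i := by rw [coe_basisOfTopLeSpanOfCardEqFinrank]

/-- The unitary elements in the model. -/
theorem Bc.u_eq (C : Bc K A F B)
    (hfix : ∀ x : K, star x = x ↔ x ∈ Set.range (algebraMap k K)) (hne : ∃ x : K, star x ≠ x)
    (g : unitary A) (u : Aˣ) (hu : (u : A) = g) :
    (C.mod hfix hne).u g = Sw.uni B (Units.map (C.i : A →* B) u) := by
  apply Subtype.ext
  have h1 : ((u⁻¹ : Aˣ) : A) = star (g : A) :=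
    (Units.eq_inv_of_mul_eq_one_right (by rw [hu]; exact g.2.1)).symm
  change Sw.mk (C.i g) (C.i (star (g : A))) = Sw.mk (C.i u) (C.i ((u⁻¹ : Aˣ) : A))
  rw [h1, hu]

end model

end Vale.Agent.P011N.A1.Spl
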