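import Vale.Agent.P011N.A1.LocS0
import Vale.Agent.P011.H182.GLx
import Vale.Agent.P011.H976.GLComm
import Vale.Agent.P011.H268.Csa

/-!
The local data at a place which splits.
-/

open Module Matrix TensorProduct

set_option linter.unusedSectionVars false

namespace Vale.Agent.P011N.A1.Spl

open Vale.Agent.P011.One Vale.Agent.P011.H976

/-- In a finite dimensional algebra over an infinite field, some multiple of a unit can be added to
one. -/
theorem exists_shift {F A : Type} [Field F] [CharZero F] [Ring A] [Algebra F A]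
    [FiniteDimensional F A] (a : Aˣ) :
    ∃ t : Aˣ, (∀ x : Aˣ, x * t = t * x) ∧ IsUnit (1 + ((t * a : Aˣ) : A)) := by
  classical
  have hint : IsIntegral F (-(a : A)) := Algebra.IsIntegral.isIntegral _
  have hp : minpoly F (-(a : A)) ≠ 0 := minpoly.ne_zero hint
  obtain ⟨z, hz⟩ : ∃ z : F, z ∉ insert (0 : F) (minpoly F (-(a : A))).roots.toFinset :=
    Infinite.exists_notMem_finset _
  rw [Finset.mem_insert, not_or, Multiset.mem_toFinset, Polynomial.mem_roots hp] at hz
  obtain ⟨hz0, hz⟩ := hz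
  have h1 : z ∉ spectrum F (-(a : A)) := by
    intro h
    apply hz
    have h2 := spectrum.subset_polynomial_aeval (-(a : A)) (minpoly F (-(a : A)))
      ⟨z, h, rfl⟩
    rw [minpoly.aeval] at h2
    rw [Polynomial.IsRoot.def]
    by_contra h3
    apply h2
    rw [spectrum.mem_resolventSet_iff, sub_zero]
    exact (isUnit_iff_ne_zero.mpr h3).map (algebraMap F A)
  rw [spectrum.notMem_iff, sub_neg_eq_add] at h1
  let w : Aˣ := Units.map (algebraMap F A : F →* A) (Units.mk0 z hz0)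
  have hw : ∀ x : Aˣ, w * x = x * w := fun x => Units.ext (Algebra.commutes _ _)
  refine ⟨w⁻¹, fun x => ?_, ?_⟩
  · rw [eq_inv_mul_iff_mul_eq, ← mul_assoc, hw x, mul_assoc, mul_inv_cancel, mul_one]
  · have h2 : 1 + ((w⁻¹ * a : Aˣ) : A) = ((w⁻¹ : Aˣ) : A) * (algebraMap F A z + a) := by
      rw [mul_add, Units.val_mul]
      congr 1
      exact (Units.inv_mul w).symm
    rw [h2]
    exact (Units.isUnit _).mul h1

section mat

variable {F Δ : Type} [Field F] [CharZero F] [DivisionRing Δ] [Algebra F Δ] {r : ℕ}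

/-- The nilpotent elements attached to a pair of indices. -/
def nilL (F : Type) {Δ : Type} [Field F] [DivisionRing Δ] [Algebra F Δ] {r : ℕ} (i j : Fin r) :
    Δ →ₗ[F] Sw (Matrix (Fin r) (Fin r) Δ) where
  toFun c := Sw.mk (Matrix.single i j c) (Matrix.single i j (-c))
  map_add' a b := Sw.ext (Matrix.single_add i j a b) (by
    rw [Sw.snd_mk, neg_add, Matrix.single_add]
    rfl)
  map_smul' t a := Sw.ext (Matrix.smul_single t i j a).symm (by
    rw [Sw.snd_mk, ← smul_neg, ← Matrix.smul_single]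
    rfl)

theorem nilL_val (i j : Fin r) (c : Δ) :
    nilL F i j c = Sw.mk (Matrix.single i j c) (Matrix.single i j (-c)) := rfl

theorem uni_tvu {i j : Fin r} (hij : i ≠ j) (c : Δ) :
    (Sw.uni _ (tvu hij c) : Sw (Matrix (Fin r) (Fin r) Δ)) = 1 + nilL F i j c := by
  rw [Sw.uni_val, tvu_inv]
  rfl

include F in
theorem tvu_mem_comm {i j : Fin r} (hij : i ≠ j) (c : Δ) :
    tvu hij c ∈ commutator (Matrix (Fin r) (Fin r) Δ)ˣ := by
  have : CharZero Δ := charZero_of_injective_algebraMap (algebraMap F Δ).injective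
  rw [← tvu_comm hij two_ne_zero c]
  exact comm_mem _ _

theorem dgU_single (w : Fin r → Δˣ) (i j : Fin r) (c : Δ) :
    ((dgU w : (Matrix (Fin r) (Fin r) Δ)ˣ) : Matrix (Fin r) (Fin r) Δ) * Matrix.single i j c =
      Matrix.single i j ((w i : Δ) * c) := by
  ext a b
  rw [dgU_val, Matrix.diagonal_mul]
  by_cases h : i = a ∧ j = b
  · obtain ⟨rfl, rfl⟩ := h
    rw [Matrix.single_apply_same, Matrix.single_apply_same]
  · rw [Matrix.single_apply_of_ne (h := h), Matrix.single_apply_of_ne (h := h), mul_zero]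

theorem single_dgU (w : Fin r → Δˣ) (i j : Fin r) (c : Δ) :
    Matrix.single i j c * ((dgU w : (Matrix (Fin r) (Fin r) Δ)ˣ) : Matrix (Fin r) (Fin r) Δ) =
      Matrix.single i j (c * (w j : Δ)) := by
  ext a b
  rw [dgU_val, Matrix.mul_diagonal]
  by_cases h : i = a ∧ j = b
  · obtain ⟨rfl, rfl⟩ := h
    rw [Matrix.single_apply_same, Matrix.single_apply_same]
  · rw [Matrix.single_apply_of_ne (h := h), Matrix.single_apply_of_ne (h := h), zero_mul]

/-- The torus elements which expand the nilpotent elements. -/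
theorem exists_tor {i j : Fin r} (hij : i ≠ j) {t : F} (ht : t ≠ 0) :
    ∃ τ ∈ commutator (unitary (Sw (Matrix (Fin r) (Fin r) Δ))), ∀ c : Δ,
      (τ : Sw (Matrix (Fin r) (Fin r) Δ)) * nilL F i j c = t ^ 2 • (nilL F i j c * τ) := by
  let x : Δˣ := Units.map (algebraMap F Δ : F →* Δ) (Units.mk0 t ht)
  have hx : (x : Δ) = algebraMap F Δ t := rfl
  have hx' : ((x⁻¹ : Δˣ) : Δ) = algebraMap F Δ t⁻¹ := rfl
  obtain ⟨w, hw⟩ := dgu_comm hij x
  obtain ⟨W, hW⟩ : ∃ W : Fin r → Δˣ, W = Pi.mulSingle i x * Pi.mulSingle j x⁻¹ := ⟨_, rfl⟩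
  have hi : W i = x := by
    rw [hW, Pi.mul_apply, Pi.mulSingle_eq_same, Pi.mulSingle_eq_of_ne hij, mul_one]
  have hj : W j = x⁻¹ := by
    rw [hW, Pi.mul_apply, Pi.mulSingle_eq_same, Pi.mulSingle_eq_of_ne hij.symm, one_mul]
  rw [← hW] at hw
  refine ⟨Sw.uni _ (dgU W), mem_comm_map (Sw.uni _).toMonoidHom (hw ▸ comm_mem _ _), fun c => ?_⟩
  have e1 : ∀ (a : F) (c : Δ), c * algebraMap F Δ a = a • c := fun a c => by
    rw [Algebra.smul_def, Algebra.commutes]
  refine Sw.ext ?_ ?_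
  · rw [Sw.fst_smul, Sw.fst_mul, Sw.fst_mul, Sw.uni_val, nilL_val, Sw.fst_mk, Sw.fst_mk,
      dgU_single, single_dgU, hi, hj, hx, hx', e1, ← Algebra.smul_def, Matrix.smul_single,
      smul_smul, sq, mul_inv_cancel_right₀ ht]
  · rw [Sw.snd_smul, Sw.snd_mul, Sw.snd_mul, Sw.uni_val, nilL_val, Sw.snd_mk, Sw.snd_mk, dgU_inv,
      dgU_single, single_dgU, Pi.inv_apply, Pi.inv_apply, hi, hj, inv_inv, hx, hx', e1,
      ← Algebra.smul_def, Matrix.smul_single, smul_smul, sq, mul_inv_cancel_right₀ ht]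

end mat

section sw

variable {F B : Type} [Field F] [CharZero F] [Ring B] [Algebra F B] [FiniteDimensional F B]

include F in
theorem sw_shift (S : unitary (Sw B)) : ∃ Z ∈ Subgroup.center (unitary (Sw B)),
    IsUnit (1 + ((Z * S : unitary (Sw B)) : Sw B)) := by
  obtain ⟨a, rfl⟩ := (Sw.uni B).surjective S
  obtain ⟨t, ht, htu⟩ := exists_shift (F := F) a
  refine ⟨Sw.uni B t, Subgroup.mem_center_iff.mpr fun W => ?_, ?_⟩
  · obtain ⟨w, rfl⟩ := (Sw.uni B).surjective W
    rw [← map_mul, ht, map_mul]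
  · rw [← map_mul, Sw.uni_val]
    refine Sw.isUnit htu ?_
    have e : 1 + (((t * a)⁻¹ : Bˣ) : B) = (((t * a)⁻¹ : Bˣ) : B) * (1 + ((t * a : Bˣ) : B)) := by
      rw [mul_add, mul_one, Units.inv_mul, add_comm]
    change IsUnit (1 + (((t * a)⁻¹ : Bˣ) : B))
    rw [e]
    exact (Units.isUnit _).mul htu

end sw

section model

variable {k K A F : Type} [Field k] [Field K] [Algebra k K] [StarRing K] [Ring A] [StarRing A]
  [Algebra k A] [Algebra K A] [IsScalarTower k K A] [StarModule K A] [FiniteDimensional k A]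
  [Field F] [CharZero F] [Algebra k F] [Algebra K F] [IsScalarTower k K F]

/-- Matrix algebras of degree at least two give isotropic models. -/
theorem Bc.iso {Δ : Type} [DivisionRing Δ] [Algebra F Δ] [FiniteDimensional F Δ] {r : ℕ}
    (hr : 2 ≤ r) (C : Bc K A F (Matrix (Fin r) (Fin r) Δ))
    (hfix : ∀ x : K, star x = x ↔ x ∈ Set.range (algebraMap k K)) (hne : ∃ x : K, star x ≠ x)
    {G : Subgroup (unitary A)} (hG : ∀ g ∈ G, ∃ u ∈ commutator Aˣ, (u : A) = g) :
    (C.mod hfix hne).Iso G ∧ (C.mod hfix hne).Gen := by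
  classical
  have hΔ : CharZero Δ := charZero_of_injective_algebraMap (algebraMap F Δ).injective
  let e := Sw.uni (Matrix (Fin r) (Fin r) Δ)
  have hcm : ∀ {H : Subgroup (unitary (Sw (Matrix (Fin r) (Fin r) Δ)))},
      commutator (Matrix (Fin r) (Fin r) Δ)ˣ ≤ H.comap e.toMonoidHom →
      commutator (unitary (Sw (Matrix (Fin r) (Fin r) Δ))) ≤ H := by
    intro H hH x hx
    have h1 := hH (mem_comm_map e.symm.toMonoidHom hx)
    rw [Subgroup.mem_comap] at h1
    rwa [← e.apply_symm_apply x]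
  have htv : ∀ {i j : Fin r} (hij : i ≠ j) (c : Δ),
      ∃ x ∈ commutator (unitary (Sw (Matrix (Fin r) (Fin r) Δ))),
        (x : Sw (Matrix (Fin r) (Fin r) Δ)) = 1 + nilL F i j c := fun hij c =>
    ⟨e (tvu hij c), mem_comm_map e.toMonoidHom (tvu_mem_comm (F := F) hij c), uni_tvu hij c⟩
  have hloc : ∀ W : Subgroup (unitary (Sw (Matrix (Fin r) (Fin r) Δ))),
      (∀ g ∈ commutator (unitary (Sw (Matrix (Fin r) (Fin r) Δ))), ∀ x ∈ W, g * x * g⁻¹ ∈ W) →
      (∃ x ∈ W, x ∉ Subgroup.center (unitary (Sw (Matrix (Fin r) (Fin r) Δ)))) →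
      commutator (unitary (Sw (Matrix (Fin r) (Fin r) Δ))) ≤ W := by
    intro W hW ⟨x, hxW, hx⟩
    refine hcm (Vale.Agent.P011.H182.comm_le_of_norm hr ?_ ?_)
    · intro S T γ hγ
      have h1 := hW _ (mem_comm_map e.toMonoidHom (comm_mem S T)) _ hγ
      rw [← map_inv, ← map_mul, ← map_mul] at h1
      exact h1
    · obtain ⟨a, rfl⟩ := e.surjective x
      refine ⟨a, hxW, ?_⟩
      by_contra hcon
      push Not at hcon
      refine hx (Subgroup.mem_center_iff.mpr fun y => ?_)
      obtain ⟨b, rfl⟩ := e.surjective y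
      rw [← map_mul, ← map_mul]
      exact congrArg e (Units.ext (hcon b).symm)
  refine ⟨⟨sw_shift (F := F), hloc, ?_, ?_⟩, ?_⟩
  · intro g hg
    obtain ⟨u, hu, hug⟩ := hG g hg
    rw [C.u_eq hfix hne g u hug]
    exact mem_comm_map e.toMonoidHom (mem_comm_map _ hu)
  · let i : Fin r := ⟨0, by omega⟩
    let j : Fin r := ⟨1, by omega⟩
    have hij : i ≠ j := fun h => absurd (congrArg Fin.val h) zero_ne_one
    refine ⟨nilL F i j (1 : Δ), fun h => ?_, Sw.ext ?_ ?_, fun c => ?_, fun t ht => ?_⟩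
    · have h1 : Matrix.single i j (1 : Δ) i j = 0 := congrFun (congrFun (congrArg Sw.fst h) i) j
      rw [Matrix.single_apply_same] at h1
      exact one_ne_zero h1
    · exact Matrix.single_mul_single_of_ne _ _ _ _ hij.symm _
    · exact Matrix.single_mul_single_of_ne _ _ _ _ hij.symm _
    · obtain ⟨x, hx, hx'⟩ := htv hij (c • (1 : Δ))
      rw [map_smul] at hx'
      exact ⟨x, hx, hx'⟩
    · obtain ⟨τ, hτ, h⟩ := exists_tor (Δ := Δ) hij ht
      exact ⟨τ, hτ, h 1⟩
  · let q := Fintype.equivFin {p : Fin r × Fin r // p.1 ≠ p.2}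
    refine ⟨_, fun l => LinearMap.range (nilL F (Δ := Δ) (q.symm l).1.1 (q.symm l).1.2),
      ?_, ?_, hcm ((comm_le_Tv hr).trans ?_)⟩
    · rintro l _ ⟨c, rfl⟩
      exact htv (q.symm l).2 c
    · intro l t ht
      obtain ⟨τ, hτ, h⟩ := exists_tor (Δ := Δ) (q.symm l).2 ht
      refine ⟨τ, hτ, ?_⟩
      rintro _ ⟨c, rfl⟩
      exact h c
    · rw [Tv, Subgroup.closure_le]
      rintro _ ⟨i, j, hij, c, rfl⟩
      have h1 : nilL F i j c ∈ LinearMap.range (nilL F (Δ := Δ) (q.symm (q ⟨(i, j), hij⟩)).1.1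
          (q.symm (q ⟨(i, j), hij⟩)).1.2) := by
        rw [q.symm_apply_apply]
        exact ⟨c, rfl⟩
      exact Subgroup.subset_closure ⟨q ⟨(i, j), hij⟩, nilL F i j c, h1, uni_tvu hij c⟩

/-- Division algebras give anisotropic models. -/
theorem Bc.bnd {Δ : Type} [DivisionRing Δ] [Algebra F Δ] [FiniteDimensional F Δ]
    (C : Bc K A F Δ)
    (hfix : ∀ x : K, star x = x ↔ x ∈ Set.range (algebraMap k K)) (hne : ∃ x : K, star x ≠ x)
    {G : Subgroup (unitary A)} (hG : ∀ g ∈ G, ∃ u ∈ commutator Aˣ, (u : A) = g) :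
    (C.mod hfix hne).Bnd G := by
  refine Or.inr ⟨Δ, inferInstance, inferInstance, inferInstance,
    { toFun := Sw.fst
      map_one' := rfl
      map_mul' := fun _ _ => rfl
      map_zero' := rfl
      map_add' := fun _ _ => rfl
      commutes' := fun _ => rfl }, fun x h1 h2 => Sw.ext h1 h2, fun g hg => ?_⟩
  obtain ⟨u, hu, hug⟩ := hG g hg
  have h1 := Abelianization.commutator_subset_ker
    (Units.map ((Algebra.norm F : Δ →* F).comp (C.i : A →* Δ))) hu
  change Algebra.norm F (C.i (g : A)) = 1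
  rw [← hug]
  exact congrArg Units.val h1

variable (K A F) in
/-- The tensor product. -/
noncomputable def Bc.ten [FiniteDimensional K A] : Bc K A F (F ⊗[K] A) where
  i := (Algebra.TensorProduct.includeRight : A →ₐ[K] F ⊗[K] A)
  smul c x := by
    change (1 : F) ⊗ₜ[K] (c • x) = algebraMap K F c • ((1 : F) ⊗ₜ[K] x)
    rw [← TensorProduct.smul_tmul, Algebra.smul_def, mul_one, TensorProduct.smul_tmul',
      smul_eq_mul, mul_one]
  span := by
    intro a _
    induction a using TensorProduct.induction_on with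
    | zero => exact zero_mem _
    | tmul c x =>
      have e : c ⊗ₜ[K] x = c • ((1 : F) ⊗ₜ[K] x) := by
        rw [TensorProduct.smul_tmul', smul_eq_mul, mul_one]
      rw [e]
      exact Submodule.smul_mem _ _ (Submodule.subset_span ⟨x, rfl⟩)
    | add a b ha hb => exact add_mem (ha trivial) (hb trivial)
  rank := Module.finrank_baseChange

/-- Transport along an isomorphism. -/
def Bc.map {B B' : Type} [Ring B] [Algebra F B] [Ring B'] [Algebra F B'] (C : Bc K A F B)
    (ψ : B ≃ₐ[F] B') : Bc K A F B' where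
  i := (ψ : B →+* B').comp C.i
  smul c x := by
    change ψ (C.i (c • x)) = algebraMap K F c • ψ (C.i x)
    rw [C.smul, map_smul]
  span := by
    intro y _
    have h1 : Submodule.span F (Set.range C.i) ≤
        (Submodule.span F (Set.range ((ψ : B →+* B').comp C.i))).comap ψ.toLinearMap := by
      rw [Submodule.span_le]
      rintro _ ⟨x, rfl⟩
      exact Submodule.subset_span ⟨x, rfl⟩
    obtain ⟨z, rfl⟩ := ψ.surjective y
    exact h1 (C.span trivial)
  rank := by rw [← C.rank, ψ.toLinearEquiv.finrank_eq]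

variable {n : ℕ}

/-- **Places which split, the algebra has zero divisors.** -/
theorem split_iso (hA : AnisA k K A n) {G : Subgroup (unitary A)}
    (hG : ∀ g ∈ G, ∃ u ∈ commutator Aˣ, (u : A) = g)
    (hnd : ∃ x : F ⊗[K] A, x ≠ 0 ∧ ¬ IsUnit x) : ∃ M : Mod k A F, M.Iso G ∧ M.Gen := by
  have hfd : FiniteDimensional K A := Module.Finite.of_restrictScalars_finite k K A
  have h1 := hA.central
  have h2 := hA.simple
  have h3 : IsSimpleRing (F ⊗[K] A) := Vale.Agent.P011.H268.isSimpleRing_baseChange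
  have h4 : IsArtinianRing (F ⊗[K] A) := IsArtinianRing.of_finite F _
  obtain ⟨r, hr, Δ, _, _, _, ⟨ψ⟩⟩ :=
    IsSimpleRing.exists_algEquiv_matrix_divisionRing_finite F (F ⊗[K] A)
  have hr2 : 2 ≤ r := by
    by_contra hcon
    have h5 : r = 1 := by
      have := hr.out
      omega
    subst h5
    obtain ⟨x, hx, hxu⟩ := hnd
    have h6 : ψ x 0 0 ≠ 0 := by
      intro h
      apply hx
      apply ψ.injective
      rw [map_zero]
      ext i j
      rw [Subsingleton.elim i 0, Subsingleton.elim j 0, h, Matrix.zero_apply]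
    refine hxu ((MulEquiv.isUnit_map ψ).mp ?_)
    refine ⟨⟨ψ x, Matrix.of fun _ _ => (ψ x 0 0)⁻¹, ?_, ?_⟩, rfl⟩
    · ext i j
      rw [Subsingleton.elim i 0, Subsingleton.elim j 0, Matrix.mul_apply, Fin.sum_univ_one,
        Matrix.of_apply, mul_inv_cancel₀ h6, Matrix.one_apply_eq]
    · ext i j
      rw [Subsingleton.elim i 0, Subsingleton.elim j 0, Matrix.mul_apply, Fin.sum_univ_one,
        Matrix.of_apply, inv_mul_cancel₀ h6, Matrix.one_apply_eq]
  exact ⟨_, ((Bc.ten K A F).map ψ).iso hr2 hA.fixed hA.star_ne hG⟩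

/-- **Places which split, the algebra stays a division algebra.** -/
theorem split_bnd (hA : AnisA k K A n) {G : Subgroup (unitary A)}
    (hG : ∀ g ∈ G, ∃ u ∈ commutator Aˣ, (u : A) = g)
    (hd : ¬ ∃ x : F ⊗[K] A, x ≠ 0 ∧ ¬ IsUnit x) : ∃ M : Mod k A F, M.Bnd G := by
  have hfd : FiniteDimensional K A := Module.Finite.of_restrictScalars_finite k K A
  have h2 := hA.simple
  have h3 : Nontrivial (F ⊗[K] A) := Vale.Agent.P011.H268.nontrivial_tensor
  let _ : DivisionRing (F ⊗[K] A) := DivisionRing.ofIsUnitOrEqZero fun x => by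
    by_contra hcon
    rw [not_or] at hcon
    exact hd ⟨x, hcon.2, hcon.1⟩
  exact ⟨_, (Bc.ten K A F).bnd hA.fixed hA.star_ne hG⟩

/-- **Places which split.** -/
theorem split_or (hA : AnisA k K A n) {G : Subgroup (unitary A)}
    (hG : ∀ g ∈ G, ∃ u ∈ commutator Aˣ, (u : A) = g) : ∃ M : Mod k A F, M.Iso G ∨ M.Bnd G := by
  by_cases h : ∃ x : F ⊗[K] A, x ≠ 0 ∧ ¬ IsUnit x
  · obtain ⟨M, hM, -⟩ := split_iso hA hG h
    exact ⟨M, Or.inl hM⟩
  · obtain ⟨M, hM⟩ := split_bnd hA hG h
    exact ⟨M, Or.inr hM⟩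

/-- **Places which split the centre and the algebra.** -/
theorem split_mat (hA : AnisA k K A n) {G : Subgroup (unitary A)}
    (hG : ∀ g ∈ G, ∃ u ∈ commutator Aˣ, (u : A) = g) (g : A →+* Matrix (Fin n) (Fin n) F)
    (hg : ∀ (c : K) (x : A), g (c • x) = algebraMap K F c • g x) :
    ∃ M : Mod k A F, M.Iso G ∧ M.Gen := by
  have hfd : FiniteDimensional K A := Module.Finite.of_restrictScalars_finite k K A
  have h1 := hA.central
  have h2 := hA.simple
  have h3 : IsSimpleRing (F ⊗[K] A) := Vale.Agent.P011.H268.isSimpleRing_baseChange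
  have h4 := hA.le
  have h5 : Nonempty (Fin n) := ⟨⟨0, by omega⟩⟩
  let g' : A →ₐ[K] Matrix (Fin n) (Fin n) F := AlgHom.mk' g fun c x => by
    rw [hg, algebraMap_smul]
  let ψ : F ⊗[K] A →ₐ[F] Matrix (Fin n) (Fin n) F :=
    Algebra.TensorProduct.lift (Algebra.ofId F _) g' fun c x => Algebra.commutes c (g' x)
  have h6 : Function.Injective ψ := RingHom.injective (ψ : F ⊗[K] A →+* Matrix (Fin n) (Fin n) F)
  have h7 : Function.Surjective ψ := by
    refine (LinearMap.injective_iff_surjective_of_finrank_eq_finrank (f := ψ.toLinearMap) ?_).mp h6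
    rw [Module.finrank_baseChange, hA.rank, Module.finrank_matrix, Fintype.card_fin,
      Module.finrank_self, mul_one, sq]
  exact ⟨_, ((Bc.ten K A F).map (AlgEquiv.ofBijective ψ ⟨h6, h7⟩)).iso (by omega) hA.fixed
    hA.star_ne hG⟩

end model

end Vale.Agent.P011N.A1.Spl
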