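import Vale.Agent.P011N.A1.LocAsm
import Vale.Agent.P011N.A1.LocK0
import Vale.Agent.P011.W.SukAll

/-!
The local data of the special unitary groups.
-/

open Module NumberField

namespace Vale.Agent.P011N.A1

theorem keySU : KeySU := by
  intro k K A Ω _ _ _ _ _ _ _ _ _ _ _ _ _ _ n f hA x hx
  have : CharZero K := charZero_of_injective_algebraMap (algebraMap k K).injective
  have : Module.Finite k K := Module.finite_of_finrank_pos (by
    rw [fix_rank hA.fixed hA.star_ne]; omega)
  have : FiniteDimensional ℚ K := FiniteDimensional.trans ℚ k K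
  obtain ⟨u, hu, h⟩ := Spl.key_of hA (fun D Ω' _ _ _ _ _ _ _ _ d f' hd C _ F0 hmul hsym Z hZ h => by
    have : CharZero D := charZero_of_injective_algebraMap (algebraMap K D).injective
    have : FiniteDimensional ℚ D := FiniteDimensional.trans ℚ K D
    exact Vale.Agent.P011.W.suk_all (K := K) F0 hmul hsym hd hA.star_ne f' hZ h) f x hx
  have e : Unitary.toUnits x = u := Units.ext h.symm
  rwa [e]

/-- **The local data of the special unitary groups.** -/
theorem locSU : LocSU := locSU_of keySU

end Vale.Agent.P011N.A1
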