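import Vale.Agent.P011N.A1.Wide0

/-!
Abelian subgroups of infinite rank in groups which contain powers of the Cayley transforms up to
scalars.
-/

open Module Polynomial NumberField

namespace Vale.Agent.P011N.A1

section eig

variable {K A G : Type} [Field K] [Ring A] [Algebra K A] [FiniteDimensional K A] [Group G]

/-- Wideness from two eigenvalues. -/
theorem wide_of (ι : G →* A) (hι : Function.Injective ι) (x : A) {M : Type} [Field M]
    [NumberField M] [Algebra K M] {ξ η : M} (hξ : aeval ξ (minpoly K x) = 0)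
    (hη : aeval η (minpoly K x) = 0) (hne : ξ ≠ η) (hξ0 : ξ ≠ 0) {n : ℕ} (hn : n ≠ 0)
    (hg : ∀ t : ℕ, ∃ (g : G) (c : K) (r : A), r * (1 - t • x) = 1 ∧
      ι g = c • ((1 + t • x) * r) ^ n)
    (hcen : ∀ z ∈ Subgroup.center G, ι z ∈ Set.range (algebraMap K A)) : Wide G := by
  classical
  let H : Subgroup G :=
    { carrier := {g | ι g ∈ (aeval (R := K) x).range}
      mul_mem' := fun {a b} ha hb => by
        rw [Set.mem_ofPred_eq, map_mul]
        exact mul_mem ha hb
      one_mem' := by
        rw [Set.mem_ofPred_eq, map_one]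
        exact one_mem _
      inv_mem' := fun {a} ha => inv_poly x ha (by rw [← map_mul, inv_mul_cancel, map_one]) }
  let _ : CommGroup H :=
    { (inferInstance : Group H) with
      mul_comm := by
        rintro ⟨a, p, hp⟩ ⟨b, q, hq⟩
        apply Subtype.ext
        apply hι
        change ι (a * b) = ι (b * a)
        rw [map_mul, map_mul, ← hp, ← hq]
        change aeval x p * aeval x q = aeval x q * aeval x p
        rw [← map_mul, ← map_mul, mul_comm] }
  have hev : ∀ {ζ : M}, aeval ζ (minpoly K x) = 0 → ∃ ψ : H →* M,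
      ∀ (h : H) (p : K[X]), ι h = aeval x p → ψ h = aeval ζ p := by
    intro ζ hζ
    obtain ⟨ψ, hψ⟩ := exists_eval x hζ
    refine ⟨⟨⟨fun h => ψ (ι h), ?_⟩, ?_⟩, fun h p hp => ?_⟩
    · have h1 := hψ 1
      rw [map_one, map_one] at h1
      change ψ (ι 1) = 1
      rw [map_one, h1]
    · rintro ⟨a, p, hp⟩ ⟨b, q, hq⟩
      change ψ (ι (a * b)) = ψ (ι a) * ψ (ι b)
      have hp' : aeval x p = ι a := hp
      have hq' : aeval x q = ι b := hq
      rw [map_mul, ← hp', ← hq', ← map_mul, hψ, hψ, hψ, map_mul]
    · change ψ (ι h) = _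
      rw [hp, hψ]
  obtain ⟨ψ₁, hψ₁⟩ := hev hξ
  obtain ⟨ψ₂, hψ₂⟩ := hev hη
  have hnz : ∀ (ψ : H →* M) (h : H), ψ h ≠ 0 := fun ψ h => ((Group.isUnit h).map ψ).ne_zero
  have hpos : ∀ (w : FinitePlace M) (ψ : H →* M) (h : H), 0 < w (ψ h) := fun w ψ h =>
    FinitePlace.pos_iff.mpr (hnz ψ h)
  obtain ⟨j, hj⟩ := exists_indep (H := H) (P := FinitePlace M)
    (fun w h => Real.log (w (ψ₁ h)) - Real.log (w (ψ₂ h)))
    (fun w a b => by
      rw [map_mul, map_mul, map_mul, map_mul, Real.log_mul (hpos w _ a).ne' (hpos w _ b).ne',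
        Real.log_mul (hpos w _ a).ne' (hpos w _ b).ne']
      ring)
    (fun h => by
      refine (Set.Finite.union (FinitePlace.hasFiniteMulSupport (hnz ψ₁ h))
        (FinitePlace.hasFiniteMulSupport (hnz ψ₂ h))).subset fun w hw => ?_
      by_contra hcon
      rw [Set.mem_union, not_or, Function.mem_mulSupport, Function.mem_mulSupport, not_not,
        not_not] at hcon
      apply hw
      rw [hcon.1, hcon.2, sub_self])
    (fun S => by
      have h2 : (2 : M) ≠ 0 := two_ne_zero
      have h3 : (ξ - η) / ξ ≠ 0 := div_ne_zero (sub_ne_zero.mpr hne) hξ0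
      have hb : {w : FinitePlace M | 1 < w (η / ξ)}.Finite := by
        by_cases h0 : η / ξ = 0
        · refine Set.finite_empty.subset fun w hw => ?_
          rw [Set.mem_ofPred_eq, h0, map_zero] at hw
          exact absurd hw (not_lt.mpr zero_le_one)
        · exact Set.Finite.subset (FinitePlace.hasFiniteMulSupport h0) fun w hw => ne_of_gt hw
      obtain ⟨w, hw, t, ht0, ht⟩ := exists_prime ξ hξ0 (S ∪ (((Set.Finite.union
        (FinitePlace.hasFiniteMulSupport h2) (FinitePlace.hasFiniteMulSupport h3)).union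
          hb).toFinset))
      rw [Finset.mem_union, not_or, Set.Finite.mem_toFinset, Set.mem_union, Set.mem_union, not_or,
        not_or, Function.mem_mulSupport, Function.mem_mulSupport, not_not, not_not,
        Set.mem_ofPred_eq, not_lt] at hw
      obtain ⟨hwS, ⟨hw2, hw3⟩, hw4⟩ := hw
      obtain ⟨g, c, r, hr, hgc⟩ := hg t
      have e0 : aeval x (1 - C (t : K) * X) = 1 - t • x := by
        rw [map_sub, map_one, map_mul, aeval_C, aeval_X, map_natCast, nsmul_eq_mul]
      have e1 : aeval x (1 + C (t : K) * X) = 1 + t • x := by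
        rw [map_add, map_one, map_mul, aeval_C, aeval_X, map_natCast, nsmul_eq_mul]
      obtain ⟨q, hq⟩ := inv_poly (K := K) x ⟨_, e0⟩ hr
      have hq' : aeval x q = r := hq
      have e2 : ι g = aeval x (C c * ((1 + C (t : K) * X) * q) ^ n) := by
        rw [map_mul, map_pow, map_mul, e1, hq', aeval_C, ← Algebra.smul_def, hgc]
      have e3 : ∀ {ζ : M}, aeval ζ (minpoly K x) = 0 → aeval ζ q * (1 - (t : M) * ζ) = 1 := by
        intro ζ hζ
        obtain ⟨ψ, hψ⟩ := exists_eval x hζ
        have h4 := hψ (q * (1 - C (t : K) * X))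
        have h5 := hψ 1
        rw [map_mul, hq', e0, hr, map_mul, map_sub, map_one, map_mul, aeval_C, aeval_X,
          map_natCast] at h4
        rw [map_one, map_one] at h5
        rw [← h4, h5]
      have e4 : ∀ ζ : M, aeval ζ (C c * ((1 + C (t : K) * X) * q) ^ n) =
          algebraMap K M c * ((1 + (t : M) * ζ) * aeval ζ q) ^ n := by
        intro ζ
        rw [map_mul, map_pow, map_mul, map_add, map_one, map_mul, aeval_C, aeval_C, aeval_X,
          map_natCast]
      let h : H := ⟨g, _, e2.symm⟩
      have v1 := hψ₁ h _ e2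
      have v2 := hψ₂ h _ e2
      rw [e4] at v1 v2
      refine ⟨w, hwS, h, ne_of_lt ?_⟩
      rw [sub_neg]
      refine Real.log_lt_log (hpos w _ h) ?_
      have hc : 0 < w (algebraMap K M c) := by
        rw [FinitePlace.pos_iff]
        intro h0
        apply hnz ψ₁ h
        rw [v1, h0, zero_mul]
      have a1 : w (1 - (t : M) * ξ) = 1 := by
        have e : 1 - (t : M) * ξ = 2 + -(1 + (t : M) * ξ) := by ring
        rw [e]
        exact fin_add_eq w hw2 (by rwa [map_neg_eq_map])
      have a2 : w (η / ξ * (1 + (t : M) * ξ)) < 1 := by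
        rw [map_mul]
        exact mul_lt_one_of_nonneg_of_lt_one_right hw4 (apply_nonneg w _) ht
      have a3 : w (1 + (t : M) * η) = 1 := by
        have e : 1 + (t : M) * η = (ξ - η) / ξ + η / ξ * (1 + (t : M) * ξ) := by
          field_simp
          ring
        rw [e]
        exact fin_add_eq w hw3 a2
      have a4 : w (1 - (t : M) * η) ≤ 1 := by
        have e : 1 - (t : M) * η = 2 + -(1 + (t : M) * η) := by ring
        rw [e]
        refine (w.add_le _ _).trans (max_le hw2.le ?_)
        rw [map_neg_eq_map, a3]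
      have a5 : w (aeval ξ q) = 1 := by
        have h4 := congrArg w (e3 hξ)
        rwa [map_mul, a1, mul_one, map_one] at h4
      have a6 : 1 ≤ w (aeval η q) := by
        have h4 := congrArg w (e3 hη)
        rw [map_mul, map_one] at h4
        by_contra hcon
        have h5 := mul_lt_one_of_nonneg_of_lt_one_left (apply_nonneg w (aeval η q))
          (not_le.mp hcon) a4
        exact absurd h4 h5.ne
      rw [v1, v2, map_mul, map_mul, map_pow, map_pow, map_mul, map_mul, a5, a3, mul_one, one_mul]
      refine mul_lt_mul_of_pos_left ?_ hc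
      exact (pow_lt_one₀ (apply_nonneg w _) ht hn).trans_le (one_le_pow₀ a6))
  refine ⟨H.subtype.comp j, fun a ha => hj a fun w => ?_⟩
  obtain ⟨c, hc⟩ := hcen _ ha
  have e : ι (j a) = aeval x (C c) := by
    rw [aeval_C]
    exact hc.symm
  rw [hψ₁ _ _ e, hψ₂ _ _ e, aeval_C, aeval_C, sub_self]

end eig

section poly

variable {K A : Type} [Field K] [CharZero K] [Ring A] [Algebra K A]

variable (K) in
include K in
/-- A polynomial which vanishes at all natural numbers has no linear term. -/
theorem coeff_one_eq_zero (F : A[X]) (h : ∀ t : ℕ, F.eval (t : A) = 0) : F.coeff 1 = 0 := by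
  refine (Module.forall_dual_apply_eq_zero_iff K _).mp fun l => ?_
  let q : K[X] := ∑ i ∈ Finset.range (F.natDegree + 2), monomial i (l (F.coeff i))
  have hq : q = 0 := by
    refine eq_zero_of_infinite_isRoot q
      ((Set.infinite_range_of_injective (Nat.cast_injective (R := K))).mono ?_)
    rintro _ ⟨t, rfl⟩
    have h1 := congrArg l (h t)
    rw [eval_eq_sum_range' (n := F.natDegree + 2) (by omega), map_sum, map_zero] at h1
    rw [Set.mem_ofPred_eq, IsRoot, eval_finsetSum, ← h1]
    refine Finset.sum_congr rfl fun i _ => ?_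
    have e : F.coeff i * (t : A) ^ i = ((t : K) ^ i) • F.coeff i := by
      rw [Algebra.smul_def, map_pow, map_natCast]
      exact ((Nat.cast_commute t _).pow_left i).eq.symm
    rw [eval_monomial, e, map_smul, smul_eq_mul, mul_comm]
  have h2 := congrArg (fun p : K[X] => p.coeff 1) hq
  simp only [q, finsetSum_coeff, coeff_monomial, coeff_zero] at h2
  rw [Finset.sum_eq_single 1 (fun i _ hi => if_neg hi) (fun hi => absurd (by simp) hi),
    if_pos rfl] at h2
  exact h2

theorem coeff_pow_lin (y : A) (n : ℕ) :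
    ((1 + C y * X) ^ n).coeff 0 = 1 ∧ ((1 + C y * X) ^ n).coeff 1 = n • y := by
  have h0 : (1 + C y * X).coeff 0 = 1 := by simp
  have h1 : (1 + C y * X).coeff 1 = y := by simp [coeff_one]
  induction n with
  | zero => simp [coeff_one]
  | succ n ih =>
    rw [pow_succ, mul_coeff_zero, mul_coeff_one, ih.1, ih.2, h0, h1, one_mul, one_mul, mul_one,
      succ_nsmul, add_comm]
    exact ⟨rfl, rfl⟩

variable (K) in
include K in
/-- An element which commutes with the powers of the Cayley transforms. -/
theorem comm_of_pow {y z : A} {n : ℕ} (hn : n ≠ 0)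
    (h : ∀ t : ℕ, (1 - t • y) ^ n * z * (1 + t • y) ^ n = (1 + t • y) ^ n * z * (1 - t • y) ^ n) :
    z * y = y * z := by
  have h1 := coeff_one_eq_zero K ((1 + C (-y) * X) ^ n * C z * (1 + C y * X) ^ n -
    (1 + C y * X) ^ n * C z * (1 + C (-y) * X) ^ n) (fun t => by
      let ev : A[X] →+* A := eval₂RingHom' (RingHom.id A) (t : A)
        fun a => (Nat.cast_commute t a).symm
      have hev : ∀ p : A[X], p.eval (t : A) = ev p := fun _ => rfl
      have hC : ∀ a : A, ev (C a) = a := fun a => eval₂_C _ _
      have hX : ev X = t := eval₂_X _ _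
      have e1 : ev (1 + C y * X) = 1 + t • y := by
        rw [map_add, map_one, map_mul, hC, hX, nsmul_eq_mul']
      have e2 : ev (1 + C (-y) * X) = 1 - t • y := by
        rw [map_add, map_one, map_mul, hC, hX, nsmul_eq_mul', neg_mul, sub_eq_add_neg]
      rw [hev, map_sub, map_mul, map_mul, map_mul, map_mul, map_pow, map_pow, e1, e2, hC, h,
        sub_self])
  obtain ⟨a0, a1⟩ := coeff_pow_lin y n
  obtain ⟨b0, b1⟩ := coeff_pow_lin (-y) n
  have hm : ∀ p q : A[X], (p * C z * q).coeff 1 =
      p.coeff 0 * z * q.coeff 1 + p.coeff 1 * z * q.coeff 0 := fun p q => by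
    rw [mul_coeff_one, coeff_mul_C, coeff_mul_C]
  rw [coeff_sub, hm, hm, a0, a1, b0, b1] at h1
  have h2 : ((2 * n : ℕ) : K) • (z * y - y * z) = 0 := by
    rw [Nat.cast_smul_eq_nsmul, ← h1]
    simp only [one_mul, mul_one, smul_neg, mul_neg, neg_mul, mul_smul_comm, smul_mul_assoc,
      smul_sub, two_mul, add_smul]
    abel
  rcases smul_eq_zero.mp h2 with h3 | h3
  · exact absurd (Nat.cast_eq_zero.mp h3) (mul_ne_zero two_ne_zero hn)
  · exact sub_eq_zero.mp h3

end poly

section star

variable {A : Type} [Ring A] [StarRing A]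

/-- Symmetric nilpotent elements vanish. -/
theorem sym_nil (han : ∀ x : A, star x * x = 0 → x = 0) {s : A} (hs : star s = s) :
    ∀ m : ℕ, s ^ (m + 1) = 0 → s = 0 := by
  intro m
  induction m with
  | zero => intro h; rwa [zero_add, pow_one] at h
  | succ m ih =>
    intro h
    refine ih (han _ ?_)
    have e : m + 1 + (m + 1) = m + 1 + 1 + m := by ring
    rw [star_pow, hs, ← pow_add, e, pow_add, h, zero_mul]

variable {K : Type} [Field K] [Algebra K A]

/-- Nilpotent polynomials in a skew element vanish. -/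
theorem red_of_skew (han : ∀ x : A, star x * x = 0 → x = 0) {x : A} (hx : star x = -x)
    (p : K[X]) (h : IsNilpotent (aeval x p)) : aeval x p = 0 := by
  have hc : ∀ (z : A), Commute z x → ∀ p : K[X], Commute z (aeval x p) := by
    intro z hz p
    induction p using Polynomial.induction_on' with
    | add p q hp hq => rw [map_add]; exact hp.add_right hq
    | monomial i a =>
      rw [aeval_monomial]
      exact (Algebra.commute_algebraMap_right a z).mul_right (hz.pow_right i)
  have h1 : Commute (star (aeval x p)) x := by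
    have h2 := ((hc x (Commute.refl x) p).symm.star_star)
    rw [hx] at h2
    exact Commute.neg_right_iff.mp h2
  obtain ⟨m, hm⟩ := (hc _ h1 p).isNilpotent_mul_left h
  refine han _ (sym_nil han (by rw [star_mul, star_star]) m ?_)
  rw [pow_succ, hm, zero_mul]

variable (K) in
/-- One minus a skew element is invertible. -/
theorem exists_inv [CharZero K] [FiniteDimensional K A] (han : ∀ x : A, star x * x = 0 → x = 0)
    {y : A} (hy : star y = -y) : ∃ r : A, (1 - y) * r = 1 ∧ r * (1 - y) = 1 := by
  have hinj : Function.Injective (LinearMap.mulLeft K (1 - y)) := by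
    rw [injective_iff_map_eq_zero]
    intro a ha
    rw [LinearMap.mulLeft_apply, sub_mul, one_mul, sub_eq_zero] at ha
    have h1 : star a = -(star a * y) := by
      conv_lhs => rw [ha, star_mul, hy, mul_neg]
    have h2 : (2 : K) • (star a * a) = 0 := by
      rw [two_smul]
      have h3 : star a * a = star a * (y * a) := by rw [← ha]
      have h4 : star a * a = -(star a * y) * a := by rw [← h1]
      nth_rewrite 1 [h3]
      rw [h4, neg_mul, mul_assoc, add_neg_cancel]
    exact han a ((smul_eq_zero.mp h2).resolve_left two_ne_zero)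
  obtain ⟨r, hr⟩ := LinearMap.injective_iff_surjective.mp hinj 1
  rw [LinearMap.mulLeft_apply] at hr
  refine ⟨r, hr, hinj ?_⟩
  rw [LinearMap.mulLeft_apply, LinearMap.mulLeft_apply, ← mul_assoc, hr, one_mul, mul_one]

/-- The Cayley transform is unitary. -/
theorem cayley_unit {y r : A} (hy : star y = -y) (h1 : (1 - y) * r = 1) (h2 : r * (1 - y) = 1) :
    star ((1 + y) * r) * ((1 + y) * r) = 1 ∧ (1 + y) * r * star ((1 + y) * r) = 1 := by
  have h3 : star r * (1 + y) = 1 := by
    have h := congrArg star h1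
    rwa [star_mul, star_sub, star_one, hy, sub_neg_eq_add] at h
  have h4 : (1 + y) * star r = 1 := by
    have h := congrArg star h2
    rwa [star_mul, star_sub, star_one, hy, sub_neg_eq_add] at h
  have h5 : (1 - y) * (1 + y) = (1 + y) * (1 - y) := by noncomm_ring
  have h6 : (1 + y) * r = r * (1 + y) := by
    calc (1 + y) * r = r * (1 - y) * ((1 + y) * r) := by rw [h2, one_mul]
      _ = r * ((1 - y) * (1 + y)) * r := by simp only [mul_assoc]
      _ = r * (1 + y) * ((1 - y) * r) := by rw [h5]; simp only [mul_assoc]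
      _ = r * (1 + y) := by rw [h1, mul_one]
  have h7 : star ((1 + y) * r) = star r * (1 - y) := by
    rw [star_mul, star_add, star_one, hy, sub_eq_add_neg]
  constructor
  · calc star ((1 + y) * r) * ((1 + y) * r) = star r * ((1 - y) * (1 + y)) * r := by
          rw [h7]; simp only [mul_assoc]
      _ = star r * (1 + y) * ((1 - y) * r) := by rw [h5]; simp only [mul_assoc]
      _ = 1 := by rw [h3, h1, one_mul]
  · calc (1 + y) * r * star ((1 + y) * r) = r * ((1 + y) * star r) * (1 - y) := by
          rw [h7, h6]; simp only [mul_assoc]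
      _ = 1 := by rw [h4, mul_one, h2]

/-- **Groups which contain the powers of the Cayley transforms up to scalars are wide.** -/
theorem wide_gen [NumberField K] [FiniteDimensional K A] {G : Type} [Group G] (ι : G →* A)
    (hι : Function.Injective ι) (han : ∀ x : A, star x * x = 0 → x = 0) {n : ℕ} (hn : n ≠ 0)
    (hcay : ∀ u : A, star u * u = 1 → u * star u = 1 → ∃ (g : G) (c : K), c ≠ 0 ∧ ι g = c • u ^ n)
    (hcen : ∀ z : A, (∀ y : A, star y = -y → z * y = y * z) → z ∈ Set.range (algebraMap K A))
    (hA : ∃ a : A, a ∉ Set.range (algebraMap K A)) : Wide G := by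
  have hg : ∀ y : A, star y = -y → ∀ t : ℕ, ∃ (g : G) (c : K) (r : A), c ≠ 0 ∧
      (1 - t • y) * r = 1 ∧ r * (1 - t • y) = 1 ∧ ι g = c • ((1 + t • y) * r) ^ n := by
    intro y hy t
    have h1 : star (t • y) = -(t • y) := by rw [star_nsmul, hy, smul_neg]
    obtain ⟨r, h2, h3⟩ := exists_inv K han h1
    obtain ⟨h4, h5⟩ := cayley_unit h1 h2 h3
    obtain ⟨g, c, hc, h6⟩ := hcay _ h4 h5
    exact ⟨g, c, r, hc, h2, h3, h6⟩
  obtain ⟨x, hx, hxK⟩ : ∃ x : A, star x = -x ∧ x ∉ Set.range (algebraMap K A) := by
    by_contra hcon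
    push Not at hcon
    obtain ⟨a, ha⟩ := hA
    refine ha (hcen a fun y hy => ?_)
    obtain ⟨c, rfl⟩ := hcon y hy
    exact (Algebra.commutes c a).symm
  have hnt : Nontrivial A := ⟨x, 0, fun h => hxK ⟨0, by rw [map_zero, h]⟩⟩
  obtain ⟨M, _, _, _, ξ, η, hξ, hη, hne, hξ0⟩ := exists_two x (red_of_skew han hx) hxK
  refine wide_of ι hι x hξ hη hne hξ0 hn (fun t => ?_) fun z hz => hcen _ fun y hy => ?_
  · obtain ⟨g, c, r, -, -, h2, h3⟩ := hg x hx t
    exact ⟨g, c, r, h2, h3⟩
  · refine comm_of_pow K hn fun t => ?_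
    obtain ⟨g, c, r, hc, h1, h2, h3⟩ := hg y hy t
    have h4 : ι g * ι z = ι z * ι g := by
      rw [← map_mul, ← map_mul, Subgroup.mem_center_iff.mp hz g]
    rw [h3, smul_mul_assoc, mul_smul_comm] at h4
    have h5 := smul_right_injective A hc h4
    have c0 : ∀ s : A, (1 - s) * (1 + s) = (1 + s) * (1 - s) := fun s => by noncomm_ring
    have c1 : Commute (1 - t • y) (1 + t • y) := c0 _
    have c2 : Commute (1 - t • y) r := h1.trans h2.symm
    have c3 : Commute (1 - t • y) ((1 + t • y) * r) := c1.mul_right c2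
    have e1 : (1 - t • y) ^ n * ((1 + t • y) * r) ^ n = (1 + t • y) ^ n := by
      rw [← c3.mul_pow, ← mul_assoc, c1.eq, mul_assoc, h1, mul_one]
    have e2 : ((1 + t • y) * r) ^ n * (1 - t • y) ^ n = (1 + t • y) ^ n := by
      rw [← c3.symm.mul_pow, mul_assoc, h2, mul_one]
    calc (1 - t • y) ^ n * ι z * (1 + t • y) ^ n
        = (1 - t • y) ^ n * (ι z * ((1 + t • y) * r) ^ n) * (1 - t • y) ^ n := by
          rw [← e2]; simp only [mul_assoc]
      _ = (1 - t • y) ^ n * ((1 + t • y) * r) ^ n * ι z * (1 - t • y) ^ n := by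
          rw [← h5]; simp only [mul_assoc]
      _ = (1 + t • y) ^ n * ι z * (1 - t • y) ^ n := by rw [e1]

end star

end Vale.Agent.P011N.A1
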