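import Vale.Agent.P011N.A1.Defs
import Vale.Agent.P011N.A1.Wide1
import Vale.Agent.P011.H268.Nrd

/-!
The special unitary groups and the norm-one groups of quaternion algebras over number fields
contain abelian subgroups of infinite rank which meet the centre trivially.
-/

open Module NumberField

namespace Vale.Agent.P011N.A1

/-- A field is finite over the fixed field of an involution. -/
theorem finite_fix {k K : Type} [Field k] [Field K] [Algebra k K] [StarRing K]
    (hfix : ∀ x : K, star x = x ↔ x ∈ Set.range (algebraMap k K)) (hne : ∃ x : K, star x ≠ x) :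
    Module.Finite k K := by
  classical
  obtain ⟨u, hu⟩ := hne
  have hu' : u - star u ≠ 0 := sub_ne_zero.mpr hu.symm
  have hu'' : star u - u ≠ 0 := sub_ne_zero.mpr hu
  refine ⟨⟨({1, u} : Finset K), ?_⟩⟩
  rw [eq_top_iff]
  intro y _
  obtain ⟨b, hb⟩ := (hfix ((y - star y) / (u - star u))).mp (by
    rw [star_div₀, star_sub, star_sub, star_star, star_star]
    field_simp
    ring)
  obtain ⟨a, ha⟩ := (hfix (y - (y - star y) / (u - star u) * u)).mp (by
    rw [star_sub, star_mul', star_div₀, star_sub, star_sub, star_star, star_star]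
    field_simp
    ring)
  have e : y = a • (1 : K) + b • u := by
    rw [Algebra.smul_def, Algebra.smul_def, ha, hb]
    ring
  rw [e]
  exact add_mem (Submodule.smul_mem _ _ (Submodule.subset_span (by simp)))
    (Submodule.smul_mem _ _ (Submodule.subset_span (by simp)))

/-- **The special unitary groups are wide.** -/
theorem wideSU : WideSU := by
  intro k K A Ω _ _ _ _ _ _ _ _ _ _ _ _ _ n f h
  have hfin := finite_fix h.fixed h.star_ne
  have hK : NumberField K := NumberField.of_module_finite k K
  have hn : 0 < n := by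
    have := h.le
    omega
  have hfd : FiniteDimensional K A := by
    refine FiniteDimensional.of_finrank_pos ?_
    rw [h.rank]
    exact pow_pos hn 2
  have hc := h.central
  have hs := h.simple
  have hss : ∀ c : K, star (algebraMap K A c) = algebraMap K A (star c) := fun c => by
    rw [Algebra.algebraMap_eq_smul_one, Algebra.algebraMap_eq_smul_one, star_smul, star_one]
  refine wide_gen (K := K) ((unitary A).subtype.comp (Vale.Agent.P011.H925.Full.GK f).subtype)
    (Subtype.val_injective.comp Subtype.val_injective) h.aniso hn.ne' ?_ ?_ ?_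
  · intro u h1 h2
    obtain ⟨ν, hν⟩ := Vale.Agent.P011.H268.exists_nrd hn h.rank f u
    have h3 := Vale.Agent.P011.H268.nrd_star hn h.rank hss f u hν
    have h4 : star ν * ν = 1 := by
      apply (algebraMap K Ω).injective
      rw [map_mul, ← h3, ← hν, ← Matrix.det_mul, ← map_mul, h1, map_one, map_one, Matrix.det_one]
    have h5 : ν ≠ 0 := by
      rintro rfl
      rw [mul_zero] at h4
      exact zero_ne_one h4
    have h6 : star ν⁻¹ * ν⁻¹ = 1 := by rw [star_inv₀, ← mul_inv, h4, inv_one]
    have hu : u ^ n ∈ unitary A := pow_mem (Unitary.mem_iff.mpr ⟨h1, h2⟩) n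
    refine ⟨⟨⟨ν⁻¹ • u ^ n, ?_⟩, ?_⟩, ν⁻¹, inv_ne_zero h5, rfl⟩
    · rw [Unitary.mem_iff, star_smul, smul_mul_smul_comm, smul_mul_smul_comm, hu.1, hu.2, h6,
        mul_comm, h6, one_smul]
      exact ⟨rfl, rfl⟩
    · change (f (ν⁻¹ • u ^ n)).det = 1
      rw [map_smul, map_pow, Matrix.det_smul_of_tower, Matrix.det_pow, hν, Fintype.card_fin,
        Algebra.smul_def, ← map_pow, ← map_mul, ← mul_pow, inv_mul_cancel₀ h5, one_pow, map_one]
  · intro z hz
    obtain ⟨x, hx⟩ := h.star_ne
    have hw : x - star x ≠ 0 := sub_ne_zero.mpr hx.symm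
    have hz' : z ∈ Subalgebra.center K A := by
      rw [Subalgebra.mem_center_iff]
      intro a
      have h1 := hz (a - star a) (by rw [star_sub, star_star, neg_sub])
      have h2 := hz ((x - star x) • (a + star a)) (by
        rw [star_smul, star_sub, star_add, star_star, star_star, ← neg_smul, neg_sub, add_comm])
      rw [mul_smul_comm, smul_mul_assoc] at h2
      have h3 := smul_right_injective A hw h2
      have h4 : (2 : K) • (a * z) = (2 : K) • (z * a) := by
        have e : ∀ b : A, (2 : K) • b = b + b := fun b => two_smul K b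
        rw [e, e]
        calc a * z + a * z = (a - star a) * z + (a + star a) * z := by noncomm_ring
          _ = z * (a - star a) + z * (a + star a) := by rw [h1, h3]
          _ = z * a + z * a := by noncomm_ring
      exact smul_right_injective A (two_ne_zero (α := K)) h4
    rw [Algebra.IsCentral.center_eq_bot, Algebra.mem_bot] at hz'
    exact hz'
  · by_contra hcon
    push Not at hcon
    have h1 : finrank K A ≤ 1 := finrank_le_one (1 : A) fun a => by
      obtain ⟨c, hc⟩ := hcon a
      exact ⟨c, by rw [← hc, Algebra.algebraMap_eq_smul_one]⟩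
    have h2 := h.le
    rw [h.rank] at h1
    nlinarith

/-- **The norm-one groups of quaternion division algebras are wide.** -/
theorem wideQ : WideQ := by
  intro L _ _ a b h
  have hnrd : ∀ x : Vale.Agent.P011.MPQ.Qt a b,
      (star x * x).re = Vale.Agent.P011.MPQ.nrd x := fun x => by
    simp [Vale.Agent.P011.MPQ.nrd]
    ring
  refine wide_gen (K := L) ((Units.coeHom _).comp (Vale.Agent.P011.MPQ.SL1 a b).subtype)
    (Units.val_injective.comp Subtype.val_injective) (fun x hx => h x ?_) one_ne_zero ?_ ?_ ?_
  · rw [← hnrd, hx]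
    rfl
  · intro u h1 h2
    refine ⟨⟨⟨u, star u, h2, h1⟩, ?_⟩, 1, one_ne_zero, by rw [one_smul, pow_one]; rfl⟩
    change Vale.Agent.P011.MPQ.nrd u = 1
    rw [← hnrd, h1]
    rfl
  · intro z hz
    have h1 := hz ⟨0, 1, 0, 0⟩ (by ext <;> simp)
    have h2 := hz ⟨0, 0, 1, 0⟩ (by ext <;> simp)
    have h3 := congrArg QuaternionAlgebra.imK h1
    have h4 := congrArg QuaternionAlgebra.imJ h1
    have h5 := congrArg QuaternionAlgebra.imK h2
    simp only [QuaternionAlgebra.imK_mul, QuaternionAlgebra.imJ_mul] at h3 h4 h5
    have e1 : z.imI = 0 := by linear_combination (1 / 2 : L) * h5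
    have e2 : z.imJ = 0 := by linear_combination (-1 / 2 : L) * h3
    have e3 : (a : L) * z.imK = 0 := by linear_combination (-1 / 2 : L) * h4
    have e4 : z.imK = 0 := (mul_eq_zero.mp e3).resolve_left a.ne_zero
    exact ⟨z.re, by ext <;> simp [e1, e2, e4]⟩
  · refine ⟨⟨0, 1, 0, 0⟩, ?_⟩
    rintro ⟨c, hc⟩
    have h1 := congrArg QuaternionAlgebra.imI hc
    simp at h1

end Vale.Agent.P011N.A1
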