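import Vale.Agent.P011N.A1.Glob
import Vale.Agent.P011N.A1.Wide
import Vale.Agent.P011N.N.Main

/-!
Block A1: the finiteness theorems from the local data.
-/

open Module NumberField

namespace Vale.Agent.P011N.A1

open Vale.Agent.P011

theorem MF.of_equiv {G H : Type} [Group G] [Group H] (e : G ≃* H) (h : MF G) : MF H := by
  intro N hN hc
  have h1 := h (N.comap e.toMonoidHom) (hN.comap _) fun h2 => hc fun x hx => by
    obtain ⟨y, rfl⟩ := e.surjective x
    have h3 := Subgroup.mem_center_iff.mp (h2 hx)
    refine Subgroup.mem_center_iff.mpr fun g => ?_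
    obtain ⟨z, rfl⟩ := e.surjective g
    rw [← map_mul, h3, map_mul]
  rwa [Subgroup.index_comap_of_surjective _ e.surjective] at h1

/-- **Finiteness for special unitary groups over number fields**, from the local data. -/
theorem mfnf_of (hL : LocSU) : MFNF := by
  intro k K A Ω _ _ _ _ _ _ _ _ _ _ _ _ _ n f h
  refine ⟨?_, wideSU k K A Ω n f h⟩
  have h1 : Module.Finite k K := finite_fix h.fixed h.star_ne
  have h2 : Module.Finite K A := Module.finite_of_finrank_pos (by
    rw [h.rank]
    have := h.le
    positivity)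
  have h3 : FiniteDimensional k A := Module.Finite.trans K A
  have h4 := h.simple
  have h5 : CharZero K := charZero_of_injective_algebraMap (algebraMap k K).injective
  let _ : Algebra ℚ A := RestrictScalars.algebra ℚ k A
  have h6 : FiniteDimensional ℚ A := FiniteDimensional.trans ℚ k A
  refine mf_of_loc N.nst ⟨fun c x => ?_, h.aniso⟩ ?_ (cocK h.aniso (inv_GK f)) (hL k K A Ω n f h)
  · rw [← algebraMap_smul K c x, star_smul, (h.fixed _).mpr ⟨c, rfl⟩, algebraMap_smul]
  · rw [commutator_def, Subgroup.commutator_le]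
    intro x _ y _
    have h7 : (f y).det * (f (y⁻¹ : unitary A)).det = 1 := by
      rw [← Matrix.det_mul, ← map_mul, ← Submonoid.coe_mul, mul_inv_cancel, Submonoid.coe_one,
        map_one, Matrix.det_one]
    have h8 : (f x).det * (f (x⁻¹ : unitary A)).det = 1 := by
      rw [← Matrix.det_mul, ← map_mul, ← Submonoid.coe_mul, mul_inv_cancel, Submonoid.coe_one,
        map_one, Matrix.det_one]
    change (f ((x : A) * y * (x⁻¹ : unitary A) * (y⁻¹ : unitary A))).det = 1
    rw [map_mul, map_mul, map_mul, Matrix.det_mul, Matrix.det_mul, Matrix.det_mul]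
    linear_combination (f x).det * (f (x⁻¹ : unitary A)).det * h7 + h8

section quat

variable {L : Type} [Field L] {a b : Lˣ}

theorem star_mul_self_q (x : MPQ.Qt a b) : star x * x = algebraMap L _ (MPQ.nrd x) := by
  ext <;> simp [MPQ.nrd, QuaternionAlgebra.algebraMap_eq] <;> ring

theorem mul_star_self_q (x : MPQ.Qt a b) : x * star x = algebraMap L _ (MPQ.nrd x) := by
  ext <;> simp [MPQ.nrd, QuaternionAlgebra.algebraMap_eq] <;> ring

/-- The unitary group of the canonical involution is the norm-one group. -/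
noncomputable def unitEquiv (a b : Lˣ) :
    (⊤ : Subgroup (unitary (MPQ.Qt a b))) ≃* MPQ.SL1 a b :=
  MulEquiv.ofBijective ((Unitary.toUnits.comp (Subgroup.subtype ⊤)).codRestrict _ fun x =>
    (algebraMap L (MPQ.Qt a b)).injective ((star_mul_self_q _).symm.trans
      (x.1.2.1.trans (map_one _).symm)))
    ⟨fun x y h => Subtype.ext (Unitary.toUnits_injective (congrArg Subtype.val h)), fun x => by
      have h : MPQ.nrd (x.1 : MPQ.Qt a b) = 1 := x.2
      exact ⟨⟨⟨x.1, by rw [star_mul_self_q, h, map_one], by rw [mul_star_self_q, h, map_one]⟩,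
        Subgroup.mem_top _⟩, Subtype.ext (Units.ext rfl)⟩⟩

end quat

/-- **Finiteness for norm-one groups of quaternion algebras**, from the local data. -/
theorem mfq_of (hL : LocQ) : MFQ := by
  intro L _ _ a b h
  refine ⟨MF.of_equiv (unitEquiv a b) ?_, wideQ L a b h⟩
  have h1 : ∀ x : MPQ.Qt a b, star x * x = 0 → x = 0 := fun x hx =>
    h x ((algebraMap L (MPQ.Qt a b)).injective (by rw [← star_mul_self_q, hx, map_zero]))
  have h2 : IsSimpleRing (MPQ.Qt a b) := by
    refine .of_eq_bot_or_eq_top fun I => ?_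
    rw [or_iff_not_imp_left, ← I.one_mem_iff]
    intro h3
    obtain ⟨x, hx, h4⟩ := SetLike.exists_of_lt (bot_lt_iff_ne_bot.mpr h3)
    have h5 : MPQ.nrd x ≠ 0 := fun h6 => h4 (by rw [h x h6]; exact TwoSidedIdeal.zero_mem _)
    have h6 := I.mul_mem_left (algebraMap L _ (MPQ.nrd x)⁻¹ * star x) x hx
    rwa [mul_assoc, star_mul_self_q, ← map_mul, inv_mul_cancel₀ h5, map_one] at h6
  let _ : Algebra ℚ (MPQ.Qt a b) := RestrictScalars.algebra ℚ L _
  exact mf_of_loc N.nst ⟨fun c x => by ext <;> simp, h1⟩ le_top (cocK h1 inv_top) (hL L a b h)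

end Vale.Agent.P011N.A1
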