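import Vale.Agent.P011N.A1.Defs
import Vale.Agent.P011N.A1.Abs1

/-!
Block A1: the topology of the local models, and the Cayley transform.
-/

open Module Topology Filter

set_option linter.unusedSectionVars false

namespace Vale.Agent.P011N.A1

section cay

variable {R : Type} [Ring R]

/-- The Cayley transform. -/
noncomputable def cy (x : R) : R := (1 - x) * Ring.inverse (1 + x)

theorem cy_zero : cy (0 : R) = 1 := by simp [cy]

theorem map_cy {S : Type} [Ring S] (j : R →+* S) {x : R} (hx : IsUnit (1 + x)) :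
    j (cy x) = cy (j x) := by
  obtain ⟨u, hu⟩ := hx
  have h1 : 1 + j x = (Units.map (j : R →* S) u : S) := by
    change _ = j u
    rw [hu, map_add, map_one]
  rw [cy, cy, ← hu, h1, Ring.inverse_unit, Ring.inverse_unit, map_mul, map_sub, map_one]
  rfl

variable [StarRing R]

theorem cy_mem {x : R} (h : star x = -x) (hx : IsUnit (1 + x)) : cy x ∈ unitary R := by
  obtain ⟨w, hw⟩ : ∃ w, w = Ring.inverse (1 + x) := ⟨_, rfl⟩
  have h1 : (1 + x) * w = 1 := hw ▸ Ring.mul_inverse_cancel _ hx
  have h2 : w * (1 + x) = 1 := hw ▸ Ring.inverse_mul_cancel _ hx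
  have h3 : star (1 + x) = 1 - x := by rw [star_add, star_one, h, sub_eq_add_neg]
  have h4 : star (1 - x) = 1 + x := by rw [star_sub, star_one, h, sub_neg_eq_add]
  have h5 : star w * (1 - x) = 1 := by rw [← h3, ← star_mul, h1, star_one]
  have h6 : (1 - x) * star w = 1 := by rw [← h3, ← star_mul, h2, star_one]
  have h7 : (1 + x) * (1 - x) = (1 - x) * (1 + x) := by noncomm_ring
  have h8 : (1 - x) * w = w * (1 - x) := by
    calc (1 - x) * w = (w * (1 + x)) * (1 - x) * w := by rw [h2, one_mul]
      _ = w * ((1 + x) * (1 - x)) * w := by simp only [mul_assoc]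
      _ = w * (1 - x) * ((1 + x) * w) := by rw [h7]; simp only [mul_assoc]
      _ = _ := by rw [h1, mul_one]
  rw [cy, ← hw, Unitary.mem_iff, star_mul, h4]
  constructor
  · calc star w * (1 + x) * ((1 - x) * w) = star w * ((1 + x) * (1 - x)) * w := by
          simp only [mul_assoc]
      _ = (star w * (1 - x)) * ((1 + x) * w) := by rw [h7]; simp only [mul_assoc]
      _ = 1 := by rw [h5, h1, one_mul]
  · calc (1 - x) * w * (star w * (1 + x)) = w * ((1 - x) * star w) * (1 + x) := by
          rw [h8]; simp only [mul_assoc]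
      _ = 1 := by rw [h6, mul_one, h2]

/-- Unitary elements without the eigenvalue `-1` are Cayley transforms. -/
theorem exists_cy {F : Type} [Field F] [CharZero F] [Algebra F R] {s : R} (hs : s ∈ unitary R)
    (hu : IsUnit (1 + s)) : ∃ x : R, star x = -x ∧ IsUnit (1 + x) ∧ cy x = s := by
  obtain ⟨w, hw⟩ : ∃ w, w = Ring.inverse (1 + s) := ⟨_, rfl⟩
  have h1 : (1 + s) * w = 1 := hw ▸ Ring.mul_inverse_cancel _ hu
  have h2 : w * (1 + s) = 1 := hw ▸ Ring.inverse_mul_cancel _ hu
  have h3 : star w * (1 + star s) = 1 := by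
    rw [← star_one R, ← star_add, ← star_mul, star_one, h1, star_one]
  have h4 : star w = w * s := by
    have e : (1 + star s) * s = 1 + s := by rw [add_mul, one_mul, hs.1, add_comm]
    calc star w = star w * ((1 + star s) * s) * w := by rw [e, mul_assoc, h1, mul_one]
      _ = s * w := by rw [← mul_assoc, h3, one_mul]
      _ = (w * (1 + s)) * s * w := by rw [h2, one_mul]
      _ = w * s * ((1 + s) * w) := by noncomm_ring
      _ = _ := by rw [h1, mul_one]
  have h5 : 1 + (1 - s) * w = (2 : F) • w := by
    rw [two_smul]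
    calc 1 + (1 - s) * w = (1 + s) * w + (1 - s) * w := by rw [h1]
      _ = _ := by noncomm_ring
  have h6 : 1 - (1 - s) * w = (2 : F) • (s * w) := by
    rw [two_smul]
    calc 1 - (1 - s) * w = (1 + s) * w - (1 - s) * w := by rw [h1]
      _ = _ := by noncomm_ring
  let u : Rˣ := ⟨(2 : F) • w, (2 : F)⁻¹ • (1 + s),
    by rw [smul_mul_smul_comm, h2, mul_inv_cancel₀ two_ne_zero, one_smul],
    by rw [smul_mul_smul_comm, h1, inv_mul_cancel₀ two_ne_zero, one_smul]⟩
  refine ⟨(1 - s) * w, ?_, h5 ▸ u.isUnit, ?_⟩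
  · rw [star_mul, h4, star_sub, star_one, mul_assoc, mul_sub, mul_one, hs.2]
    calc w * (s - 1) = w * (s - 1) * ((1 + s) * w) := by rw [h1, mul_one]
      _ = (w * (1 + s)) * (s - 1) * w := by noncomm_ring
      _ = _ := by rw [h2]; noncomm_ring
  · have h7 : Ring.inverse ((2 : F) • w) = (2 : F)⁻¹ • (1 + s) := Ring.inverse_unit u
    rw [cy, h5, h6, h7, smul_mul_smul_comm, mul_inv_cancel₀ two_ne_zero, one_smul, mul_assoc, h2,
      mul_one]

end cay

/-- The involution is linear and anisotropic. -/
structure An (k A : Type) [Field k] [Ring A] [StarRing A] [Algebra k A] : Prop where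
  star_smul : ∀ (c : k) (x : A), star (c • x) = c • star x
  aniso : ∀ x : A, star x * x = 0 → x = 0

section global

variable {k A : Type} [Field k] [CharZero k] [Ring A] [StarRing A] [Algebra k A]
  [FiniteDimensional k A]

theorem An.isUnit (h : An k A) {x : A} (hx : star x = -x) : IsUnit (1 + x) := by
  rw [← Algebra.lmul_isUnit_iff (R := k), LinearMap.isUnit_iff_ker_eq_bot, LinearMap.ker_eq_bot']
  intro y hy
  have h1 : (1 + x) * y = 0 := hy
  have h2 : star y * (1 - x) = 0 := by
    have h3 := congrArg star h1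
    rwa [star_mul, star_add, star_one, hx, star_zero, ← sub_eq_add_neg] at h3
  apply h.aniso
  have h3 : (2 : k) • (star y * y) = 0 := by
    rw [two_smul]
    calc star y * y + star y * y = star y * ((1 + x) * y) + (star y * (1 - x)) * y := by
          noncomm_ring
      _ = 0 := by rw [h1, h2, mul_zero, zero_mul, add_zero]
  exact (smul_eq_zero.mp h3).resolve_left two_ne_zero

theorem An.skew (h : An k A) (x : A) :
    star ((2 : k)⁻¹ • (x - star x)) = -((2 : k)⁻¹ • (x - star x)) := by
  rw [h.star_smul, star_sub, star_star, ← smul_neg, neg_sub]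

/-- The Cayley transform of the skew part. -/
noncomputable def An.cay (h : An k A) (x : A) : unitary A :=
  ⟨cy ((2 : k)⁻¹ • (x - star x)), cy_mem (h.skew x) (h.isUnit (h.skew x))⟩

end global

section model

variable {k A F : Type} [Field k] [Ring A] [StarRing A] [Algebra k A] [FiniteDimensional k A]
  [NontriviallyNormedField F] [Algebra k F] (M : Mod k A F)

attribute [local instance] Matrix.linftyOpNormedRing Matrix.linftyOpNormedAlgebra in
noncomputable instance Mod.nr : NormedRing M.E :=
  NormedRing.induced M.E (Matrix (Fin (finrank k A)) (Fin (finrank k A)) F)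
    (Algebra.leftMulMatrix M.bas) (Algebra.leftMulMatrix_injective M.bas)

attribute [local instance] Matrix.linftyOpNormedRing Matrix.linftyOpNormedAlgebra in
noncomputable instance Mod.na : NormedAlgebra F M.E :=
  { M.alg with
    norm_smul_le := fun c x => by
      change ‖Algebra.leftMulMatrix M.bas (c • x)‖ ≤ ‖c‖ * ‖Algebra.leftMulMatrix M.bas x‖
      rw [map_smul]
      exact norm_smul_le c _ }

instance Mod.fd : FiniteDimensional F M.E := Module.Finite.of_basis M.bas

/-- The involution as a linear map. -/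
def Mod.st : M.E →ₗ[F] M.E where
  toFun := star
  map_add' := star_add
  map_smul' := M.star_smul

/-- The matrix entries of the left multiplication. -/
noncomputable def Mod.ent : M.E →ₗ[F] (Fin (finrank k A) × Fin (finrank k A) → F) where
  toFun x p := Algebra.leftMulMatrix M.bas x p.1 p.2
  map_add' x y := by
    funext p
    rw [map_add]
    rfl
  map_smul' c x := by
    funext p
    rw [map_smul]
    rfl

theorem Mod.ent_inj : Function.Injective M.ent := fun x y h =>
  Algebra.leftMulMatrix_injective M.bas (by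
    ext i l
    exact congrFun h (i, l))

theorem Mod.repr_j (x : A) (i : Fin (finrank k A)) :
    M.bas.repr (M.j x) i = algebraMap k F ((Module.finBasis k A).repr x i) := by
  have h1 : M.j x = ∑ l, algebraMap k F ((Module.finBasis k A).repr x l) • M.bas l := by
    conv_lhs => rw [← (Module.finBasis k A).sum_repr x]
    rw [map_sum]
    exact Finset.sum_congr rfl fun l _ => by rw [M.j_smul, M.bas_eq]
  rw [h1, M.bas.repr_sum_self]

theorem Mod.j_inj : Function.Injective M.j := fun x y h => by
  refine (Module.finBasis k A).ext_elem fun i => (algebraMap k F).injective ?_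
  rw [← M.repr_j, ← M.repr_j, h]

theorem Mod.ent_j (x : A) (p : Fin (finrank k A) × Fin (finrank k A)) :
    M.ent (M.j x) p = algebraMap k F (Algebra.leftMulMatrix (Module.finBasis k A) x p.1 p.2) := by
  change Algebra.leftMulMatrix M.bas (M.j x) p.1 p.2 = _
  rw [Algebra.leftMulMatrix_eq_repr_mul, Algebra.leftMulMatrix_eq_repr_mul, M.bas_eq, ← map_mul,
    M.repr_j]

variable [ProperSpace F]

instance Mod.pr : ProperSpace M.E := FiniteDimensional.proper F M.E

instance Mod.cs : ContinuousStar M.E := ⟨M.st.continuous_of_finiteDimensional⟩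

theorem Mod.exists_star : ∃ c : ℝ, 0 < c ∧ ∀ x : M.E, ‖star x‖ ≤ c * ‖x‖ :=
  (LinearMap.toContinuousLinearMap M.st).bound

/-- The closure of the group. -/
noncomputable def Mod.cl (G : Subgroup (unitary A)) : Subgroup (unitary M.E) :=
  (G.map M.u).topologicalClosure

variable (G : Subgroup (unitary A))

/-- The map to the closure. -/
noncomputable def Mod.ι : G →* M.cl G :=
  (M.u.comp G.subtype).codRestrict _ fun g => Subgroup.le_topologicalClosure _ ⟨g, g.2, rfl⟩

/-- The inclusion of the closure in the algebra. -/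
noncomputable def Mod.v : M.cl G →* M.E := (unitary M.E).subtype.comp (M.cl G).subtype

theorem Mod.v_apply (x : M.cl G) : M.v G x = ((x : unitary M.E) : M.E) := rfl

theorem Mod.v_mk (x : unitary M.E) (hx : x ∈ M.cl G) : M.v G ⟨x, hx⟩ = (x : M.E) := rfl

theorem Mod.v_inv (x : M.cl G) : M.v G x⁻¹ = star (M.v G x) := rfl

theorem Mod.v_ι (g : G) : M.v G (M.ι G g) = M.j (g : unitary A) := rfl

theorem Mod.ι_inj : Function.Injective (M.ι G) := fun _ _ h =>
  Subtype.ext (Subtype.ext (M.j_inj (congrArg (M.v G) h)))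

theorem Mod.ι_dense : DenseRange (M.ι G) := by
  intro x
  rw [IsInducing.subtypeVal.closure_eq_preimage_closure_image]
  refine closure_mono ?_ x.2
  rintro _ ⟨g, hg, rfl⟩
  exact ⟨_, ⟨⟨g, hg⟩, rfl⟩, rfl⟩

theorem Mod.isClosedEmbedding : IsClosedEmbedding (M.v G) :=
  (isClosed_unitary (R := M.E)).isClosedEmbedding_subtypeVal.comp
    (Subgroup.isClosed_topologicalClosure (G.map M.u)).isClosedEmbedding_subtypeVal

instance Mod.lc : LocallyCompactSpace (M.cl G) := (M.isClosedEmbedding G).locallyCompactSpace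

instance Mod.sc : SecondCountableTopology (M.cl G) :=
  (M.isClosedEmbedding G).isEmbedding.secondCountableTopology

theorem Mod.cpt_norm (R : ℝ) : IsCompact {x : M.cl G | ‖M.v G x‖ ≤ R} := by
  have h := (M.isClosedEmbedding G).isCompact_preimage (isCompact_closedBall 0 R)
  convert h using 1
  ext x
  simp

theorem Mod.cpt_ent (R : ℝ) :
    IsCompact {x : M.cl G | ∀ p, ‖M.ent (M.v G x) p‖ ≤ R} := by
  have h1 : IsClosedEmbedding M.ent :=
    LinearMap.isClosedEmbedding_of_injective (LinearMap.ker_eq_bot.mpr M.ent_inj)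
  have h := (h1.comp (M.isClosedEmbedding G)).isCompact_preimage
    (isCompact_univ_pi fun _ => isCompact_closedBall (0 : F) R)
  convert h using 1
  ext x
  simp

variable {G}

theorem Mod.bdd_norm {C : Set (M.cl G)} (hC : IsCompact C) :
    ∃ R : ℝ, ∀ x ∈ C, ‖M.v G x‖ ≤ R :=
  hC.exists_bound_of_continuousOn (M.isClosedEmbedding G).continuous.continuousOn

theorem Mod.bdd_ent {C : Set (M.cl G)} (hC : IsCompact C) :
    ∃ R : ℝ, ∀ x ∈ C, ∀ p, ‖M.ent (M.v G x) p‖ ≤ R := by
  obtain ⟨R, hR⟩ := hC.exists_bound_of_continuousOn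
    (M.ent.continuous_of_finiteDimensional.comp (M.isClosedEmbedding G).continuous).continuousOn
  exact ⟨R, fun x hx p => (norm_le_pi_norm _ p).trans (hR x hx)⟩

variable [CharZero k]

theorem Mod.tendsto_cay (h : An k A) {X : Type} {l : Filter X} {a : X → A} {y : M.E}
    (hy : star y = -y) (hu : IsUnit (1 + y)) (ha : Tendsto (fun x => M.j (a x)) l (𝓝 y)) :
    Tendsto (fun x => M.u (h.cay (a x))) l (𝓝 ⟨cy y, cy_mem hy hu⟩) := by
  have : CharZero F := charZero_of_injective_algebraMap (algebraMap k F).injective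
  rw [tendsto_subtype_rng]
  have h1 : ∀ x : A, ((M.u (h.cay x) : unitary M.E) : M.E) =
      cy ((2 : F)⁻¹ • (M.j x - star (M.j x))) := by
    intro x
    change M.j (cy _) = _
    rw [map_cy _ (h.isUnit (h.skew x)), M.j_smul, map_sub, M.j_star, map_inv₀, map_ofNat]
  simp only [h1]
  have h2 : (2 : F)⁻¹ • (y - star y) = y := by
    rw [hy, sub_neg_eq_add, ← two_smul F y, smul_smul, inv_mul_cancel₀ two_ne_zero, one_smul]
  have h3 : Tendsto (fun x => (2 : F)⁻¹ • (M.j (a x) - star (M.j (a x)))) l (𝓝 y) := by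
    have h4 := (ha.sub ha.star).const_smul (2 : F)⁻¹
    rwa [h2] at h4
  obtain ⟨u, hu⟩ := hu
  have h4 := NormedRing.inverse_continuousAt u
  rw [hu] at h4
  exact (tendsto_const_nhds.sub h3).mul (h4.tendsto.comp (tendsto_const_nhds.add h3))

end model

end Vale.Agent.P011N.A1
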