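import Vale.Agent.P011N.Iface

/-!
Abelian subgroups of infinite rank: independence from characters with finite support, primes which
divide values of linear polynomials, eigenvalues.
-/

open Module Polynomial NumberField

namespace Vale.Agent.P011N.A1

/-- Independent elements from a family of characters with finite supports. -/
theorem exists_indep {H P : Type} [CommGroup H] (χ : P → H → ℝ)
    (hχ : ∀ p x y, χ p (x * y) = χ p x + χ p y) (hfin : ∀ x, {p | χ p x ≠ 0}.Finite)
    (hinf : ∀ S : Finset P, ∃ p ∉ S, ∃ x, χ p x ≠ 0) :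
    ∃ j : Multiplicative (ℕ →₀ ℤ) →* H, ∀ a, (∀ p, χ p (j a) = 0) → a = 1 := by
  classical
  choose p hp x hx using hinf
  let S : ℕ → Finset P := fun i => Nat.rec ∅ (fun _ T => T ∪ (hfin (x T)).toFinset) i
  have hS : ∀ i, S (i + 1) = S i ∪ (hfin (x (S i))).toFinset := fun _ => rfl
  have hmono : Monotone S := monotone_nat_of_le_succ fun i => by
    rw [hS]
    exact Finset.subset_union_left
  have hlt : ∀ i j, j < i → χ (p (S i)) (x (S j)) = 0 := by
    intro i j hji
    by_contra hcon
    refine hp (S i) (hmono (Nat.succ_le_of_lt hji) ?_)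
    rw [hS]
    exact Finset.mem_union_right _ ((hfin _).mem_toFinset.mpr hcon)
  let l : P → Additive H →+ ℝ := fun q => AddMonoidHom.mk' (fun y => χ q y.toMul)
    fun y z => hχ q _ _
  let L : (ℕ →₀ ℤ) →ₗ[ℤ] Additive H :=
    Finsupp.linearCombination ℤ fun i => Additive.ofMul (x (S i))
  refine ⟨AddMonoidHom.toMultiplicativeLeft L.toAddMonoidHom, fun a ha => ?_⟩
  by_contra hne
  have hb : a.toAdd ≠ 0 := hne
  have hsupp : a.toAdd.support.Nonempty := Finsupp.support_nonempty_iff.mpr hb
  let i := a.toAdd.support.max' hsupp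
  have h1 : l (p (S i)) (L a.toAdd) = 0 := ha (p (S i))
  rw [Finsupp.linearCombination_apply, Finsupp.sum, map_sum, Finset.sum_eq_single i] at h1
  · rw [map_zsmul, zsmul_eq_mul] at h1
    rcases mul_eq_zero.mp h1 with h | h
    · exact Finsupp.mem_support_iff.mp (Finset.max'_mem _ hsupp) (Int.cast_eq_zero.mp h)
    · exact hx (S i) h
  · intro j hj hji
    have h2 : l (p (S i)) (Additive.ofMul (x (S j))) = 0 :=
      hlt i j (lt_of_le_of_ne (Finset.le_max' _ j hj) hji)
    rw [map_zsmul, h2, smul_zero]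
  · intro h
    exact absurd (Finset.max'_mem _ hsupp) h

section primes

variable {M : Type} [Field M] [NumberField M]

theorem fin_nat_le (w : FinitePlace M) (m : ℕ) : w (m : M) ≤ 1 := by
  have h := FinitePlace.norm_le_one M w.maximalIdeal (m : 𝓞 M)
  rwa [map_natCast, FinitePlace.norm_embedding_eq] at h

theorem fin_nat_lt (w : FinitePlace M) : ∃ m : ℕ, m ≠ 0 ∧ w (m : M) < 1 := by
  refine ⟨Ideal.absNorm w.maximalIdeal.asIdeal, ?_, ?_⟩
  · rw [Ne, Ideal.absNorm_eq_zero_iff]
    exact w.maximalIdeal.ne_bot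
  · have h := (FinitePlace.norm_lt_one_iff_mem M w.maximalIdeal _).mpr
      (Ideal.absNorm_mem w.maximalIdeal.asIdeal)
    rwa [map_natCast, FinitePlace.norm_embedding_eq] at h

theorem fin_add_eq (w : FinitePlace M) {x y : M} (hx : w x = 1) (hy : w y < 1) :
    w (x + y) = 1 := by
  refine le_antisymm ((w.add_le x y).trans (max_le hx.le hy.le)) ?_
  by_contra hcon
  have h1 := w.add_le (x + y) (-y)
  rw [add_neg_cancel_right, hx, map_neg_eq_map] at h1
  exact absurd h1 (not_le.mpr (max_lt (not_le.mp hcon) hy))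

/-- Infinitely many primes divide some value of a linear polynomial. -/
theorem exists_prime (ξ : M) (hξ : ξ ≠ 0) (S : Finset (FinitePlace M)) :
    ∃ w ∉ S, ∃ t : ℕ, 1 + (t : M) * ξ ≠ 0 ∧ w (1 + (t : M) * ξ) < 1 := by
  classical
  have h1 : ∀ w : FinitePlace M, ∃ m : ℕ, m ≠ 0 ∧ w ((m : M) * ξ) < 1 := by
    intro w
    obtain ⟨m, hm, hlt⟩ := fin_nat_lt w
    have hpos : 0 < w ξ := FinitePlace.pos_iff.mpr hξ
    obtain ⟨e, he⟩ := exists_pow_lt_of_lt_one (inv_pos.mpr hpos) hlt
    refine ⟨m ^ e, pow_ne_zero _ hm, ?_⟩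
    rw [Nat.cast_pow, map_mul, map_pow, ← lt_div_iff₀ hpos, one_div]
    exact he
  choose m hm0 hm using h1
  obtain ⟨s, hs⟩ : ∃ s : ℕ, ∀ w : InfinitePlace M, 2 / w ξ < s := by
    obtain ⟨s, hs⟩ := exists_nat_gt (∑ w : InfinitePlace M, 2 / w ξ)
    refine ⟨s, fun w => lt_of_le_of_lt ?_ hs⟩
    exact Finset.single_le_sum (f := fun w : InfinitePlace M => 2 / w ξ)
      (fun w _ => div_nonneg zero_le_two (apply_nonneg w ξ)) (Finset.mem_univ w)
  have hP : 1 ≤ ∏ w ∈ S, m w := Nat.pos_of_ne_zero (Finset.prod_ne_zero_iff.mpr fun w _ => hm0 w)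
  obtain ⟨t, ht⟩ : ∃ t : ℕ, t = s * ∏ w ∈ S, m w := ⟨_, rfl⟩
  have hinf : ∀ w : InfinitePlace M, 1 < w (1 + (t : M) * ξ) := by
    intro w
    have hpos : 0 < w ξ := InfinitePlace.pos_iff.mpr hξ
    have h2 : (s : ℝ) ≤ t := by
      rw [ht]
      exact_mod_cast Nat.le_mul_of_pos_right s hP
    have h3 : 2 < (t : ℝ) * w ξ := by
      rw [← div_lt_iff₀ hpos]
      exact (hs w).trans_le h2
    have h4 : w ((t : M) * ξ) ≤ w (1 + (t : M) * ξ) + w (-1) := by
      have h5 := w.1.add_le (1 + (t : M) * ξ) (-1)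
      rwa [add_neg_cancel_comm] at h5
    have h6 : w (-1) = 1 := by
      change w.1 (-1) = 1
      rw [AbsoluteValue.map_neg, map_one]
    rw [map_mul, InfinitePlace.map_natCast, h6] at h4
    linarith
  have hne : 1 + (t : M) * ξ ≠ 0 := by
    intro h
    obtain ⟨w⟩ : Nonempty (InfinitePlace M) := inferInstance
    have h2 := hinf w
    rw [h, map_zero] at h2
    linarith
  have hfin : ∃ w : FinitePlace M, w (1 + (t : M) * ξ) < 1 := by
    by_contra hcon
    push Not at hcon
    have h2 : 1 ≤ ∏ᶠ w : FinitePlace M, w (1 + (t : M) * ξ) :=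
      finprod_induction (fun r : ℝ => 1 ≤ r) le_rfl
        (fun _ _ => one_le_mul_of_one_le_of_one_le) hcon
    have h3 : 1 < ∏ w : InfinitePlace M, w (1 + (t : M) * ξ) ^ w.mult := by
      obtain ⟨w⟩ : Nonempty (InfinitePlace M) := inferInstance
      rw [← Finset.mul_prod_erase _ _ (Finset.mem_univ w)]
      exact one_lt_mul_of_lt_of_le (one_lt_pow₀ (hinf w) w.mult_ne_zero)
        (Finset.one_le_prod fun v _ => one_le_pow₀ (hinf v).le)
    have h4 := prod_abs_eq_one hne
    nlinarith
  obtain ⟨w, hw⟩ := hfin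
  refine ⟨w, fun hwS => ?_, t, hne, hw⟩
  have h2 : w ((t : M) * ξ) < 1 := by
    rw [ht, ← Finset.mul_prod_erase _ _ hwS]
    have e : ((s * (m w * ∏ v ∈ S.erase w, m v) : ℕ) : M) * ξ =
        ((s * ∏ v ∈ S.erase w, m v : ℕ) : M) * ((m w : M) * ξ) := by
      push_cast
      ring
    rw [e, map_mul]
    exact mul_lt_one_of_nonneg_of_lt_one_right (fin_nat_le w _) (apply_nonneg w _) (hm w)
  rw [fin_add_eq w (map_one w) h2] at hw
  exact lt_irrefl _ hw

end primes

section eig

variable {K A : Type} [Field K] [Ring A] [Algebra K A]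

/-- Evaluation at an eigenvalue. -/
theorem exists_eval {M : Type} [Field M] [Algebra K M] (x : A) {ξ : M}
    (hξ : aeval ξ (minpoly K x) = 0) : ∃ ψ : A → M, ∀ p : K[X], ψ (aeval x p) = aeval ξ p := by
  classical
  refine ⟨fun a => if h : ∃ p : K[X], aeval x p = a then aeval ξ h.choose else 0, fun p => ?_⟩
  have h : ∃ q : K[X], aeval x q = aeval x p := ⟨p, rfl⟩
  change (if h : ∃ q : K[X], aeval x q = aeval x p then aeval ξ h.choose else 0) = _
  rw [dif_pos h]
  obtain ⟨c, hc⟩ := minpoly.dvd K x (p := h.choose - p) (by rw [map_sub, h.choose_spec, sub_self])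
  rw [← sub_eq_zero, ← map_sub, hc, map_mul, hξ, zero_mul]

/-- The inverse of a polynomial in `x` is a polynomial in `x`. -/
theorem inv_poly [FiniteDimensional K A] (x : A) {y r : A} (hy : y ∈ (aeval (R := K) x).range)
    (h : r * y = 1) : r ∈ (aeval (R := K) x).range := by
  let L : (aeval (R := K) x).range →ₗ[K] (aeval (R := K) x).range :=
    LinearMap.mulLeft K ⟨y, hy⟩
  have hinj : Function.Injective L := by
    intro a b hab
    have h1 : y * (a : A) = y * (b : A) := congrArg Subtype.val hab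
    apply Subtype.ext
    rw [← one_mul (a : A), ← h, mul_assoc, h1, ← mul_assoc, h, one_mul]
  obtain ⟨e, he⟩ := LinearMap.injective_iff_surjective.mp hinj 1
  have h1 : y * (e : A) = 1 := congrArg Subtype.val he
  have h2 : r = e := by rw [← mul_one r, ← h1, ← mul_assoc, h, one_mul]
  rw [h2]
  exact e.2

/-- Two distinct eigenvalues in a number field. -/
theorem exists_two [NumberField K] [FiniteDimensional K A] [Nontrivial A] (x : A)
    (hred : ∀ p : K[X], IsNilpotent (aeval x p) → aeval x p = 0)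
    (hx : x ∉ Set.range (algebraMap K A)) :
    ∃ (M : Type) (_ : Field M) (_ : NumberField M) (_ : Algebra K M) (ξ η : M),
      aeval ξ (minpoly K x) = 0 ∧ aeval η (minpoly K x) = 0 ∧ ξ ≠ η ∧ ξ ≠ 0 := by
  classical
  have hint : IsIntegral K x := IsIntegral.of_finite K x
  have hrad : IsRadical (minpoly K x) := by
    rintro m p ⟨c, hc⟩
    refine minpoly.dvd K x (hred p ⟨m, ?_⟩)
    rw [← map_pow, hc, map_mul, minpoly.aeval, zero_mul]
  have hsep : (minpoly K x).Separable :=
    PerfectField.separable_iff_squarefree.mpr (hrad.squarefree (minpoly.ne_zero hint))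
  have hdeg : 2 ≤ (minpoly K x).natDegree := (minpoly.two_le_natDegree_iff hint).mpr hx
  let M := (minpoly K x).SplittingField
  have hM : NumberField M := NumberField.of_module_finite K M
  have hcard := card_rootSet_eq_natDegree hsep (SplittingField.splits (minpoly K x))
  have h2 : 1 < Fintype.card ((minpoly K x).rootSet M) := by
    rw [hcard]
    exact hdeg
  obtain ⟨a, b, hab⟩ := Fintype.exists_pair_of_one_lt_card h2
  have hab' : (a : M) ≠ b := fun h => hab (Subtype.ext h)
  have ha := aeval_eq_zero_of_mem_rootSet a.2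
  have hb := aeval_eq_zero_of_mem_rootSet b.2
  by_cases h0 : (a : M) = 0
  · exact ⟨M, inferInstance, hM, inferInstance, b, a, hb, ha, hab'.symm, h0 ▸ hab'.symm⟩
  · exact ⟨M, inferInstance, hM, inferInstance, a, b, ha, hb, hab', h0⟩

end eig

end Vale.Agent.P011N.A1
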